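import Vale.Agent.P216.V1.W3

/-!
# P216-V, V1-W: `W` is natural for restrictions
-/

set_option linter.unusedSectionVars false
set_option linter.unusedVariables false
set_option linter.all false

open Set Filter Topology
open scoped ContDiff

namespace Vale.Agent.P216.V1.Wc

open Vale.Agent.P231.Fm Vale.Agent.P231.WA

noncomputable section

variable {E : Type} [PseudoMetricSpace E] {X Y : Set E} {ε ε' : ℝ}

/-- restriction of forms with lists -/
def rT (hX : X ⊆ Y) (hε : ε ≤ ε') (w : Form (DA Y ε')) : Form (DA X ε) :=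
  Form.pull id (map_mono hX hX hε) w

section

variable {V : Type} [NormedAddCommGroup V] [NormedSpace ℝ V] [FiniteDimensional ℝ V]
  {u : V → MP E E} {s : V} {F : Finset E}

theorem rT_val (hX : X ⊆ Y) (hε : ε ≤ ε') (w : Form (DA Y ε')) (h : (DA X ε).At u s) :
    (rT hX hε w).val u s = w.val u s := Form.pull_val (f := id) (map_mono hX hX hε) w h

end

theorem rT_d (hX : X ⊆ Y) (hε : ε ≤ ε') (w : Form (DA Y ε')) :
    rT hX hε w.d = (rT hX hε w).d := Form.pull_d id (map_mono hX hX hε) w

theorem rT_cst (hX : X ⊆ Y) (hε : ε ≤ ε') (c : List E → ℝ) :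
    rT hX hε (cst c) = cst c :=
  ext_T fun V _ _ _ u s F hF => by
    rw [rT_val _ _ _ hF.at, cst_val c (hF.mono hX hX hε), cst_val c hF]

theorem rT_S (hX : X ⊆ Y) (hε : ε ≤ ε') (w : Form (DA Y ε')) :
    rT hX hε (S (ins_id Y) w) = S (ins_id X) (rT hX hε w) :=
  ext_T fun V _ _ _ u s F hF => by
    rw [rT_val _ _ _ hF.at, S_val _ _ (hF.mono hX hX hε), S_val _ _ hF]
    refine Finset.sum_congr rfl fun x hx => ?_
    have h4 : Supp (id : E → E) (id : E → E) X X ε F
        (fun y => ((u y).1, id x :: (u s).2)) s :=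
      (hF.ins (ins_id X) hx).sub (l := id x :: (u s).2) fun z hz => hz
    rw [rT_val _ _ _ h4.at]

theorem rT_RR (hX : X ⊆ Y) (hε : ε ≤ ε') (n : ℕ) (w : Form (DA Y ε')) :
    rT hX hε (RR (ins_id Y) n w) = RR (ins_id X) n (rT hX hε w) := by
  induction n with
  | zero => rfl
  | succ n ih => rw [RR_succ, rT_d, rT_S, ih, RR_succ]

theorem res_em (hX : X ⊆ Y) (hε : ε ≤ ε') (w : Form (DA Y ε')) :
    res hX hε (em w) = em (rT hX hε w) :=
  Form.ext_val fun V _ _ _ u s hu => by
    have h1 : (DA X ε).At (fun y => (u y, ([] : List E))) s := map_emp hu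
    rw [em_val _ hu, rT_val _ _ _ h1]
    have h2 : (DM Y ε').At u s := map_monoM hX hε hu
    rw [show (res hX hε (em w)).val u s = _ from Form.pull_val (map_monoM hX hε) _ hu]
    exact em_val w h2

/-- `W` is natural for restrictions -/
theorem res_W (hX : X ⊆ Y) (hε : ε ≤ ε') (n : ℕ) (c : List E → ℝ) :
    res hX hε (W Y ε' n c) = W X ε n c := by
  rw [W_apply, W_apply, map_smul, res_em, AA, rT_S, rT_RR, rT_cst]
  rfl

end

end Vale.Agent.P216.V1.Wc
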