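import Vale.Agent.P216.V1.Hyb

/-!
# The columns of the hybrid complex (P2) and the final form of (P1), (P2)
-/

set_option linter.unusedSectionVars false
set_option linter.unusedVariables false

open Set Filter Topology
open scoped ContDiff

namespace Vale.Agent.P216.V1

open Vale.Agent.P231.Fm Vale.Agent.P231.WA

noncomputable section

variable {E M N : Type} [PseudoMetricSpace E] [PseudoMetricSpace M] [PseudoMetricSpace N]
variable {π : E → N} {ρ : M → N} {A : Set M} {X : Set E} {ε : ℝ} {ι : E → M}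

/-- **(P2), surjectivity**: only the insertion `Ins` is used -/
theorem one_surj (hι : Ins π ρ A X ι) {n : ℕ} {w : Form (DT π ρ A X ε)} (hw : TDg (n + 1) w)
    (hD : D w = 0) :
    ∃ a : Form (DM X ε), Form.IsDeg n a ∧ a.d = 0 ∧
      ∃ b : Form (DT π ρ A X ε), TDg n b ∧ w = i a + D b := by
  obtain ⟨b, hb, h1, h2, h3⟩ := exists_one hι (by omega) hw fun p _ => by rw [hD, len_zero]
  have hv := i_e0 hι h1 h3
  set a := e0 (S hι (w - D b)) with ha
  rw [Nat.add_sub_cancel] at h2 hb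
  have hda : a.d = 0 := by
    have h4 : D (i a : Form (DT π ρ A X ε)) = 0 := by
      rw [hv, D_sub, hD, D_D, sub_zero]
    rw [D_i, neg_eq_zero] at h4
    exact i_inj hι (h4.trans i_zero.symm)
  have h5 : Form.IsDeg n (S hι (w - D b)) := (zg_isS hι).dg n _ h2
  refine ⟨a, h5.pull _ _, hda, b, hb, ?_⟩
  rw [hv]
  abel

/-- **(P2), injectivity** -/
theorem one_inj (hι : Ins π ρ A X ι) {n : ℕ} {a : Form (DM X ε)} {b : Form (DT π ρ A X ε)}
    (hb : TDg (n + 1) b) (h : i a = D b) :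
    ∃ η : Form (DM X ε), Form.IsDeg n η ∧ a = η.d := by
  obtain ⟨b2, hb2, h1, h2, h3⟩ := exists_one hι (by omega) hb fun p hp => by
    rw [← h, len_i, if_neg (by omega)]
  rw [Nat.add_sub_cancel] at h2
  have hv := i_e0 hι h1 h3
  set η := e0 (S hι (b - D b2)) with hη
  have h5 : Form.IsDeg n (S hι (b - D b2)) := (zg_isS hι).dg n _ h2
  refine ⟨-η, (h5.pull _ _).neg, ?_⟩
  have h6 : D (i η : Form (DT π ρ A X ε)) = i a := by
    rw [hv, D_sub, D_D, sub_zero, h]
  rw [D_i] at h6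
  have h7 : (i a : Form (DT π ρ A X ε)) = i (-η).d := by
    rw [← h6, Form.d_neg, i_neg]
  exact i_inj hι h7

/-- **(P2), degree zero** -/
theorem one_inj_zero (hι : Ins π ρ A X ι) {a : Form (DM X ε)} {b : Form (DT π ρ A X ε)}
    (hb : TDg 0 b) (h : i a = D b) : a = 0 := by
  rw [hb.eq_zero, D_zero] at h
  exact i_inj hι (h.trans i_zero.symm)

/-! ### The cases which are used -/

variable {Y : Type} [PseudoMetricSpace Y] {r : Y → N} {A : Set Y}

/-- the cone over a map which does not increase distances, measures on the whole base -/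
theorem con_univ (hr : ∀ x x', dist (r x) (r x') ≤ dist x x') :
    Con (id : N → N) r A Set.univ r := con_self (fun _ _ => Set.mem_univ _) hr

/-- **(P1), (a)** -/
theorem p1_surj (hr : ∀ x x', dist (r x) (r x') ≤ dist x x') {n : ℕ}
    {w : Form (DT (id : N → N) r A Set.univ ε)} (hw : TDg (n + 1) w) (hD : D w = 0) :
    ∃ f : List Y → ℝ, (∀ l, l.length ≠ n + 1 → f l = 0) ∧
      (∀ l, PS.SmL A ε l → Sl.dl f l = 0) ∧
      ∃ b : Form (DT (id : N → N) r A Set.univ ε), TDg n b ∧ w = cst f + D b := by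
  obtain ⟨f, h1, h2, h3⟩ := hyb_surj (con_univ hr) hw hD
  exact ⟨f, h1, fun l hl => by rw [← bl_eq_dl]; exact h2 l hl, h3⟩

/-- **(P1), (b)** -/
theorem p1_inj (hr : ∀ x x', dist (r x) (r x') ≤ dist x x') {n : ℕ} {f : List Y → ℝ}
    (hf : ∀ l, l.length ≠ n + 2 → f l = 0) {b : Form (DT (id : N → N) r A Set.univ ε)}
    (hb : TDg (n + 1) b) (h : cst f = D b) :
    ∃ g : List Y → ℝ, (∀ l, l.length ≠ n + 1 → g l = 0) ∧
      ∀ l, PS.SmL A ε l → f l = Sl.dl g l := by
  obtain ⟨g, h1, h2⟩ := hyb_inj (con_univ hr) hf hb h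
  exact ⟨g, h1, fun l hl => by rw [← bl_eq_dl]; exact h2 l hl⟩

/-- **(P1), (b), degree zero** -/
theorem p1_inj_zero (hr : ∀ x x', dist (r x) (r x') ≤ dist x x') {f : List Y → ℝ}
    {b : Form (DT (id : N → N) r A Set.univ ε)} (hb : TDg 0 b) (h : cst f = D b) {l : List Y}
    (hl : PS.SmL A ε l) (h0 : l ≠ []) : f l = 0 :=
  hyb_inj_zero (con_univ hr) hb h hl h0

/-- **(P2), (a)** -/
theorem p2_surj {n : ℕ} {w : Form (DT (id : N → N) (id : N → N) Set.univ Set.univ ε)}
    (hw : TDg (n + 1) w) (hD : D w = 0) :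
    ∃ a : Form (DM (Set.univ : Set N) ε), Form.IsDeg n a ∧ a.d = 0 ∧
      ∃ b : Form (DT (id : N → N) (id : N → N) Set.univ Set.univ ε), TDg n b ∧ w = i a + D b :=
  one_surj insA hw hD

/-- **(P2), (b)** -/
theorem p2_inj {n : ℕ} {a : Form (DM (Set.univ : Set N) ε)}
    {b : Form (DT (id : N → N) (id : N → N) Set.univ Set.univ ε)} (hb : TDg (n + 1) b)
    (h : i a = D b) : ∃ η : Form (DM (Set.univ : Set N) ε), Form.IsDeg n η ∧ a = η.d :=
  one_inj insA hb h

/-- **(P2), (b), degree zero** -/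
theorem p2_inj_zero {a : Form (DM (Set.univ : Set N) ε)}
    {b : Form (DT (id : N → N) (id : N → N) Set.univ Set.univ ε)} (hb : TDg 0 b)
    (h : i a = D b) : a = 0 :=
  one_inj_zero insA hb h

end

end Vale.Agent.P216.V1
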