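import Vale.Agent.P231.Fm.Dif2
import Vale.Agent.P216.H787.Cls

/-!
# Smooth forms on the Vietoris-Rips spaces of a metric space, with lists of discrete points

`π : E → N`, `ρ : M → N`, `X ⊆ E`, `A ⊆ M`. A point of `DT π ρ A X ε` is a finitely supported signed
measure `μ` of total mass one on `E` together with a list of points of `M`; the support is a small
subset of `X`, the list is small in `A`, and their images in `N` are close. Plots have locally a
common finite support, smooth coordinates, and a locally constant list. `DM X ε` is the space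
without lists.
-/

set_option linter.unusedSectionVars false
set_option linter.unusedVariables false

open Set Filter Topology
open scoped ContDiff

namespace Vale.Agent.P216.V1

open Vale.Agent.P231.Fm

noncomputable section

variable {E M N : Type} [PseudoMetricSpace E] [PseudoMetricSpace M] [PseudoMetricSpace N]

/-- a small finite subset of `X` -/
def SmF (X : Set E) (ε : ℝ) (F : Finset E) : Prop :=
  (∀ x ∈ F, x ∈ X) ∧ ∀ x ∈ F, ∀ y ∈ F, dist x y < ε

theorem SmF.mono {X Y : Set E} {ε ε' : ℝ} {F : Finset E} (h : SmF X ε F) (hX : X ⊆ Y)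
    (hε : ε ≤ ε') : SmF Y ε' F :=
  ⟨fun x hx => hX (h.1 x hx), fun x hx y hy => (h.2 x hx y hy).trans_le hε⟩

/-! ### Alternating sums over the faces of a list -/

section bl

variable {L : Type*} [AddCommGroup L]

/-- the coboundary of a function on lists -/
def bl (f : List M → L) : List M → L
  | [] => 0
  | x :: l => f l - bl (fun l' => f (x :: l')) l

@[simp] theorem bl_nil (f : List M → L) : bl f [] = 0 := rfl

theorem bl_cons (f : List M → L) (x : M) (l : List M) :
    bl f (x :: l) = f l - bl (fun l' => f (x :: l')) l := rfl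

theorem bl_congr {f g : List M → L} {l : List M} (h : ∀ l', l'.length + 1 = l.length →
    l'.Sublist l → f l' = g l') : bl f l = bl g l := by
  induction l generalizing f g with
  | nil => rfl
  | cons x l ih =>
    rw [bl_cons, bl_cons, h l rfl (List.sublist_cons_self x l)]
    congr 1
    refine ih fun l' h1 h2 => h _ ?_ (h2.cons_cons x)
    simp only [List.length_cons]
    omega

theorem bl_add (f g : List M → L) (l : List M) : bl (fun l => f l + g l) l = bl f l + bl g l := by
  induction l generalizing f g with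
  | nil => simp
  | cons x l ih =>
    rw [bl_cons, bl_cons, bl_cons, ih]
    abel

theorem bl_sub (f g : List M → L) (l : List M) : bl (fun l => f l - g l) l = bl f l - bl g l := by
  induction l generalizing f g with
  | nil => simp
  | cons x l ih =>
    rw [bl_cons, bl_cons, bl_cons, ih]
    abel

theorem bl_zero (l : List M) : bl (fun _ => (0 : L)) l = 0 := by
  induction l with
  | nil => rfl
  | cons x l ih => rw [bl_cons, ih, sub_zero]

theorem map_bl {L' : Type*} [AddCommGroup L'] {G : Type*} [FunLike G L L'] [AddMonoidHomClass G L L']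
    (φ : G) (f : List M → L) (l : List M) : φ (bl f l) = bl (fun l => φ (f l)) l := by
  induction l generalizing f with
  | nil => simp
  | cons x l ih => rw [bl_cons, bl_cons, map_sub, ih]

theorem bl_bl (f : List M → L) (l : List M) : bl (bl f) l = 0 := by
  induction l generalizing f with
  | nil => rfl
  | cons x l ih =>
    rw [bl_cons]
    simp only [bl_cons]
    rw [bl_sub, ih, sub_zero, sub_self]

theorem bl_sum {ι : Type*} (s : Finset ι) (f : ι → List M → L) (l : List M) :
    bl (fun l => ∑ i ∈ s, f i l) l = ∑ i ∈ s, bl (f i) l := by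
  induction l generalizing f with
  | nil => simp
  | cons x l ih => simp only [bl_cons, ih, Finset.sum_sub_distrib]

theorem bl_smul {R : Type*} [Ring R] [Module R L] (c : R) (f : List M → L) (l : List M) :
    bl (fun l => c • f l) l = c • bl f l := by
  induction l generalizing f with
  | nil => simp
  | cons x l ih => rw [bl_cons, bl_cons, ih, smul_sub]

theorem bl_eq_dl (f : List M → ℝ) (l : List M) : bl f l = Sl.dl f l := by
  induction l generalizing f with
  | nil => simp [Sl.dl, Sl.bdL]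
  | cons x l ih => rw [bl_cons, ih, Sl.dl_cons]

end bl

/-- measures with a list of points -/
abbrev MP (E M : Type) : Type := (E →₀ ℝ) × List M

/-- `F` supports the plot `u` near `s` -/
structure Supp (π : E → N) (ρ : M → N) (A : Set M) (X : Set E) (ε : ℝ) (F : Finset E) {V : Type}
    [NormedAddCommGroup V] [NormedSpace ℝ V] (u : V → MP E M) (s : V) : Prop where
  smF : SmF X ε F
  smA : PS.SmL A ε (u s).2
  near' : ∀ x ∈ (u s).2, ∀ w ∈ F, dist (ρ x) (π w) < ε
  cst : ∀ᶠ y in 𝓝 s, (u y).2 = (u s).2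
  out : ∀ᶠ y in 𝓝 s, ∀ x, x ∉ F → (u y).1 x = 0
  sum : ∀ᶠ y in 𝓝 s, ∑ x ∈ F, (u y).1 x = 1
  sm : ∀ x, Sm (fun y => (u y).1 x) s

namespace Supp

variable {π : E → N} {ρ : M → N} {A : Set M} {X : Set E} {ε : ℝ} {F : Finset E} {V : Type}
  [NormedAddCommGroup V] [NormedSpace ℝ V] {u : V → MP E M} {s : V}

theorem near (h : Supp π ρ A X ε F u s) : ∀ᶠ y in 𝓝 s, Supp π ρ A X ε F u y := by
  have h1 : ∀ᶠ y in 𝓝 s, ∀ x ∈ F, Sm (fun y => (u y).1 x) y :=
    (Filter.eventually_all_finset F).2 fun x _ => (h.sm x).eventually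
  filter_upwards [h.cst, h.cst.eventually_nhds, h.out.eventually_nhds, h.sum.eventually_nhds, h1]
    with y h2 h3 h4 h5 h6
  refine ⟨h.smF, by rw [h2]; exact h.smA, by rw [h2]; exact h.near', ?_, h4, h5, fun x => ?_⟩
  · filter_upwards [h3] with z hz
    rw [hz, h2]
  · by_cases hx : x ∈ F
    · exact h6 x hx
    · refine Sm.congr (f := fun _ => (0 : ℝ)) (Sm.of_contDiff contDiff_const y) ?_
      filter_upwards [h4] with z hz
      exact (hz x hx).symm

theorem congr (h : Supp π ρ A X ε F u s) {v : V → MP E M} (huv : u =ᶠ[𝓝 s] v) :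
    Supp π ρ A X ε F v s := by
  have e0 := huv.eq_of_nhds
  refine ⟨h.smF, by rw [← e0]; exact h.smA, by rw [← e0]; exact h.near', ?_, ?_, ?_, fun x => ?_⟩
  · filter_upwards [h.cst, huv] with y h1 h2
    rw [← h2, h1, e0]
  · filter_upwards [h.out, huv] with y h1 h2
    rw [← h2]
    exact h1
  · filter_upwards [h.sum, huv] with y h1 h2
    rw [← h2]
    exact h1
  · refine (h.sm x).congr ?_
    filter_upwards [huv] with y h2
    rw [h2]

theorem comp {W : Type} [NormedAddCommGroup W] [NormedSpace ℝ W] {g : W → V} {t : W}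
    (h : Supp π ρ A X ε F u (g t)) (hg : Sm g t) : Supp π ρ A X ε F (u ∘ g) t :=
  ⟨h.smF, h.smA, h.near', hg.continuousAt.eventually h.cst, hg.continuousAt.eventually h.out,
    hg.continuousAt.eventually h.sum, fun x => (h.sm x).comp (g := g) hg⟩

theorem mono {B : Set M} {Y : Set E} {ε' : ℝ} (h : Supp π ρ A X ε F u s) (hA : A ⊆ B) (hX : X ⊆ Y)
    (hε : ε ≤ ε') : Supp π ρ B Y ε' F u s :=
  ⟨h.smF.mono hX hε, h.smA.mono hA hε, fun x hx w hw => (h.near' x hx w hw).trans_le hε, h.cst,
    h.out, h.sum, h.sm⟩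

end Supp

/-- the space of small measures with lists of points -/
def DT (π : E → N) (ρ : M → N) (A : Set M) (X : Set E) (ε : ℝ) : Dif (MP E M) where
  At u s := ∃ F, Supp π ρ A X ε F u s
  open' := fun ⟨F, h⟩ => h.near.mono fun y hy => ⟨F, hy⟩
  congr := fun ⟨F, h⟩ huv => ⟨F, h.congr huv⟩
  comp := fun ⟨F, h⟩ hg => ⟨F, h.comp hg⟩

/-- `F` supports the plot `u` of measures near `s` -/
structure SuppM (X : Set E) (ε : ℝ) (F : Finset E) {V : Type}
    [NormedAddCommGroup V] [NormedSpace ℝ V] (u : V → (E →₀ ℝ)) (s : V) : Prop where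
  smF : SmF X ε F
  out : ∀ᶠ y in 𝓝 s, ∀ x, x ∉ F → u y x = 0
  sum : ∀ᶠ y in 𝓝 s, ∑ x ∈ F, u y x = 1
  sm : ∀ x, Sm (fun y => u y x) s

namespace SuppM

variable {X : Set E} {ε : ℝ} {F : Finset E} {V : Type}
  [NormedAddCommGroup V] [NormedSpace ℝ V] {u : V → (E →₀ ℝ)} {s : V}

theorem near (h : SuppM X ε F u s) : ∀ᶠ y in 𝓝 s, SuppM X ε F u y := by
  have h1 : ∀ᶠ y in 𝓝 s, ∀ x ∈ F, Sm (fun y => u y x) y :=
    (Filter.eventually_all_finset F).2 fun x _ => (h.sm x).eventually
  filter_upwards [h.out.eventually_nhds, h.sum.eventually_nhds, h1] with y h4 h5 h6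
  refine ⟨h.smF, h4, h5, fun x => ?_⟩
  by_cases hx : x ∈ F
  · exact h6 x hx
  · refine Sm.congr (f := fun _ => (0 : ℝ)) (Sm.of_contDiff contDiff_const y) ?_
    filter_upwards [h4] with z hz
    exact (hz x hx).symm

theorem congr (h : SuppM X ε F u s) {v : V → (E →₀ ℝ)} (huv : u =ᶠ[𝓝 s] v) :
    SuppM X ε F v s := by
  refine ⟨h.smF, ?_, ?_, fun x => ?_⟩
  · filter_upwards [h.out, huv] with y h1 h2
    rw [← h2]
    exact h1
  · filter_upwards [h.sum, huv] with y h1 h2
    rw [← h2]
    exact h1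
  · refine (h.sm x).congr ?_
    filter_upwards [huv] with y h2
    rw [h2]

theorem comp {W : Type} [NormedAddCommGroup W] [NormedSpace ℝ W] {g : W → V} {t : W}
    (h : SuppM X ε F u (g t)) (hg : Sm g t) : SuppM X ε F (u ∘ g) t :=
  ⟨h.smF, hg.continuousAt.eventually h.out, hg.continuousAt.eventually h.sum,
    fun x => (h.sm x).comp (g := g) hg⟩

theorem mono {Y : Set E} {ε' : ℝ} (h : SuppM X ε F u s) (hX : X ⊆ Y) (hε : ε ≤ ε') :
    SuppM Y ε' F u s :=
  ⟨h.smF.mono hX hε, h.out, h.sum, h.sm⟩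

end SuppM

/-- **the space of small measures** (the realisation of the Vietoris-Rips complex) -/
def DM (X : Set E) (ε : ℝ) : Dif (E →₀ ℝ) where
  At u s := ∃ F, SuppM X ε F u s
  open' := fun ⟨F, h⟩ => h.near.mono fun y hy => ⟨F, hy⟩
  congr := fun ⟨F, h⟩ huv => ⟨F, h.congr huv⟩
  comp := fun ⟨F, h⟩ hg => ⟨F, h.comp hg⟩

variable {π : E → N} {ρ : M → N} {A B : Set M} {X Y : Set E} {ε ε' : ℝ}

theorem map_mono (hA : A ⊆ B) (hX : X ⊆ Y) (hε : ε ≤ ε') : (DT π ρ A X ε).Map (DT π ρ B Y ε') id :=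
  fun ⟨F, h⟩ => ⟨F, h.mono hA hX hε⟩

theorem map_monoM (hX : X ⊆ Y) (hε : ε ≤ ε') : (DM X ε).Map (DM Y ε') id :=
  fun ⟨F, h⟩ => ⟨F, h.mono hX hε⟩

/-- restriction of forms to smaller sets and scales -/
def res (hX : X ⊆ Y) (hε : ε ≤ ε') : Form (DM Y ε') →ₐ[ℝ] Form (DM X ε) :=
  Form.pullA id (map_monoM hX hε)

/-- the measure without the list -/
theorem map_fst : (DT π ρ A X ε).Map (DM X ε) Prod.fst :=
  fun ⟨F, h⟩ => ⟨F, h.smF, h.out, h.sum, h.sm⟩

/-- the measure with the empty list -/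
theorem map_emp : (DM X ε).Map (DT π ρ A X ε) (fun μ => (μ, [])) :=
  fun ⟨F, h⟩ => ⟨F, h.smF, ⟨by simp, by simp⟩, by simp, Eventually.of_forall fun _ => rfl,
    h.out, h.sum, h.sm⟩

/-- change of the list -/
theorem Supp.sub {F : Finset E} {V : Type} [NormedAddCommGroup V] [NormedSpace ℝ V]
    {u : V → MP E M} {s : V} (h : Supp π ρ A X ε F u s) {l : List M} (hl : ∀ x ∈ l, x ∈ (u s).2) :
    Supp π ρ A X ε F (fun y => ((u y).1, l)) s :=
  ⟨h.smF, ⟨fun x hx => h.smA.1 x (hl x hx), fun x hx y hy => h.smA.2 x (hl x hx) y (hl y hy)⟩,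
    fun x hx => h.near' x (hl x hx), Eventually.of_forall fun _ => rfl, h.out, h.sum, h.sm⟩

/-- `ι` moves the points of `X` to `A`, over `N`, without increasing distances -/
structure Ins (π : E → N) (ρ : M → N) (A : Set M) (X : Set E) (ι : E → M) : Prop where
  lip : ∀ w w', dist (ι w) (ι w') ≤ dist w w'
  lipN : ∀ w w', dist (π w) (π w') ≤ dist w w'
  lipR : ∀ x x', dist (ρ x) (ρ x') ≤ dist x x'
  mem : ∀ w ∈ X, ι w ∈ A
  fib : ∀ w, ρ (ι w) = π w
  cross : ∀ x w, dist x (ι w) ≤ dist (ρ x) (π w)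

/-- insertion of the image of a point of the support -/
theorem Supp.ins {F : Finset E} {V : Type} [NormedAddCommGroup V] [NormedSpace ℝ V]
    {u : V → MP E M} {s : V} (h : Supp π ρ A X ε F u s) {ι : E → M} (hι : Ins π ρ A X ι) {x : E}
    (hx : x ∈ F) : Supp π ρ A X ε F (fun y => ((u y).1, ι x :: (u y).2)) s := by
  have h1 := (dist_self x).symm.trans_lt (h.smF.2 x hx x hx)
  refine ⟨h.smF, ⟨?_, ?_⟩, ?_, ?_, h.out, h.sum, h.sm⟩
  · intro z hz
    rcases List.mem_cons.1 hz with rfl | hz
    · exact hι.mem _ (h.smF.1 x hx)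
    · exact h.smA.1 z hz
  · intro z hz z' hz'
    rcases List.mem_cons.1 hz with rfl | hz <;> rcases List.mem_cons.1 hz' with rfl | hz'
    · rw [dist_self]
      exact h1
    · rw [dist_comm]
      exact (hι.cross _ _).trans_lt (h.near' z' hz' x hx)
    · exact (hι.cross _ _).trans_lt (h.near' z hz x hx)
    · exact h.smA.2 z hz z' hz'
  · intro z hz w hw
    rcases List.mem_cons.1 hz with rfl | hz
    · rw [hι.fib]
      exact (hι.lipN x w).trans_lt (h.smF.2 x hx w hw)
    · exact h.near' z hz w hw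
  · filter_upwards [h.cst] with y hy
    rw [hy]

/-- the case `ρ = id` -/
theorem ins_self {π : E → N} {B : Set N} (hπ : ∀ w w', dist (π w) (π w') ≤ dist w w')
    (hA : ∀ w ∈ X, π w ∈ B) : Ins π id B X π :=
  ⟨hπ, hπ, fun _ _ => le_rfl, hA, fun _ => rfl, fun _ _ => le_rfl⟩

end

end Vale.Agent.P216.V1
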