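import Vale.Agent.P216.V1.Hyb2

/-!
# The hybrid complex over a point

If the set `X` of the measures has at most the point `x₀`, there are no forms of positive degree:
a form on measures with lists is a function of the list.
-/

set_option linter.unusedSectionVars false
set_option linter.unusedVariables false

open Set Filter Topology
open scoped ContDiff

namespace Vale.Agent.P216.V1

open Vale.Agent.P231.Fm Vale.Agent.P231.WA

noncomputable section

variable {E M N : Type} [PseudoMetricSpace E] [PseudoMetricSpace M] [PseudoMetricSpace N]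
variable {π : E → N} {ρ : M → N} {A : Set M} {X : Set E} {ε : ℝ} {x₀ : E}

/-- plots of measures on a point are locally constant -/
theorem SuppM.point (hX : ∀ x ∈ X, x = x₀) {V : Type} [NormedAddCommGroup V] [NormedSpace ℝ V]
    {u : V → (E →₀ ℝ)} {s : V} {F : Finset E} (h : SuppM X ε F u s) :
    F = {x₀} ∧ x₀ ∈ X ∧ u =ᶠ[𝓝 s] fun _ => Finsupp.single x₀ 1 := by
  classical
  have hF : ∀ x ∈ F, x = x₀ := fun x hx => hX x (h.smF.1 x hx)
  have h0 : x₀ ∈ F := by
    by_contra h0
    have h1 : F = ∅ := Finset.eq_empty_of_forall_notMem fun x hx => h0 (hF x hx ▸ hx)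
    have h2 := h.sum.self_of_nhds
    rw [h1, Finset.sum_empty] at h2
    exact zero_ne_one h2
  have h1 : F = {x₀} := by
    ext x
    rw [Finset.mem_singleton]
    exact ⟨hF x, fun hx => hx ▸ h0⟩
  refine ⟨h1, h.smF.1 _ h0, ?_⟩
  filter_upwards [h.out, h.sum] with y h2 h3
  rw [h1] at h2 h3
  rw [Finset.sum_singleton] at h3
  ext x
  by_cases hx : x = x₀
  · rw [hx, h3, Finsupp.single_eq_same]
  · rw [h2 x (by rwa [Finset.mem_singleton]), Finsupp.single_eq_of_ne hx]

/-- plots of measures with lists on a point are locally constant -/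
theorem Supp.point (hX : ∀ x ∈ X, x = x₀) {V : Type} [NormedAddCommGroup V] [NormedSpace ℝ V]
    {u : V → MP E M} {s : V} {F : Finset E} (h : Supp π ρ A X ε F u s) :
    F = {x₀} ∧ x₀ ∈ X ∧ u =ᶠ[𝓝 s] fun _ => (Finsupp.single x₀ 1, (u s).2) := by
  have hM : SuppM X ε F (fun y => (u y).1) s := ⟨h.smF, h.out, h.sum, h.sm⟩
  obtain ⟨h1, h2, h3⟩ := hM.point hX
  refine ⟨h1, h2, ?_⟩
  filter_upwards [h3, h.cst] with y h4 h5
  exact Prod.ext h4 h5

/-- the dimension of a point -/
theorem dimLE_DM (hX : ∀ x ∈ X, x = x₀) : DimLE (DM X ε) 0 := by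
  intro V _ _ _ u s h
  obtain ⟨F, h⟩ := h
  obtain ⟨h1, h2, h3⟩ := h.point hX
  have h4 : (DM X ε).At (fun _ : V => Finsupp.single x₀ (1 : ℝ)) s := ⟨F, h.congr h3⟩
  refine ⟨(Fin 0 → ℝ), inferInstance, inferInstance, inferInstance,
    fun _ => Finsupp.single x₀ 1, fun _ => 0, by simp, Sm.of_contDiff contDiff_const _, ?_, h3⟩
  exact Dif.At_const h4 _

/-- the dimension of a point with lists -/
theorem dimLE_DT (hX : ∀ x ∈ X, x = x₀) : DimLE (DT π ρ A X ε) 0 := by
  intro V _ _ _ u s h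
  obtain ⟨F, h⟩ := h
  obtain ⟨h1, h2, h3⟩ := h.point hX
  have h4 : (DT π ρ A X ε).At (fun _ : V => (Finsupp.single x₀ (1 : ℝ), (u s).2)) s :=
    ⟨F, h.congr h3⟩
  refine ⟨(Fin 0 → ℝ), inferInstance, inferInstance, inferInstance,
    fun _ => (Finsupp.single x₀ 1, (u s).2), fun _ => 0, by simp,
    Sm.of_contDiff contDiff_const _, ?_, h3⟩
  exact Dif.At_const h4 _

/-- **there are no forms of positive degree on a point** -/
theorem DM_eq_zero (hX : ∀ x ∈ X, x = x₀) {k : ℕ} (hk : 0 < k) {a : Form (DM X ε)}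
    (ha : Form.IsDeg k a) : a = 0 := DimLE.isDeg_eq_zero (dimLE_DM hX) hk ha

theorem DT_eq_zero (hX : ∀ x ∈ X, x = x₀) {k : ℕ} (hk : 0 < k) {w : Form (DT π ρ A X ε)}
    (hw : Form.IsDeg k w) : w = 0 := DimLE.isDeg_eq_zero (dimLE_DT hX) hk hw

variable (x₀) in
/-- the value of a form at the point -/
def ptM (a : Form (DM X ε)) : ℝ := aug (a.val (fun _ : ℝ => Finsupp.single x₀ 1) 0)

variable (x₀) in
/-- the values of a form at the point, as a function of the list -/
def ptL (w : Form (DT π ρ A X ε)) (l : List M) : ℝ :=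
  aug (w.val (fun _ : ℝ => ((Finsupp.single x₀ 1, l) : MP E M)) 0)

/-- the value of a form on a locally constant plot -/
theorem val_of_const {Z : Type*} {D : Dif Z} (w : Form D) {V : Type} [NormedAddCommGroup V]
    [NormedSpace ℝ V] [FiniteDimensional ℝ V] {u : V → Z} {s : V} {p : Z} (hu : D.At u s)
    (h : u =ᶠ[𝓝 s] fun _ => p) :
    w.val u s = algebraMap ℝ (Lam V) (aug (w.val (fun _ : ℝ => p) 0)) := by
  have h0 : D.At (fun _ : V => p) s := D.congr hu h
  have h2 : D.At (fun _ : ℝ => p) ((fun _ : V => (0 : ℝ)) s) := Dif.At_const h0 0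
  rw [w.congr hu h]
  have h3 : (fun _ : V => p) = (fun _ : ℝ => p) ∘ (fun _ : V => (0 : ℝ)) := rfl
  have h6 : fderiv ℝ (fun _ : V => (0 : ℝ)) s = 0 := by simp
  have h7 := w.nat (u := fun _ : ℝ => p) (g := fun _ : V => (0 : ℝ)) (x := s) h2
    (Sm.of_contDiff contDiff_const _)
  rw [h3, h7, h6]
  exact Vale.Agent.P231.Co.pull_zero_clm (E := V) (w.val (fun _ : ℝ => p) 0)

/-- a form on a point is a constant -/
theorem eq_ptM (hX : ∀ x ∈ X, x = x₀) (a : Form (DM X ε)) : a = ptM x₀ a • (1 : Form (DM X ε)) :=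
  Form.ext_val fun V _ _ _ u s hu => by
    obtain ⟨F, h⟩ := id hu
    rw [Form.smul_val, Form.one_val hu, val_of_const a hu (h.point hX).2.2,
      Algebra.algebraMap_eq_smul_one]
    rfl

/-- **a form on measures with lists over a point is a function of the list** -/
theorem eq_ptL (hX : ∀ x ∈ X, x = x₀) (w : Form (DT π ρ A X ε)) : w = cst (ptL x₀ w) :=
  ext_T fun V _ _ _ u s F h => by
    rw [cst_val _ h, val_of_const w h.at (h.point hX).2.2]
    rfl

/-- the same with the right lengths -/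
theorem eq_cst_of_len (hX : ∀ x ∈ X, x = x₀) {m : ℕ} {w : Form (DT π ρ A X ε)}
    (hw : len m w = w) : ∃ c : List M → ℝ, (∀ l, l.length ≠ m → c l = 0) ∧ w = cst c := by
  refine ⟨fun l => ind m l * ptL x₀ w l, fun l hl => ?_, ?_⟩
  · simp only [ind, if_neg hl, zero_mul]
  · rw [← len_cst, ← eq_ptL hX, hw]

theorem TDg.len_point (hX : ∀ x ∈ X, x = x₀) {m : ℕ} {w : Form (DT π ρ A X ε)}
    (hw : TDg m w) : len m w = w := by
  refine ext_len fun p => ?_
  rw [len_len]
  split_ifs with hp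
  · rw [hp]
  · rcases Nat.lt_or_ge m p with h3 | h3
    · rw [hw.top p h3]
    · obtain ⟨q, hq⟩ : ∃ q, p + (q + 1) = m := ⟨m - p - 1, by omega⟩
      rw [DT_eq_zero hX (Nat.succ_pos q) (hw.deg p (q + 1) hq)]

/-- **elements of degree `n` over a point** -/
theorem TDg_point (hX : ∀ x ∈ X, x = x₀) {n : ℕ} {w : Form (DT π ρ A X ε)} :
    TDg (n + 1) w ↔ ∃ c : List M → ℝ, (∀ l, l.length ≠ n + 1 → c l = 0) ∧ w = cst c := by
  constructor
  · exact fun hw => eq_cst_of_len hX (hw.len_point hX)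
  · rintro ⟨c, hc, rfl⟩
    exact TDg_cst (by omega) hc

/-- the differential of a closed form over a point -/
theorem D_point (hX : ∀ x ∈ X, x = x₀) (w : Form (DT π ρ A X ε)) : D w = del w := by
  rw [eq_ptL hX w, D_cst, del_cst]

section P

variable {κ : M → E}

/-- over a point every map is a cone -/
theorem con_point {Y : Type} [PseudoMetricSpace Y] {B : Set Y} [Subsingleton N] {r : Y → N} :
    Con (id : N → N) r B Set.univ r :=
  con_univ fun x x' => by rw [Subsingleton.elim (r x) (r x'), dist_self]; exact dist_nonneg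

end P

end

end Vale.Agent.P216.V1
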