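import Vale.Agent.P216.V1.Zig
import Vale.Agent.P216.H929V.HPull
import Vale.Agent.P216.H285V.Germ

/-!
# Naturality of the hybrid complex

`SqD π ρ A X δ π' ρ' A' X' ε f ψ` : the maps `f` on points of the measure and `ψ` on points of the
lists move the data at scale `δ` to the data at scale `ε`. Pull back along `pm f ψ` commutes with
the insertion `i`, the list functions `cst`, the contraction `S`, the cone operator `h`, the
relation `RelT`. The absolute case and germs.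
-/

set_option linter.unusedSectionVars false
set_option linter.unusedVariables false

open Set Filter Topology
open scoped ContDiff

namespace Vale.Agent.P216.V1

open Vale.Agent.P231.Fm Vale.Agent.P231.WA Vale.Agent.P216.H929V

noncomputable section

variable {E M N : Type} [PseudoMetricSpace E] [PseudoMetricSpace M] [PseudoMetricSpace N]
variable {π : E → N} {ρ : M → N} {A : Set M} {X : Set E} {δ : ℝ}
variable {E' M' N' : Type} [PseudoMetricSpace E'] [PseudoMetricSpace M'] [PseudoMetricSpace N']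
variable {π' : E' → N'} {ρ' : M' → N'} {A' : Set M'} {X' : Set E'} {ε : ℝ}
variable {f : E → E'} {ψ : M → M'}

/-! ### Finite sums -/

/-- the values of the image of a measure -/
theorem mapDomain_val {F : Finset E} {v : E →₀ ℝ} (h : ∀ x, x ∉ F → v x = 0) (x' : E') :
    Finsupp.mapDomain f v x' = ∑ x ∈ F, v x * (Finsupp.single (f x) (1 : ℝ)) x' := by
  have hs : v.support ⊆ F := fun x hx => by
    by_contra hF
    exact (Finsupp.mem_support_iff.1 hx) (h x hF)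
  rw [Finsupp.mapDomain, Finsupp.sum_apply, Finsupp.sum_of_support_subset _ hs _
    (fun x _ => by rw [Finsupp.single_zero, Finsupp.zero_apply])]
  refine Finset.sum_congr rfl fun x _ => ?_
  rw [← smul_eq_mul, ← Finsupp.smul_apply, Finsupp.smul_single, smul_eq_mul, mul_one]

/-- integration against the image of a measure -/
theorem sum_mapDomain {L : Type*} [AddCommGroup L] [Module ℝ L] {F : Finset E} {F' : Finset E'}
    {v : E →₀ ℝ} (h : ∀ x, x ∉ F → v x = 0) (hF : ∀ x ∈ F, f x ∈ F') (b : E' → L) :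
    ∑ x' ∈ F', Finsupp.mapDomain f v x' • b x' = ∑ x ∈ F, v x • b (f x) := by
  have h1 : ∀ x' ∈ F', Finsupp.mapDomain f v x' • b x' =
      ∑ x ∈ F, v x • ((Finsupp.single (f x) (1 : ℝ)) x' • b x') := fun x' _ => by
    rw [mapDomain_val h, Finset.sum_smul]
    exact Finset.sum_congr rfl fun x _ => by rw [mul_smul]
  rw [Finset.sum_congr rfl h1, Finset.sum_comm]
  refine Finset.sum_congr rfl fun x hx => ?_
  rw [← Finset.smul_sum]
  congr 1
  rw [Finset.sum_eq_single (f x) (fun x' _ hx' => by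
    rw [Finsupp.single_eq_of_ne hx', zero_smul]) fun h => absurd (hF x hx) h,
    Finsupp.single_eq_same, one_smul]

theorem mapDomain_out {F : Finset E} {F' : Finset E'} {v : E →₀ ℝ} (h : ∀ x, x ∉ F → v x = 0)
    (hF : ∀ x ∈ F, f x ∈ F') {x' : E'} (hx' : x' ∉ F') : Finsupp.mapDomain f v x' = 0 := by
  rw [mapDomain_val h]
  refine Finset.sum_eq_zero fun x hx => ?_
  rw [Finsupp.single_eq_of_ne (fun e => hx' (by rw [e]; exact hF x hx)), mul_zero]

/-! ### The absolute case: maps of small measures -/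

/-- `f` maps the `δ`-small subsets of `X` to `ε`-small subsets of `X'` -/
structure SmM (X : Set E) (δ : ℝ) (X' : Set E') (ε : ℝ) (f : E → E') : Prop where
  mem : ∀ x ∈ X, f x ∈ X'
  sm : ∀ x ∈ X, ∀ y ∈ X, dist x y < δ → dist (f x) (f y) < ε

theorem SmM.id (X : Set E) (δ : ℝ) : SmM X δ X δ id := ⟨fun _ h => h, fun _ _ _ _ h => h⟩

theorem SmM.comp {E'' : Type} [PseudoMetricSpace E''] {X'' : Set E''} {γ : ℝ} {g : E' → E''}
    (hg : SmM X' ε X'' γ g) (hf : SmM X δ X' ε f) : SmM X δ X'' γ (g ∘ f) :=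
  ⟨fun x hx => hg.mem _ (hf.mem x hx), fun x hx y hy h =>
    hg.sm _ (hf.mem x hx) _ (hf.mem y hy) (hf.sm x hx y hy h)⟩

theorem SmM.of_lip (hX : ∀ x ∈ X, f x ∈ X') (hf : ∀ x ∈ X, ∀ y ∈ X, dist (f x) (f y) ≤ dist x y)
    (h : δ ≤ ε) : SmM X δ X' ε f :=
  ⟨hX, fun x hx y hy hxy => (hf x hx y hy).trans_lt (hxy.trans_le h)⟩

theorem SmM.smF {F : Finset E} (hf : SmM X δ X' ε f) (hF : SmF X δ F) {F' : Finset E'}
    (h' : ∀ x' ∈ F', ∃ x ∈ F, f x = x') : SmF X' ε F' := by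
  refine ⟨fun x' hx' => ?_, fun x' hx' y' hy' => ?_⟩
  · obtain ⟨x, hx, rfl⟩ := h' x' hx'
    exact hf.mem x (hF.1 x hx)
  · obtain ⟨x, hx, rfl⟩ := h' x' hx'
    obtain ⟨y, hy, rfl⟩ := h' y' hy'
    exact hf.sm x (hF.1 x hx) y (hF.1 y hy) (hF.2 x hx y hy)

theorem SmM.suppM (hf : SmM X δ X' ε f) {F : Finset E} {F' : Finset E'}
    (hF : ∀ x ∈ F, f x ∈ F') (h' : ∀ x' ∈ F', ∃ x ∈ F, f x = x') {V : Type}
    [NormedAddCommGroup V] [NormedSpace ℝ V] {u : V → (E →₀ ℝ)} {s : V} (h : SuppM X δ F u s) :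
    SuppM X' ε F' (Finsupp.mapDomain f ∘ u) s := by
  refine ⟨hf.smF h.smF h', ?_, ?_, fun x' => ?_⟩
  · filter_upwards [h.out] with y hy x' hx'
    exact mapDomain_out hy hF hx'
  · filter_upwards [h.out, h.sum] with y hy hs
    have := sum_mapDomain hy hF (fun _ => (1 : ℝ))
    simp only [smul_eq_mul, mul_one] at this
    rw [hs] at this
    exact this
  · have h1 : (fun y => ∑ x ∈ F, u y x * (Finsupp.single (f x) (1 : ℝ)) x') =ᶠ[𝓝 s]
        fun y => (Finsupp.mapDomain f ∘ u) y x' := by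
      filter_upwards [h.out] with y hy
      exact (mapDomain_val hy x').symm
    refine Sm.congr ?_ h1
    filter_upwards [(Filter.eventually_all_finset F).2 fun x _ => h.sm x] with y hy
    exact ContDiffAt.sum fun x hx => (hy x hx).mul contDiffAt_const

/-- **maps of small measures** -/
theorem map_dm (hf : SmM X δ X' ε f) : (DM X δ).Map (DM X' ε) (Finsupp.mapDomain f) := by
  classical
  rintro V _ _ _ u s ⟨F, h⟩
  exact ⟨F.image f, hf.suppM (fun x hx => Finset.mem_image_of_mem f hx)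
    (fun x' hx' => Finset.mem_image.1 hx') h⟩

/-- pull back of forms along a map of small measures -/
def pm0 (hf : SmM X δ X' ε f) : Form (DM X' ε) →ₐ[ℝ] Form (DM X δ) :=
  Form.pullA (Finsupp.mapDomain f) (map_dm hf)

theorem pm0_apply (hf : SmM X δ X' ε f) (a : Form (DM X' ε)) :
    pm0 hf a = Form.pull (Finsupp.mapDomain f) (map_dm hf) a := rfl

theorem pm0_d (hf : SmM X δ X' ε f) (a : Form (DM X' ε)) : pm0 hf a.d = (pm0 hf a).d :=
  Form.pull_d _ (map_dm hf) a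

theorem pm0_sg (hf : SmM X δ X' ε f) (a : Form (DM X' ε)) : pm0 hf a.sg = (pm0 hf a).sg :=
  Form.pull_sg _ (map_dm hf) a

theorem pm0_deg (hf : SmM X δ X' ε f) {q : ℕ} {a : Form (DM X' ε)} (h : Form.IsDeg q a) :
    Form.IsDeg q (pm0 hf a) := h.pull _ (map_dm hf)

theorem pm0_id (a : Form (DM X δ)) : pm0 (SmM.id X δ) a = a := by
  have h : (Finsupp.mapDomain (id : E → E) : (E →₀ ℝ) → (E →₀ ℝ)) = id :=
    funext fun v => Finsupp.mapDomain_id
  exact (Form.pull_congr (map_dm (SmM.id X δ)) Dif.map_id h a).trans (Form.pull_id _ a)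

theorem pm0_comp {E'' : Type} [PseudoMetricSpace E''] {X'' : Set E''} {γ : ℝ} {g : E' → E''}
    (hg : SmM X' ε X'' γ g) (hf : SmM X δ X' ε f) (hgf : SmM X δ X'' γ (g ∘ f))
    (a : Form (DM X'' γ)) : pm0 hgf a = pm0 hf (pm0 hg a) := by
  have h : (Finsupp.mapDomain (g ∘ f) : (E →₀ ℝ) → (E'' →₀ ℝ)) =
      Finsupp.mapDomain g ∘ Finsupp.mapDomain f := funext fun v => Finsupp.mapDomain_comp
  have h1 : (DM X δ).Map (DM X'' γ) (Finsupp.mapDomain g ∘ Finsupp.mapDomain f) :=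
    (map_dm hg).comp (map_dm hf)
  exact (Form.pull_congr (map_dm hgf) h1 h a).trans (Form.pull_comp (map_dm hf) (map_dm hg) h1 a)

/-! ### Naturality of the homotopy operator -/

theorem map_cyl {P Q : Type} {D₁ : Dif P} {D₂ : Dif Q} {Φ : P → Q} (h : D₁.Map D₂ Φ) :
    (D₁.prod (Dif.lin ℝ)).Map (D₂.prod (Dif.lin ℝ)) (Prod.map Φ (id : ℝ → ℝ)) :=
  fun h1 => ⟨h h1.1, h1.2⟩

/-- the homotopy operator is natural -/
theorem pull_K {P Q : Type} {D₁ : Dif P} {D₂ : Dif Q} {Φ : P → Q} (h : D₁.Map D₂ Φ)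
    (w : Form (D₂.prod (Dif.lin ℝ))) :
    Form.pull Φ h (Form.K w) = Form.K (Form.pull (Prod.map Φ (id : ℝ → ℝ)) (map_cyl h) w) :=
  Form.ext_val fun V _ _ _ u x hu => by
    rw [Form.pull_val _ _ hu, Form.K_val _ (h hu), Form.K_val _ hu, kop, kop]
    refine intervalIntegral.integral_congr fun t _ => ?_
    change at1 _ = at1 _
    rw [Form.pull_val _ _ (Form.cyl_at hu t)]
    rfl

/-! ### Squares -/

/-- the map on measures with lists -/
def pm (f : E → E') (ψ : M → M') (p : MP E M) : MP E' M' := (Finsupp.mapDomain f p.1, p.2.map ψ)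

theorem pm_fst (p : MP E M) : (pm f ψ p).1 = Finsupp.mapDomain f p.1 := rfl

theorem pm_snd (p : MP E M) : (pm f ψ p).2 = p.2.map ψ := rfl

theorem sq_pm : Sq (pm f ψ) := Sq.mk (Finsupp.mapDomain f) ψ

variable (π ρ A X δ π' ρ' A' X' ε f ψ) in
/-- `(f, ψ)` maps the data `π, ρ, A, X` at scale `δ` to the data `π', ρ', A', X'` at scale `ε` -/
structure SqD : Prop where
  smX : SmM X δ X' ε f
  smA : SmM A δ A' ε ψ
  smN : ∀ a ∈ A, ∀ x ∈ X, dist (ρ a) (π x) < δ → dist (ρ' (ψ a)) (π' (f x)) < ε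

/-- the condition from a map of the bases -/
theorem SqD.of_map {g : N → N'} (smX : SmM X δ X' ε f) (smA : SmM A δ A' ε ψ)
    (h1 : ∀ x ∈ X, π' (f x) = g (π x)) (h2 : ∀ a ∈ A, ρ' (ψ a) = g (ρ a))
    (hg : ∀ y y', dist y y' < δ → dist (g y) (g y') < ε) : SqD π ρ A X δ π' ρ' A' X' ε f ψ :=
  ⟨smX, smA, fun a ha x hx h => by rw [h1 x hx, h2 a ha]; exact hg _ _ h⟩

/-- the absolute case -/
theorem SqD.abs (hf : SmM X δ X' ε f) :
    SqD (id : E → E) (id : E → E) X X δ (id : E' → E') (id : E' → E') X' X' ε f f :=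
  ⟨hf, hf, fun a ha x hx h => hf.sm a ha x hx h⟩

theorem SqD.supp (hf : SqD π ρ A X δ π' ρ' A' X' ε f ψ) {F : Finset E} {F' : Finset E'}
    (hF : ∀ x ∈ F, f x ∈ F') (h' : ∀ x' ∈ F', ∃ x ∈ F, f x = x') {V : Type}
    [NormedAddCommGroup V] [NormedSpace ℝ V] {u : V → MP E M} {s : V}
    (h : Supp π ρ A X δ F u s) : Supp π' ρ' A' X' ε F' (pm f ψ ∘ u) s := by
  have h0 : SuppM X' ε F' (Finsupp.mapDomain f ∘ fun y => (u y).1) s :=
    hf.smX.suppM hF h' ⟨h.smF, h.out, h.sum, h.sm⟩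
  refine ⟨h0.smF, ⟨fun x' hx' => ?_, fun x' hx' y' hy' => ?_⟩, fun x' hx' w' hw' => ?_, ?_,
    h0.out, h0.sum, h0.sm⟩
  · obtain ⟨x, hx, rfl⟩ := List.mem_map.1 hx'
    exact hf.smA.mem x (h.smA.1 x hx)
  · obtain ⟨x, hx, rfl⟩ := List.mem_map.1 hx'
    obtain ⟨y, hy, rfl⟩ := List.mem_map.1 hy'
    exact hf.smA.sm x (h.smA.1 x hx) y (h.smA.1 y hy) (h.smA.2 x hx y hy)
  · obtain ⟨x, hx, rfl⟩ := List.mem_map.1 hx'
    obtain ⟨w, hw, rfl⟩ := h' w' hw'
    exact hf.smN x (h.smA.1 x hx) w (h.smF.1 w hw) (h.near' x hx w hw)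
  · filter_upwards [h.cst] with y hy
    change (u y).2.map ψ = (u s).2.map ψ
    rw [hy]

/-- **maps of squares** -/
theorem SqD.map (hf : SqD π ρ A X δ π' ρ' A' X' ε f ψ) :
    (DT π ρ A X δ).Map (DT π' ρ' A' X' ε) (pm f ψ) := by
  classical
  rintro V _ _ _ u s ⟨F, h⟩
  exact ⟨F.image f, hf.supp (fun x hx => Finset.mem_image_of_mem f hx)
    (fun x' hx' => Finset.mem_image.1 hx') h⟩

/-- pull back along a square -/
def pq (hf : SqD π ρ A X δ π' ρ' A' X' ε f ψ) (w : Form (DT π' ρ' A' X' ε)) :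
    Form (DT π ρ A X δ) := Form.pull (pm f ψ) hf.map w

section

variable (hf : SqD π ρ A X δ π' ρ' A' X' ε f ψ)
include hf

theorem pq_D (w : Form (DT π' ρ' A' X' ε)) : pq hf (D w) = D (pq hf w) := pull_D sq_pm hf.map w

theorem pq_len (k : ℕ) (w : Form (DT π' ρ' A' X' ε)) : pq hf (len k w) = len k (pq hf w) :=
  pull_len sq_pm hf.map k w

theorem pq_del (w : Form (DT π' ρ' A' X' ε)) : pq hf (del w) = del (pq hf w) :=
  pull_del sq_pm hf.map w

theorem pq_tdg {m : ℕ} {w : Form (DT π' ρ' A' X' ε)} (h : TDg m w) : TDg m (pq hf w) :=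
  pull_tdg sq_pm hf.map h

theorem pq_star (a b : Form (DT π' ρ' A' X' ε)) :
    pq hf (star a b) = star (pq hf a) (pq hf b) := pull_star' sq_pm hf.map a b

theorem pq_add (v w : Form (DT π' ρ' A' X' ε)) : pq hf (v + w) = pq hf v + pq hf w :=
  map_add (Form.pullA (pm f ψ) hf.map) v w

theorem pq_sub (v w : Form (DT π' ρ' A' X' ε)) : pq hf (v - w) = pq hf v - pq hf w :=
  map_sub (Form.pullA (pm f ψ) hf.map) v w

/-- **list functions** -/
theorem pq_cst (c : List M' → ℝ) : pq hf (cst c) = cst (fun l => c (l.map ψ)) :=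
  pull_cst sq_pm hf.map _ _ fun p => rfl

/-- **forms on the measures** -/
theorem pq_i (a : Form (DM X' ε)) : pq hf (i a) = i (pm0 hf.smX a) := by
  rw [i, pq_len, i]
  congr 1
  exact H285V.pull_pull_eq hf.map map_fst map_fst (map_dm hf.smX) rfl a

theorem pq_e0 (w : Form (DT π' ρ' A' X' ε)) : e0 (pq hf w) = pm0 hf.smX (e0 w) :=
  H285V.pull_pull_eq map_emp hf.map (map_dm hf.smX) map_emp rfl w

/-- **the contraction** -/
theorem pq_S {ι : E → M} {ι' : E' → M'} (hι : Ins π ρ A X ι) (hι' : Ins π' ρ' A' X' ι')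
    (hc : ∀ x ∈ X, ψ (ι x) = ι' (f x)) (w : Form (DT π' ρ' A' X' ε)) :
    pq hf (S hι' w) = S hι (pq hf w) := by
  classical
  refine ext_T fun V _ _ _ u s F h => ?_
  have hF : ∀ x ∈ F, f x ∈ F.image f := fun x hx => Finset.mem_image_of_mem f hx
  have h' := hf.supp hF (fun x' hx' => Finset.mem_image.1 hx') h
  rw [pq, Form.pull_val _ _ h.at, S_val hι' _ h', S_val hι _ h]
  have h1 := sum_mapDomain (f := f) (h.out.self_of_nhds) hF
    (fun x' => w.val (fun y => (((pm f ψ ∘ u) y).1, ι' x' :: ((pm f ψ ∘ u) s).2)) s)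
  refine h1.trans (Finset.sum_congr rfl fun x hx => ?_)
  congr 1
  have h2 : Supp π ρ A X δ F (fun y => ((u y).1, ι x :: (u s).2)) s :=
    (h.ins hι hx).sub (l := ι x :: (u s).2) fun z hz => hz
  refine Eq.trans ?_ (Form.pull_val hf.map w h2.at).symm
  rw [← hc x (h.smF.1 x hx)]
  rfl

/-- **the cone operator** -/
theorem pq_h {κ : M → E} {κ' : M' → E'} (hκ : Con π ρ A X κ) (hκ' : Con π' ρ' A' X' κ')
    (hc : ∀ x, f (κ x) = κ' (ψ x)) (w : Form (DT π' ρ' A' X' ε)) :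
    pq hf (h hκ' w) = h hκ (pq hf w) := by
  rw [pq, h, pull_K, h, pq]
  congr 1
  refine H285V.pull_pull_eq (map_cyl hf.map) (map_Hc hκ') (map_Hc hκ) hf.map ?_ w
  funext p
  obtain ⟨⟨μ, l⟩, t⟩ := p
  cases l with
  | nil => rfl
  | cons x l =>
    change Hc κ' ((Finsupp.mapDomain f μ, ψ x :: l.map ψ), t) =
      pm f ψ (Hc κ ((μ, x :: l), t))
    rw [Hc_cons, Hc_cons, pm, Finsupp.mapDomain_add, Finsupp.mapDomain_smul,
      Finsupp.mapDomain_smul, Finsupp.mapDomain_single, hc]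
    rfl

/-- **naturality of the comparison** -/
theorem RelT.pull {n : ℕ} {a : Form (DM X' ε)} {c : List M' → ℝ} (h : RelT π' ρ' A' n a c) :
    RelT π ρ A n (pm0 hf.smX a) (fun l => c (l.map ψ)) := by
  obtain ⟨b, hb, e⟩ := h
  refine ⟨pq hf b, pq_tdg hf hb, ?_⟩
  rw [← pq_D, ← e, pq_sub, pq_i, pq_cst]

end

/-- **naturality of the comparison**, the absolute case -/
theorem Rel.pull (hf : SmM X δ X' ε f) {n : ℕ} {a : Form (DM X' ε)} {c : List E' → ℝ}
    (h : Rel X' ε n a c) : Rel X δ n (pm0 hf a) (fun l => c (l.map f)) :=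
  RelT.pull (SqD.abs hf) h

/-! ### Germs -/

/-- `f` maps small subsets of `X` to small subsets of `X'`, uniformly -/
def UM (X : Set E) (X' : Set E') (f : E → E') : Prop :=
  ∀ ε : ℝ, 0 < ε → ∃ δ : ℝ, 0 < δ ∧ SmM X δ X' ε f

theorem UM.of_lip (hX : ∀ x ∈ X, f x ∈ X')
    (hf : ∀ x ∈ X, ∀ y ∈ X, dist (f x) (f y) ≤ dist x y) : UM X X' f :=
  fun ε h => ⟨ε, h, SmM.of_lip hX hf le_rfl⟩

theorem UM.of_unif (hX : ∀ x ∈ X, f x ∈ X') (hf : UniformContinuous f) : UM X X' f :=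
  fun ε h => by
    obtain ⟨δ, h1, h2⟩ := Metric.uniformContinuous_iff.1 hf ε h
    exact ⟨δ, h1, hX, fun x _ y _ hxy => h2 hxy⟩

theorem UM.id (X : Set E) : UM X X id := fun ε h => ⟨ε, h, SmM.id X ε⟩

theorem UM.comp {E'' : Type} [PseudoMetricSpace E''] {X'' : Set E''} {g : E' → E''}
    (hg : UM X' X'' g) (hf : UM X X' f) : UM X X'' (g ∘ f) := fun ε h => by
  obtain ⟨δ, h1, h2⟩ := hg ε h
  obtain ⟨γ, h3, h4⟩ := hf δ h1
  exact ⟨γ, h3, h2.comp h4⟩

/-- maps of germs -/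
theorem UM.fam (hf : UM X X' f) :
    H285V.Fam.Map (H285V.vr X) (H285V.vr X') (Finsupp.mapDomain f) := fun ε h => by
  obtain ⟨δ, h1, h2⟩ := hf ε h
  exact ⟨δ, h1, map_dm h2⟩

/-- **pull back of germs** -/
def gmap (hf : UM X X' f) : V609.Cdga.Hom (H285V.vr X').cdga (H285V.vr X).cdga :=
  H285V.Fam.pull (Finsupp.mapDomain f) hf.fam

theorem gmap_germ (hf : UM X X' f) (hε : 0 < ε) (hδ : 0 < δ) (h : SmM X δ X' ε f)
    (w : Form (DM X' ε)) :
    (gmap hf).f ((H285V.vr X').germ hε w) = (H285V.vr X).germ hδ (pm0 h w) :=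
  H285V.Fam.pull_germ (F := H285V.vr X) (F' := H285V.vr X') (Finsupp.mapDomain f) hf.fam hε hδ
    (map_dm h) w

theorem gmap_id (z : H285V.GA X) : (gmap (UM.id X)).f z = z := by
  obtain ⟨ε, hε, w, rfl⟩ := (H285V.vr X).exists_germ z
  exact (gmap_germ (UM.id X) hε hε (SmM.id X ε) w).trans (congrArg _ (pm0_id w))

theorem gmap_comp {E'' : Type} [PseudoMetricSpace E''] {X'' : Set E''} {g : E' → E''}
    (hg : UM X' X'' g) (hf : UM X X' f) (h : UM X X'' (g ∘ f)) (z : H285V.GA X'') :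
    (gmap h).f z = (gmap hf).f ((gmap hg).f z) := by
  obtain ⟨ε, hε, w, rfl⟩ := (H285V.vr X'').exists_germ z
  obtain ⟨δ, h1, h2⟩ := hg ε hε
  obtain ⟨γ, h3, h4⟩ := hf δ h1
  have e1 := gmap_germ hg hε h1 h2 w
  have e2 := gmap_germ hf h1 h3 h4 (pm0 h2 w)
  have e3 := gmap_germ h hε h3 (h2.comp h4) w
  refine e3.trans ((congrArg _ (pm0_comp h2 h4 (h2.comp h4) w)).trans (e2.symm.trans ?_))
  exact congrArg (gmap hf).f e1.symm

theorem gmap_congr {f' : E → E'} (hf : UM X X' f) (hf' : UM X X' f') (h : f = f')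
    (z : H285V.GA X') : (gmap hf).f z = (gmap hf').f z := by
  subst h
  rfl

end

end Vale.Agent.P216.V1
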