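import Vale.Agent.P216.V1.Tot

set_option linter.unusedSectionVars false
set_option linter.unusedVariables false

open Set Filter Topology
open scoped ContDiff

namespace Vale.Agent.P216.V1

open Vale.Agent.P231.Fm Vale.Agent.P231.WA

noncomputable section

variable {E M N : Type} [PseudoMetricSpace E] [PseudoMetricSpace M] [PseudoMetricSpace N]
variable {π : E → N} {ρ : M → N} {A : Set M} {X : Set E} {ε : ℝ} {ι : E → M}

/-- a form as an element of length one -/
def i (θ : Form (DM X ε)) : Form (DT π ρ A X ε) := len 1 (Form.pull Prod.fst map_fst θ)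

/-- the part on the empty list -/
def e0 (w : Form (DT π ρ A X ε)) : Form (DM X ε) := Form.pull (fun μ => (μ, [])) map_emp w

variable {V : Type} [NormedAddCommGroup V] [NormedSpace ℝ V] [FiniteDimensional ℝ V]
  {u : V → MP E M} {s : V} {F : Finset E}

theorem i_val (θ : Form (DM X ε)) (h : Supp π ρ A X ε F u s) :
    (i θ : Form (DT π ρ A X ε)).val u s =
      if (u s).2.length = 1 then θ.val (fun y => (u y).1) s else 0 := by
  rw [i, len_val _ _ h, Form.pull_val _ _ h.at]
  rfl

theorem SuppM.at {u : V → (E →₀ ℝ)} (h : SuppM X ε F u s) : (DM X ε).At u s := ⟨F, h⟩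

theorem e0_val (w : Form (DT π ρ A X ε)) {u : V → (E →₀ ℝ)} (h : SuppM X ε F u s) :
    (e0 w).val u s = w.val (fun y => (u y, [])) s := by
  rw [e0, Form.pull_val _ _ h.at]
  rfl

theorem i_add (θ η : Form (DM X ε)) : (i (θ + η) : Form (DT π ρ A X ε)) = i θ + i η := by
  rw [i, i, i, ← len_add]
  congr 1
  exact map_add (Form.pullA Prod.fst map_fst) θ η

theorem i_smul (c : ℝ) (θ : Form (DM X ε)) : (i (c • θ) : Form (DT π ρ A X ε)) = c • i θ := by
  rw [i, i, ← len_smul]
  congr 1
  exact map_smul (Form.pullA Prod.fst map_fst) c θ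

theorem i_zero : (i (0 : Form (DM X ε)) : Form (DT π ρ A X ε)) = 0 := by
  have := i_smul (π := π) (ρ := ρ) (A := A) (0 : ℝ) (0 : Form (DM X ε))
  rwa [zero_smul, zero_smul] at this

theorem i_neg (θ : Form (DM X ε)) : (i (-θ) : Form (DT π ρ A X ε)) = -i θ := by
  have := i_smul (π := π) (ρ := ρ) (A := A) (-1 : ℝ) θ
  rwa [neg_one_smul, neg_one_smul] at this

theorem i_sub (θ η : Form (DM X ε)) : (i (θ - η) : Form (DT π ρ A X ε)) = i θ - i η := by
  rw [sub_eq_add_neg, i_add, i_neg, ← sub_eq_add_neg]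

theorem d_i (θ : Form (DM X ε)) : (i θ : Form (DT π ρ A X ε)).d = i θ.d := by
  rw [i, d_len, ← Form.pull_d]
  rfl

theorem del_i (θ : Form (DM X ε)) : del (i θ : Form (DT π ρ A X ε)) = 0 :=
  ext_T fun V _ _ _ u s F h => by
    have h1 : ∀ l', (∀ x ∈ l', x ∈ (u s).2) →
        (i θ : Form (DT π ρ A X ε)).val (fun y => ((u y).1, l')) s =
          if l'.length = 1 then θ.val (fun y => (u y).1) s else 0 :=
      fun l' hl' => i_val θ (h.sub hl')
    rw [del_val _ h, Form.zero_val, bl_congr' h1]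
    rcases (u s).2 with _ | ⟨x, _ | ⟨y, _ | ⟨z, l⟩⟩⟩
    · rfl
    · simp [bl_cons]
    · simp [bl_cons]
    · rw [bl_congr (g := fun _ => 0) fun l' h2 _ => ?_, bl_zero]
      rw [if_neg]
      simp only [List.length_cons] at h2
      omega

theorem D_i (θ : Form (DM X ε)) : D (i θ : Form (DT π ρ A X ε)) = -i θ.d := by
  rw [D, del_i, zero_add, d_i]
  refine ext_T fun V _ _ _ u s F h => ?_
  rw [sc_val _ _ h, Form.neg_val, i_val _ h]
  split_ifs with h1
  · rw [sgn, h1, pow_one, neg_one_smul]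
  · rw [smul_zero, neg_zero]

theorem isDeg_i {q : ℕ} {θ : Form (DM X ε)} (h : Form.IsDeg q θ) :
    Form.IsDeg q (i θ : Form (DT π ρ A X ε)) := by
  change Form.part q (len 1 _) = len 1 _
  rw [part_len, (h.pull Prod.fst map_fst).part_eq]

theorem len_i (p : ℕ) (θ : Form (DM X ε)) :
    len p (i θ : Form (DT π ρ A X ε)) = if p = 1 then i θ else 0 := len_len _ _ _

theorem TDg_i {q : ℕ} {θ : Form (DM X ε)} (h : Form.IsDeg q θ) :
    TDg (q + 1) (i θ : Form (DT π ρ A X ε)) := by
  refine ⟨by rw [len_i, if_neg (by omega)], fun p q' hp => ?_, fun p hp => ?_⟩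
  · rw [len_i]
    split_ifs with h1
    · have : q' = q := by omega
      subst this
      exact isDeg_i h
    · exact Form.IsDeg.zero _
  · rw [len_i, if_neg (by omega)]

/-- the form can be read off -/
theorem e0_S_i (hι : Ins π ρ A X ι) (θ : Form (DM X ε)) :
    e0 (S hι (i θ : Form (DT π ρ A X ε))) = θ :=
  Form.ext_val fun V _ _ _ u s ⟨F, hF⟩ => by
    have h1 : Supp π ρ A X ε F (fun y => (u y, ([] : List M))) s :=
      ⟨hF.smF, ⟨by simp, by simp⟩, by simp, Eventually.of_forall fun _ => rfl, hF.out, hF.sum,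
        hF.sm⟩
    rw [e0_val _ hF, S_val hι _ h1]
    have h2 : ∀ x ∈ F, u s x • (i θ : Form (DT π ρ A X ε)).val (fun y => (u y, [ι x])) s =
        u s x • θ.val u s := by
      intro x hx
      rw [i_val _ (h1.ins hι hx)]
      simp
    rw [Finset.sum_congr rfl h2, ← Finset.sum_smul, hF.sum.self_of_nhds, one_smul]

theorem i_inj (hι : Ins π ρ A X ι) {θ η : Form (DM X ε)}
    (h : (i θ : Form (DT π ρ A X ε)) = i η) : θ = η := by
  rw [← e0_S_i hι θ, h, e0_S_i]

/-- cocycles of length one are forms -/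
theorem i_e0 (hι : Ins π ρ A X ι) {w : Form (DT π ρ A X ε)} (h1 : len 1 w = w) (h2 : del w = 0) :
    i (e0 (S hι w)) = w := by
  have h3 : del (S hι w) = w := by
    have := V1.del_S hι w
    rwa [h2, S_zero, add_zero] at this
  refine ext_T fun V _ _ _ u s F h => ?_
  rw [i_val _ h]
  have h4 : w.val u s = (len 1 w).val u s := by rw [h1]
  rw [h4, len_val _ _ h]
  split_ifs with h5
  · obtain ⟨x, hx⟩ := List.length_eq_one_iff.1 h5
    have h6 : w.val u s = (del (S hι w)).val u s := by rw [h3]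
    have hM : SuppM X ε F (fun y => (u y).1) s := ⟨h.smF, h.out, h.sum, h.sm⟩
    rw [h6, del_val _ h, hx, e0_val _ hM, bl_cons, bl_nil, sub_zero]
  · rfl

end

end Vale.Agent.P216.V1
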