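import Vale.Agent.P216.V1.Prod3

/-!
# V1-P (5): products with forms which do not depend on the list

`len 1 (Form.pull Prod.fst map_fst ω)` is the embedding of a form `ω` on `DM X ε`.
-/

set_option linter.unusedSectionVars false
set_option linter.unusedVariables false

open Set Filter Topology
open scoped ContDiff

namespace Vale.Agent.P216.V1

open Vale.Agent.P231.Fm Vale.Agent.P231.WA

noncomputable section

section star

variable {M : Type} [PseudoMetricSpace M] {R : Type*} [Ring R] (σ : R →+* R)

theorem starL_mul_right (w : R) (f : List M → R) {l : List M} (hl : l ≠ []) :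
    starL σ (fun l' => if l'.length = 1 then w else 0) f l = f l * w := by
  induction l generalizing f with
  | nil => exact absurd rfl hl
  | cons x l ih =>
    rw [starL_cons]
    rcases l with _ | ⟨y, l'⟩
    · simp
    · rw [ih (fun l' => f (x :: l')) (by simp), if_neg (by simp), mul_zero, zero_add]

theorem starL_mul_left (w : R) (g : List M → R) {l : List M} (hl : l ≠ []) :
    starL σ g (fun l' => if l'.length = 1 then w else 0) l = σ^[l.length - 1] w * g l := by
  rcases l with _ | ⟨x, l⟩
  · exact absurd rfl hl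
  rw [starL_cons]
  have h1 : starL σ g (fun l' => if (x :: l').length = 1 then w else 0) l =
      starL σ g (fun _ => 0) l := by
    refine starL_congr _ (fun l' _ h => if_neg ?_) fun _ _ _ => rfl
    rw [List.length_cons]
    have := List.length_pos_iff.2 h
    omega
  rw [h1, starL_zero_left, add_zero, if_pos (by simp)]
  rfl

end star

section an

variable {V : Type} [NormedAddCommGroup V] [NormedSpace ℝ V] [FiniteDimensional ℝ V]

/-- graded commutativity -/
theorem Lam_comm {q r : ℕ} {v w : Lam V} (hv : prt q v = v) (hw : prt r w = w) :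
    v * w = (-1 : ℝ) ^ (q * r) • (w * v) := by
  have h1 : inv v = (-1 : ℝ) ^ q • v := by
    have := inv_prt q v
    rwa [hv] at this
  have h2 : inv w = (-1 : ℝ) ^ r • w := by
    have := inv_prt r w
    rwa [hw] at this
  rcases Nat.even_or_odd q with hq | hq
  · rw [hq.neg_one_pow, one_smul] at h1
    rw [mul_comm_of_even h1, (hq.mul_right r).neg_one_pow, one_smul]
  · rw [hq.neg_one_pow, neg_one_smul] at h1
    rw [mul_of_odd h1, h2, smul_mul_assoc, pow_mul, hq.neg_one_pow]

theorem iv_iter_prt {q : ℕ} (n : ℕ) {v : Lam V} (hv : prt q v = v) :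
    (iv V)^[n] v = (-1 : ℝ) ^ (q * n) • v := by
  induction n with
  | zero => simp
  | succ n ih =>
    have h1 : inv v = (-1 : ℝ) ^ q • v := by
      have := inv_prt q v
      rwa [hv] at this
    rw [Function.iterate_succ_apply', ih, iv_smul, iv_apply, h1, smul_smul, ← pow_add, Nat.mul_succ]

theorem iv_iter_even (n : ℕ) {v : Lam V} (hv : inv v = v) : (iv V)^[n] v = v := by
  induction n with
  | zero => rfl
  | succ n ih => rw [Function.iterate_succ_apply', ih, iv_apply, hv]

end an

variable {E M N : Type} [PseudoMetricSpace E] [PseudoMetricSpace M] [PseudoMetricSpace N]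
variable {π : E → N} {ρ : M → N} {A : Set M} {X : Set E} {ε : ℝ}
variable {V : Type} [NormedAddCommGroup V] [NormedSpace ℝ V] [FiniteDimensional ℝ V]
  {u : V → MP E M} {s : V} {F : Finset E}

theorem sl_pull (w : Form (DM X ε)) (h : Supp π ρ A X ε F u s) {l : List M}
    (hl : ∀ x ∈ l, x ∈ (u s).2) :
    sl (Form.pull Prod.fst (map_fst (π := π) (ρ := ρ) (A := A)) w) u s l =
      w.val (fun y => (u y).1) s :=
  Form.pull_val _ _ (h.sub hl).at

theorem pull_fst_val (w : Form (DM X ε)) (h : Supp π ρ A X ε F u s) :
    (Form.pull Prod.fst (map_fst (π := π) (ρ := ρ) (A := A)) w).val u s =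
      w.val (fun y => (u y).1) s :=
  Form.pull_val _ _ h.at

theorem sl_len_pull (w : Form (DM X ε)) (h : Supp π ρ A X ε F u s) {l : List M}
    (hl : ∀ x ∈ l, x ∈ (u s).2) :
    sl (len 1 (Form.pull Prod.fst (map_fst (π := π) (ρ := ρ) (A := A)) w)) u s l =
      if l.length = 1 then w.val (fun y => (u y).1) s else 0 := by
  refine (len_val _ _ (h.sub hl)).trans ?_
  rw [pull_fst_val w (h.sub hl)]

/-- multiplication with a base form from the right -/
theorem star_base {a : Form (DT π ρ A X ε)} (ha : len 0 a = 0) (w : Form (DM X ε)) :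
    star a (len 1 (Form.pull Prod.fst map_fst w)) = a * Form.pull Prod.fst map_fst w :=
  ext_T fun V _ _ _ u s F h => by
    rw [star_val _ _ h, Form.mul_val, pull_fst_val w h]
    have e1 : starL (iv V) (sl (len 1 (Form.pull Prod.fst
        (map_fst (π := π) (ρ := ρ) (A := A)) w)) u s) (sl a u s) (u s).2 =
        starL (iv V) (fun l' => if l'.length = 1 then w.val (fun y => (u y).1) s else 0)
          (sl a u s) (u s).2 :=
      starL_congr _ (fun _ _ _ => rfl) fun l' hl' _ => sl_len_pull w h fun x hx => hl'.subset hx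
    rw [e1]
    rcases eq_or_ne (u s).2 [] with h0 | h0
    · rw [h0, val_nil ha h h0, zero_mul]
      rfl
    · rw [starL_mul_right _ _ _ h0, sl_self a h]

/-- multiplication with a base form from the left -/
theorem base_star_val {a : Form (DT π ρ A X ε)} (w : Form (DM X ε))
    (h : Supp π ρ A X ε F u s) (h0 : (u s).2 ≠ []) :
    (star (len 1 (Form.pull Prod.fst map_fst w)) a).val u s =
      (iv V)^[(u s).2.length - 1] (w.val (fun y => (u y).1) s) * a.val u s := by
  rw [star_val _ _ h]
  have e1 : starL (iv V) (sl a u s) (sl (len 1 (Form.pull Prod.fst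
      (map_fst (π := π) (ρ := ρ) (A := A)) w)) u s) (u s).2 =
      starL (iv V) (sl a u s)
        (fun l' => if l'.length = 1 then w.val (fun y => (u y).1) s else 0) (u s).2 :=
    starL_congr _ (fun l' hl' _ => sl_len_pull w h fun x hx => hl'.subset hx) fun _ _ _ => rfl
  rw [e1, starL_mul_left _ _ _ h0, sl_self a h]

/-- **even base forms are central** -/
theorem base_star_even {a : Form (DT π ρ A X ε)} (ha : len 0 a = 0) {w : Form (DM X ε)}
    (hw : w.sg = w) :
    star (len 1 (Form.pull Prod.fst map_fst w)) a =
      star a (len 1 (Form.pull Prod.fst map_fst w)) := by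
  rw [star_base ha]
  refine ext_T fun V _ _ _ u s F h => ?_
  rcases eq_or_ne (u s).2 [] with h0 | h0
  · rw [Form.mul_val, val_nil ha h h0, zero_mul, star_val _ _ h, h0]
    rfl
  · have h1 : inv (w.val (fun y => (u y).1) s) = w.val (fun y => (u y).1) s := by
      rw [← Form.sg_val, hw]
    rw [base_star_val w h h0, iv_iter_even _ h1, Form.mul_val, pull_fst_val w h,
      mul_comm_of_even h1]

/-- **base forms are graded central** -/
theorem base_star {m q : ℕ} {a : Form (DT π ρ A X ε)} (ha : TDg m a) {w : Form (DM X ε)}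
    (hw : Form.IsDeg q w) :
    star (len 1 (Form.pull Prod.fst map_fst w)) a =
      (-1 : ℝ) ^ (q * (m - 1)) • star a (len 1 (Form.pull Prod.fst map_fst w)) := by
  rw [star_base ha.zero]
  refine ext_T fun V _ _ _ u s F h => ?_
  rw [Form.smul_val, Form.mul_val]
  rcases eq_or_ne (u s).2 [] with h0 | h0
  · rw [val_nil ha.zero h h0, zero_mul, smul_zero, star_val _ _ h, h0]
    rfl
  rw [base_star_val w h h0, pull_fst_val w h]
  have hL := List.length_pos_iff.2 h0
  have h1 : prt q (w.val (fun y => (u y).1) s) = w.val (fun y => (u y).1) s := by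
    rw [← Form.part_val, hw.part_eq]
  rcases lt_or_ge m (u s).2.length with h2 | h2
  · have := ha.sl_top h (fun x hx => hx) h2
    rw [sl_self a h] at this
    rw [this, mul_zero, zero_mul, smul_zero]
  · have h3 := ha.sl_deg h (fun x hx => hx) (q := m - (u s).2.length) (by omega)
    rw [sl_self a h] at h3
    rw [iv_iter_prt _ h1, smul_mul_assoc, Lam_comm h1 h3, smul_smul, ← pow_add, ← Nat.mul_add,
      show (u s).2.length - 1 + (m - (u s).2.length) = m - 1 by omega]

/-- the embedding is multiplicative -/
theorem base_star_base (w w' : Form (DM X ε)) :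
    star (len 1 (Form.pull Prod.fst (map_fst (π := π) (ρ := ρ) (A := A)) w))
      (len 1 (Form.pull Prod.fst map_fst w')) = len 1 (Form.pull Prod.fst map_fst (w * w')) := by
  rw [star_base (by rw [len_len, if_neg (by norm_num)])]
  have h1 : Form.pull Prod.fst (map_fst (π := π) (ρ := ρ) (A := A)) (w * w') =
      Form.pull Prod.fst map_fst w * Form.pull Prod.fst map_fst w' :=
    map_mul (Form.pullA Prod.fst (map_fst (π := π) (ρ := ρ) (A := A))) w w'
  rw [h1, len, len, sc, sc, mul_assoc]

theorem del_base (w : Form (DM X ε)) :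
    del (len 1 (Form.pull Prod.fst (map_fst (π := π) (ρ := ρ) (A := A)) w)) = 0 :=
  ext_T fun V _ _ _ u s F h => by
    rw [del_val _ h, Form.zero_val]
    have h1 : bl (fun l => (len 1 (Form.pull Prod.fst
        (map_fst (π := π) (ρ := ρ) (A := A)) w)).val (fun y => ((u y).1, l)) s) (u s).2 =
        bl (fun l => ind 1 l • w.val (fun y => (u y).1) s) (u s).2 :=
      bl_congr' fun l' hl' => by
        refine (sl_len_pull w h hl').trans ?_
        rw [ind]
        split_ifs
        · rw [one_smul]
        · rw [zero_smul]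
    have h2 := map_bl (LinearMap.toSpanSingleton ℝ (Lam V) (w.val (fun y => (u y).1) s))
      (ind 1) (u s).2
    rw [bl_ind_one, map_zero] at h2
    exact h1.trans h2.symm

theorem D_base (w : Form (DM X ε)) :
    D (len 1 (Form.pull Prod.fst (map_fst (π := π) (ρ := ρ) (A := A)) w)) =
      -len 1 (Form.pull Prod.fst map_fst w.d) := by
  rw [D, del_base, zero_add, d_len, ← Form.pull_d]
  refine ext_T fun V _ _ _ u s F h => ?_
  rw [sc_val _ _ h, Form.neg_val, len_val _ _ h]
  split_ifs with h1
  · rw [sgn, h1, pow_one, neg_one_smul]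
  · rw [smul_zero, neg_zero]

theorem TDg_base {q : ℕ} {w : Form (DM X ε)} (hw : Form.IsDeg q w) :
    TDg (q + 1) (len 1 (Form.pull Prod.fst (map_fst (π := π) (ρ := ρ) (A := A)) w)) := by
  refine TDg.of_sl ?_ ?_ ?_
  · intro V _ _ _ u s F h h0
    rw [len_val _ _ h, h0, if_neg (by simp)]
  · intro V _ _ _ u s F h p hp
    rw [len_val _ _ h]
    split_ifs with h1
    · rw [pull_fst_val w h, show p = q by omega, ← Form.part_val, hw.part_eq]
    · rw [map_zero]
  · intro V _ _ _ u s F h hm
    rw [len_val _ _ h, if_neg (by omega)]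

end

end Vale.Agent.P216.V1
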