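import Vale.Agent.P216.V1.Prod2

/-!
# V1-P (4): associativity, the unit, signs, naturality, centrality
-/

set_option linter.unusedSectionVars false
set_option linter.unusedVariables false

open Set Filter Topology
open scoped ContDiff

namespace Vale.Agent.P216.V1

open Vale.Agent.P231.Fm Vale.Agent.P231.WA

noncomputable section

section star

variable {M M' : Type} [PseudoMetricSpace M] [PseudoMetricSpace M'] {R : Type*} [Ring R]
variable (σ : R →+* R)

theorem iterate_map_mul' (n : ℕ) (x y : R) : σ^[n] (x * y) = σ^[n] x * σ^[n] y :=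
  iterate_map_mul σ n x y

theorem starL_iter_mul (x : R) (g h : List M → R) (l : List M) :
    starL σ h (fun l' => σ^[l'.length] x * g l') l = σ^[l.length] x * starL σ h g l := by
  induction l generalizing x g with
  | nil => simp
  | cons y l ih =>
    rw [starL_cons, starL_cons]
    have h1 : (fun l' : List M => σ^[(y :: l').length] x * g (y :: l')) =
        fun l' => σ^[l'.length] (σ x) * g (y :: l') := by
      funext l'
      rw [List.length_cons, Function.iterate_succ_apply]
    have e1 : σ^[l.length] (σ^[[y].length] x) = σ^[(y :: l).length] x :=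
      (Function.iterate_add_apply σ l.length 1 x).symm
    have e2 : σ^[l.length] (σ x) = σ^[(y :: l).length] x :=
      (Function.iterate_succ_apply σ l.length x).symm
    rw [h1, ih, iterate_map_mul', e1, e2, mul_add, mul_assoc]

/-- **associativity** -/
theorem starL_assoc (f g h : List M → R) (l : List M) :
    starL σ h (starL σ g f) l = starL σ (starL σ h g) f l := by
  induction l generalizing f with
  | nil => rfl
  | cons x l ih =>
    have h1 : (fun l' : List M => starL σ g f (x :: l')) =
        fun l' => σ^[l'.length] (f [x]) * g (x :: l') + starL σ g (fun l' => f (x :: l')) l' := rfl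
    have h2 : starL σ g f [x] = f [x] * g [x] := by
      rw [starL_cons, starL_nil, add_zero]
      rfl
    have h3 : starL σ h g (x :: l) =
        σ^[l.length] (g [x]) * h (x :: l) + starL σ h (fun l' => g (x :: l')) l := rfl
    rw [starL_cons, h1, starL_add_left, starL_iter_mul σ (f [x]) (fun l' => g (x :: l')) h l,
      h2, iterate_map_mul', starL_cons σ f, h3, ← ih (fun l' => f (x :: l')), mul_add, mul_assoc]
    abel

theorem starL_one_right (f : List M → R) {l : List M} (hl : l ≠ []) :
    starL σ (fun l' => if l'.length = 1 then 1 else 0) f l = f l := by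
  induction l generalizing f with
  | nil => exact absurd rfl hl
  | cons x l ih =>
    rw [starL_cons]
    rcases l with _ | ⟨y, l'⟩
    · simp
    · rw [ih (fun l' => f (x :: l')) (by simp), if_neg (by simp), mul_zero, zero_add]

theorem starL_one_left (g : List M → R) {l : List M} (hl : l ≠ []) :
    starL σ g (fun l' => if l'.length = 1 then 1 else 0) l = g l := by
  rcases l with _ | ⟨x, l⟩
  · exact absurd rfl hl
  rw [starL_cons]
  have h1 : starL σ g (fun l' => if (x :: l').length = 1 then 1 else 0) l =
      starL σ g (fun _ => 0) l := by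
    refine starL_congr _ (fun l' _ h => if_neg ?_) fun _ _ _ => rfl
    rw [List.length_cons]
    have := List.length_pos_iff.2 h
    omega
  rw [h1, starL_zero_left, add_zero, if_pos (by simp), iterate_map_one, one_mul]

theorem starL_map (φ : M → M') (f g : List M' → R) (l : List M) :
    starL σ g f (l.map φ) = starL σ (fun l => g (l.map φ)) (fun l => f (l.map φ)) l := by
  induction l generalizing f with
  | nil => rfl
  | cons x l ih =>
    rw [List.map_cons, starL_cons, starL_cons, ih, List.length_map]
    rfl

theorem starL_tau (f g : List M → R) (l : List M) :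
    tauL σ (starL σ g f) l = -starL σ (tauL σ g) (tauL σ f) l := by
  have h0 : ∀ (n : ℕ) (x : R), σ^[n] (-x) = -σ^[n] x := fun n x => iterate_map_neg σ n x
  induction l generalizing f with
  | nil => simp [tauL]
  | cons x l ih =>
    have e1 : tauL σ f [x] = -σ (f [x]) := by simp [tauL]
    have e2 : (fun l' => tauL σ f (x :: l')) = fun l' => -tauL σ (fun l' => f (x :: l')) l' := by
      funext l'
      exact tauL_cons σ f x l'
    rw [starL_cons, e1, e2, starL_neg_left, ← ih, tauL, starL_cons, map_add, mul_add, tauL, tauL,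
      List.length_cons, pow_succ, h0, map_mul, ← Function.iterate_succ_apply' σ,
      Function.iterate_succ_apply σ]
    have hc : ∀ y z : R, y * ((-1) ^ l.length * z) = (-1) ^ l.length * (y * z) := by
      intro y z
      rw [← mul_assoc, ← mul_assoc, (((Commute.neg_one_left y).pow_left l.length).symm).eq]
    simp only [mul_neg, mul_one, neg_mul, hc, neg_neg]
    abel

end star

variable {E M N : Type} [PseudoMetricSpace E] [PseudoMetricSpace M] [PseudoMetricSpace N]
variable {π : E → N} {ρ : M → N} {A : Set M} {X : Set E} {ε : ℝ}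
variable {V : Type} [NormedAddCommGroup V] [NormedSpace ℝ V] [FiniteDimensional ℝ V]
  {u : V → MP E M} {s : V} {F : Finset E}

/-- **associativity** -/
theorem star_assoc (a b c : Form (DT π ρ A X ε)) :
    star (star a b) c = star a (star b c) :=
  ext_T fun V _ _ _ u s F h => by
    rw [star_val _ _ h, star_val _ _ h]
    have e1 : starL (iv V) (sl c u s) (sl (star a b) u s) (u s).2 =
        starL (iv V) (sl c u s) (starL (iv V) (sl b u s) (sl a u s)) (u s).2 :=
      starL_congr _ (fun l' hl' _ => sl_star a b h fun x hx => hl'.subset hx) fun _ _ _ => rfl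
    have e2 : starL (iv V) (sl (star b c) u s) (sl a u s) (u s).2 =
        starL (iv V) (starL (iv V) (sl c u s) (sl b u s)) (sl a u s) (u s).2 :=
      starL_congr _ (fun _ _ _ => rfl) fun l' hl' _ => sl_star b c h fun x hx => hl'.subset hx
    rw [e1, e2, starL_assoc]

/-- the unit -/
def uno : Form (DT π ρ A X ε) := cst (ind 1)

theorem sl_uno (h : Supp π ρ A X ε F u s) {l : List M} (hl : ∀ x ∈ l, x ∈ (u s).2) :
    sl (uno : Form (DT π ρ A X ε)) u s l = if l.length = 1 then 1 else 0 := by
  rw [uno, sl_cst _ h hl, ind]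
  split_ifs
  · exact map_one _
  · exact map_zero _

theorem val_nil {a : Form (DT π ρ A X ε)} (ha : len 0 a = 0) (h : Supp π ρ A X ε F u s)
    (h0 : (u s).2 = []) : a.val u s = 0 := by
  have := sl_nil ha h
  rwa [← h0, sl_self a h] at this

theorem star_uno {a : Form (DT π ρ A X ε)} (ha : len 0 a = 0) : star a uno = a :=
  ext_T fun V _ _ _ u s F h => by
    rw [star_val _ _ h]
    have e1 : starL (iv V) (sl (uno : Form (DT π ρ A X ε)) u s) (sl a u s) (u s).2 =
        starL (iv V) (fun l' => if l'.length = 1 then 1 else 0) (sl a u s) (u s).2 :=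
      starL_congr _ (fun _ _ _ => rfl) fun l' hl' _ => sl_uno h fun x hx => hl'.subset hx
    rw [e1]
    rcases eq_or_ne (u s).2 [] with h0 | h0
    · rw [h0, val_nil ha h h0]
      rfl
    · rw [starL_one_right _ _ h0, sl_self a h]

theorem uno_star {a : Form (DT π ρ A X ε)} (ha : len 0 a = 0) : star uno a = a :=
  ext_T fun V _ _ _ u s F h => by
    rw [star_val _ _ h]
    have e1 : starL (iv V) (sl a u s) (sl (uno : Form (DT π ρ A X ε)) u s) (u s).2 =
        starL (iv V) (sl a u s) (fun l' => if l'.length = 1 then 1 else 0) (u s).2 :=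
      starL_congr _ (fun l' hl' _ => sl_uno h fun x hx => hl'.subset hx) fun _ _ _ => rfl
    rw [e1]
    rcases eq_or_ne (u s).2 [] with h0 | h0
    · rw [h0, val_nil ha h h0]
      rfl
    · rw [starL_one_left _ _ h0, sl_self a h]

theorem tau_star (a b : Form (DT π ρ A X ε)) : tau (star a b) = -star (tau a) (tau b) :=
  ext_T fun V _ _ _ u s F h => by
    have h1 := sl_tau (star a b) h (fun x hx => hx)
    rw [sl_self _ h] at h1
    rw [h1, Form.neg_val, star_val _ _ h]
    have e0 : tauL (iv V) (sl (star a b) u s) (u s).2 =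
        tauL (iv V) (starL (iv V) (sl b u s) (sl a u s)) (u s).2 := by
      rw [tauL, tauL, sl_star a b h fun x hx => hx]
    have e1 : starL (iv V) (sl (tau b) u s) (sl (tau a) u s) (u s).2 =
        starL (iv V) (tauL (iv V) (sl b u s)) (tauL (iv V) (sl a u s)) (u s).2 :=
      starL_congr _ (fun l' hl' _ => sl_tau a h fun x hx => hl'.subset hx)
        fun l' hl' _ => sl_tau b h fun x hx => hl'.subset hx
    rw [e0, e1, starL_tau]

theorem TDg.tau {m : ℕ} {a : Form (DT π ρ A X ε)} (ha : TDg m a) :
    V1.tau a = (-1 : ℝ) ^ m • a :=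
  ext_T fun V _ _ _ u s F h => by
    rw [V1.tau, sc_val _ _ h, Form.smul_val, Form.sg_val]
    rcases lt_or_ge m (u s).2.length with h1 | h1
    · have := ha.sl_top h (fun x hx => hx) h1
      rw [sl_self a h] at this
      rw [this, map_zero, smul_zero, smul_zero]
    · have := ha.sl_deg h (fun x hx => hx) (q := m - (u s).2.length) (by omega)
      rw [sl_self a h] at this
      rw [← this, inv_prt, smul_smul, sgn, ← pow_add, this,
        show (u s).2.length + (m - (u s).2.length) = m by omega]

theorem bl_ind_one (l : List M) : bl (ind 1) l = 0 := by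
  rcases l with _ | ⟨x, l⟩
  · rfl
  rcases l with _ | ⟨y, l⟩
  · simp [bl_cons, ind]
  rcases l with _ | ⟨z, l⟩
  · simp [bl_cons, ind]
  · rw [bl_cons, bl_congr (g := fun _ => 0), bl_zero]
    · simp [ind]
    · intro l' h1 h2
      rw [ind, if_neg]
      simp only [List.length_cons] at h1 ⊢
      omega

theorem D_uno : D (uno : Form (DT π ρ A X ε)) = 0 := by
  rw [uno, D_cst, show bl (ind 1 : List M → ℝ) = fun _ => 0 from funext bl_ind_one]
  exact ext_T fun V _ _ _ u s F h => by rw [cst_val _ h, map_zero, Form.zero_val]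

theorem TDg_uno : TDg 1 (uno : Form (DT π ρ A X ε)) := by
  refine TDg.of_sl ?_ ?_ ?_
  · intro V _ _ _ u s F h h0
    rw [← sl_self _ h, sl_uno h fun x hx => hx, h0, if_neg (by simp)]
  · intro V _ _ _ u s F h q hq
    rw [← sl_self _ h, sl_uno h fun x hx => hx]
    split_ifs with h1
    · rw [prt_one, if_pos (by omega)]
    · rw [map_zero]
  · intro V _ _ _ u s F h hm
    rw [← sl_self _ h, sl_uno h fun x hx => hx, if_neg (by omega)]

/-! ### Naturality -/

section nat

variable {E' M' N' : Type} [PseudoMetricSpace E'] [PseudoMetricSpace M'] [PseudoMetricSpace N']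
variable {π' : E' → N'} {ρ' : M' → N'} {A' : Set M'} {X' : Set E'} {ε' : ℝ}

theorem pull_star (φ : (E' →₀ ℝ) → (E →₀ ℝ)) (ψ : M' → M)
    (hΦ : (DT π' ρ' A' X' ε').Map (DT π ρ A X ε) (fun p => (φ p.1, p.2.map ψ)))
    (a b : Form (DT π ρ A X ε)) :
    Form.pull _ hΦ (star a b) = star (Form.pull _ hΦ a) (Form.pull _ hΦ b) :=
  ext_T fun V _ _ _ u s F h => by
    obtain ⟨F', h'⟩ := hΦ h.at
    have e : ∀ (w : Form (DT π ρ A X ε)) (l : List M'), (∀ x ∈ l, x ∈ (u s).2) →
        sl (Form.pull _ hΦ w) u s l =
          sl w ((fun p : MP E' M' => (φ p.1, p.2.map ψ)) ∘ u) s (l.map ψ) :=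
      fun w l hl => Form.pull_val hΦ w (h.sub hl).at
    rw [Form.pull_val _ _ h.at, star_val _ _ h', star_val _ _ h]
    have e0 := starL_map (iv V) ψ (sl a ((fun p : MP E' M' => (φ p.1, p.2.map ψ)) ∘ u) s)
      (sl b ((fun p : MP E' M' => (φ p.1, p.2.map ψ)) ∘ u) s) (u s).2
    refine e0.trans (starL_congr _ (fun l' hl' _ => ?_) fun l' hl' _ => ?_)
    · exact (e a l' fun x hx => hl'.subset hx).symm
    · exact (e b l' fun x hx => hl'.subset hx).symm

end nat

theorem pull_id_star {A' : Set M} {X' : Set E} {ε' : ℝ}
    (hΦ : (DT π ρ A' X' ε').Map (DT π ρ A X ε) id) (a b : Form (DT π ρ A X ε)) :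
    Form.pull _ hΦ (star a b) = star (Form.pull _ hΦ a) (Form.pull _ hΦ b) :=
  ext_T fun V _ _ _ u s F h => by
    obtain ⟨F', h'⟩ := hΦ h.at
    rw [Form.pull_val _ _ h.at, star_val _ _ h', star_val _ _ h]
    refine starL_congr _ (fun l' hl' _ => ?_) fun l' hl' _ => ?_
    · exact (Form.pull_val hΦ a (h.sub fun x hx => hl'.subset hx).at).symm
    · exact (Form.pull_val hΦ b (h.sub fun x hx => hl'.subset hx).at).symm

end

end Vale.Agent.P216.V1
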