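import Vale.Agent.P216.V1.Tot
import Vale.Agent.P231.Co.Hom

/-!
# P216-V, V1-C: the cone operator `h`

On a measure `μ` with a list `x :: l` the measure is moved to `δ_x` (which is close to the support
of `μ` and to `l`). Nothing happens on the empty list.
-/

set_option linter.unusedSectionVars false
set_option linter.unusedVariables false
set_option linter.all false

open Set Filter Topology
open scoped ContDiff

namespace Vale.Agent.P216.V1

open Vale.Agent.P231.Fm Vale.Agent.P231.WA

noncomputable section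

variable {E M N : Type} [PseudoMetricSpace E] [PseudoMetricSpace M] [PseudoMetricSpace N]
variable {π : E → N} {ρ : M → N} {A : Set M} {X : Set E} {ε : ℝ} {κ : M → E}

/-- `κ` moves the points of `A` to `X`, over `N` -/
structure Con (π : E → N) (ρ : M → N) (A : Set M) (X : Set E) (κ : M → E) : Prop where
  mem : ∀ x ∈ A, κ x ∈ X
  fib : ∀ x, π (κ x) = ρ x
  cross : ∀ w x, dist w (κ x) ≤ dist (π w) (ρ x)
  lipR : ∀ x x', dist (ρ x) (ρ x') ≤ dist x x'

/-- the absolute case -/
theorem con_id {X : Set E} : Con (id : E → E) (id : E → E) X X id :=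
  ⟨fun _ h => h, fun _ => rfl, fun _ _ => le_rfl, fun _ _ => le_rfl⟩

/-- the hybrid case: measures on the base, lists upstairs -/
theorem con_self {ρ : M → N} {A : Set M} {X : Set N} (hA : ∀ x ∈ A, ρ x ∈ X)
    (hρ : ∀ x x', dist (ρ x) (ρ x') ≤ dist x x') : Con (id : N → N) ρ A X ρ :=
  ⟨hA, fun _ => rfl, fun _ _ => le_rfl, hρ⟩

variable (κ) in
/-- move the measure to the first point of the list -/
def Hc (p : MP E M × ℝ) : MP E M :=
  match p.1.2 with
  | [] => (p.1.1, [])
  | x :: l => ((1 - p.2) • p.1.1 + p.2 • Finsupp.single (κ x) 1, x :: l)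

@[simp] theorem Hc_nil (μ : E →₀ ℝ) (t : ℝ) : Hc κ ((μ, ([] : List M)), t) = (μ, []) := rfl

@[simp] theorem Hc_cons (μ : E →₀ ℝ) (x : M) (l : List M) (t : ℝ) :
    Hc κ ((μ, x :: l), t) = ((1 - t) • μ + t • Finsupp.single (κ x) 1, x :: l) := rfl

@[simp] theorem Hc_snd (p : MP E M × ℝ) : (Hc κ p).2 = p.1.2 := by
  obtain ⟨⟨μ, l⟩, t⟩ := p
  cases l <;> rfl

theorem Hc_zero (p : MP E M) : Hc κ (p, 0) = p := by
  obtain ⟨μ, l⟩ := p
  cases l with
  | nil => rfl
  | cons x l => simp

variable (κ) in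
/-- the end of the homotopy -/
def Hd (p : MP E M) : MP E M := Hc κ (p, 1)

@[simp] theorem Hd_nil (μ : E →₀ ℝ) : Hd κ (μ, ([] : List M)) = (μ, []) := rfl

@[simp] theorem Hd_cons (μ : E →₀ ℝ) (x : M) (l : List M) :
    Hd κ (μ, x :: l) = (Finsupp.single (κ x) 1, x :: l) := by
  simp [Hd]

theorem map_Hc (hκ : Con π ρ A X κ) :
    ((DT π ρ A X ε).prod (Dif.lin ℝ)).Map (DT π ρ A X ε) (Hc κ) := by
  classical
  rintro V _ _ _ u s ⟨⟨F, h⟩, ht⟩
  have ht' : Sm (fun y => (u y).2) s := ht
  cases hl : (u s).1.2 with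
  | nil =>
    refine (DT π ρ A X ε).congr (u := fun y => (u y).1) ⟨F, h⟩ ?_
    filter_upwards [h.cst] with y hy
    have h1 : (u y).1.2 = [] := by rw [hy]; exact hl
    change (u y).1 = Hc κ (u y)
    have h2 : u y = (((u y).1.1, ([] : List M)), (u y).2) := by
      rw [← h1]
    rw [h2]
    rfl
  | cons x l =>
    have hx : x ∈ (u s).1.2 := by rw [hl]; exact List.mem_cons_self
    have hXx : κ x ∈ X := hκ.mem x (h.smA.1 x hx)
    have hε : (0 : ℝ) < ε := (dist_self x).symm.trans_lt (h.smA.2 x hx x hx)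
    refine (DT π ρ A X ε).congr (u := fun y => ((1 - (u y).2) • (u y).1.1 +
      (u y).2 • Finsupp.single (κ x) (1 : ℝ), x :: l)) ⟨insert (κ x) F, ?_⟩ ?_
    · refine ⟨⟨?_, ?_⟩, ?_, ?_, Eventually.of_forall fun _ => rfl, ?_, ?_, ?_⟩
      · intro z hz
        rcases Finset.mem_insert.1 hz with h1 | h1
        · rw [h1]
          exact hXx
        · exact h.smF.1 z h1
      · intro z hz z' hz'
        rcases Finset.mem_insert.1 hz with h1 | h1 <;> rcases Finset.mem_insert.1 hz' with h2 | h2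
        · rw [h1, h2, dist_self]
          exact hε
        · rw [h1, dist_comm]
          refine (hκ.cross z' x).trans_lt ?_
          rw [dist_comm]
          exact h.near' x hx z' h2
        · rw [h2]
          refine (hκ.cross z x).trans_lt ?_
          rw [dist_comm]
          exact h.near' x hx z h1
        · exact h.smF.2 z h1 z' h2
      · have := h.smA
        change PS.SmL A ε (u s).1.2 at this
        rw [hl] at this
        exact this
      · intro z hz w hw
        have hz' : z ∈ (u s).1.2 := by rw [hl]; exact hz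
        rcases Finset.mem_insert.1 hw with h1 | h1
        · rw [h1, hκ.fib]
          exact (hκ.lipR z x).trans_lt (h.smA.2 z hz' _ hx)
        · exact h.near' z hz' w h1
      · filter_upwards [h.out] with y hy z hz
        rw [Finset.mem_insert, not_or] at hz
        have h1 := hy z hz.2
        simp only [Finsupp.add_apply, Finsupp.smul_apply, smul_eq_mul]
        rw [h1, Finsupp.single_eq_of_ne hz.1]
        simp
      · filter_upwards [h.out, h.sum] with y hy hy2
        simp only [Finsupp.add_apply, Finsupp.smul_apply, smul_eq_mul]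
        rw [Finset.sum_add_distrib, ← Finset.mul_sum, ← Finset.mul_sum]
        have h3 : ∑ i ∈ insert (κ x) F, (u y).1.1 i = 1 := by
          by_cases hxF : κ x ∈ F
          · rw [Finset.insert_eq_of_mem hxF]
            exact hy2
          · rw [Finset.sum_insert hxF, hy _ hxF, zero_add]
            exact hy2
        have h4 : ∑ i ∈ insert (κ x) F, (Finsupp.single (κ x) (1 : ℝ)) i = 1 := by
          rw [Finset.sum_eq_single (κ x)]
          · simp
          · intro b _ hb
            exact Finsupp.single_eq_of_ne hb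
          · intro hn
            exact absurd (Finset.mem_insert_self (κ x) F) hn
        rw [h3, h4]
        ring
      · intro z
        have h1 := h.sm z
        have h2 : Sm (fun y => (1 - (u y).2) * (u y).1.1 z + (u y).2 * Finsupp.single (κ x) (1 : ℝ) z)
            s := by
          filter_upwards [h1, ht'] with y h3 h4
          exact ((contDiffAt_const.sub h4).mul h3).add (h4.mul contDiffAt_const)
        exact h2
    · filter_upwards [h.cst] with y hy
      have h1 : (u y).1.2 = x :: l := by rw [hy]; exact hl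
      have h2 : u y = (((u y).1.1, x :: l), (u y).2) := by
        rw [← h1]
      change _ = Hc κ (u y)
      rw [h2]
      rfl

theorem map_Hd (hκ : Con π ρ A X κ) : (DT π ρ A X ε).Map (DT π ρ A X ε) (Hd κ) :=
  (map_Hc hκ).comp (Form.map_slice (D := DT π ρ A X ε) 1)

/-- **the cone operator** -/
def h (hκ : Con π ρ A X κ) (w : Form (DT π ρ A X ε)) : Form (DT π ρ A X ε) := 
  Form.K (Form.pull (Hc κ) (map_Hc hκ) w)

section

variable (hκ : Con π ρ A X κ)
include hκ

theorem h_add (w v : Form (DT π ρ A X ε)) : h hκ (w + v) = h hκ w + h hκ v := by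
  rw [h, h, h, ← Form.K_add]
  congr 1
  exact map_add (Form.pullA (Hc κ) (map_Hc hκ)) w v

theorem h_smul (c : ℝ) (w : Form (DT π ρ A X ε)) : h hκ (c • w) = c • h hκ w := by
  rw [h, h, ← Form.K_smul]
  congr 1
  exact map_smul (Form.pullA (Hc κ) (map_Hc hκ)) c w

/-- the cone operator as a linear map -/
def hL : Form (DT π ρ A X ε) →ₗ[ℝ] Form (DT π ρ A X ε) where
  toFun := h hκ
  map_add' := h_add hκ
  map_smul' := h_smul hκ

theorem hL_apply (w : Form (DT π ρ A X ε)) : hL hκ w = h hκ w := rfl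

theorem h_zero : h hκ (0 : Form (DT π ρ A X ε)) = 0 := map_zero (hL hκ)

theorem h_neg (w : Form (DT π ρ A X ε)) : h hκ (-w) = -h hκ w := map_neg (hL hκ) w

theorem h_sub (w v : Form (DT π ρ A X ε)) : h hκ (w - v) = h hκ w - h hκ v := map_sub (hL hκ) w v

theorem h_sum {ι : Type*} (s : Finset ι) (f : ι → Form (DT π ρ A X ε)) :
    h hκ (∑ i ∈ s, f i) = ∑ i ∈ s, h hκ (f i) := map_sum (hL hκ) f s

/-- the homotopy formula -/
theorem h_d (w : Form (DT π ρ A X ε)) : h hκ w.d + (h hκ w).d = Form.pull (Hd κ) (map_Hd hκ) w - w := by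
  have e := Form.homotopy (Form.pull (Hc κ) (map_Hc hκ) w)
  rw [← Form.pull_d] at e
  rw [h, h, ← e]
  congr 1
  · exact (Form.pull_comp (Form.map_slice (D := DT π ρ A X ε) 1) (map_Hc hκ) (map_Hd hκ) w).symm
  · have h1 : (DT π ρ A X ε).Map (DT π ρ A X ε) (Hc κ ∘ fun x => (x, (0 : ℝ))) :=
      (map_Hc hκ).comp (Form.map_slice (D := DT π ρ A X ε) 0)
    rw [← Form.pull_comp (Form.map_slice (D := DT π ρ A X ε) 0) (map_Hc hκ) h1 w,
      Form.pull_congr h1 Dif.map_id (funext Hc_zero), Form.pull_id]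

theorem isDeg_h {k : ℕ} {w : Form (DT π ρ A X ε)} (hw : Form.IsDeg (k + 1) w) : Form.IsDeg k (h hκ w) :=
  Form.IsDeg.K (hw.pull _ _)

theorem h_isDeg_zero {w : Form (DT π ρ A X ε)} (hw : Form.IsDeg 0 w) : h hκ w = 0 :=
  Form.IsDeg.K_zero (hw.pull _ _)

/-- forms which only depend on the list -/
theorem h_mul_left {C : Form (DT π ρ A X ε)}
    (hC : Form.pull (Hc κ) (map_Hc hκ) C = Form.pull Prod.fst Dif.map_fst C) (w : Form (DT π ρ A X ε)) :
    h hκ (C * w) = C.sg * h hκ w := by
  rw [h, h, ← Form.K_fst_mul, ← hC]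
  congr 1
  exact map_mul (Form.pullA (Hc κ) (map_Hc hκ)) C w

theorem h_mul_right {C : Form (DT π ρ A X ε)}
    (hC : Form.pull (Hc κ) (map_Hc hκ) C = Form.pull Prod.fst Dif.map_fst C) (w : Form (DT π ρ A X ε)) :
    h hκ (w * C) = h hκ w * C := by
  rw [h, h, ← Form.K_mul_fst, ← hC]
  congr 1
  exact map_mul (Form.pullA (Hc κ) (map_Hc hκ)) w C

theorem pull_Hc_cst (c : List M → ℝ) :
    Form.pull (Hc κ) (map_Hc hκ) (cst c : Form (DT π ρ A X ε)) = Form.pull Prod.fst Dif.map_fst (cst c) :=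
  Form.ext_val fun V _ _ _ u s hu => by
    obtain ⟨F, hF⟩ := map_Hc hκ hu
    obtain ⟨G, hG⟩ := Dif.map_fst hu
    rw [Form.pull_val _ _ hu, Form.pull_val _ _ hu, cst_val c hF, cst_val c hG]
    simp only [Function.comp, Hc_snd]

theorem h_sc (c : List M → ℝ) (w : Form (DT π ρ A X ε)) : h hκ (sc c w) = sc c (h hκ w) := by
  rw [sc, sc, h_mul_left hκ (pull_Hc_cst hκ c), sg_cst]

theorem h_cst (c : List M → ℝ) : h hκ (cst c : Form (DT π ρ A X ε)) = 0 :=
  h_isDeg_zero hκ (isDeg_cst c)

theorem h_len (p : ℕ) (w : Form (DT π ρ A X ε)) : h hκ (len p w) = len p (h hκ w) := h_sc hκ _ _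

theorem part_h (k : ℕ) (w : Form (DT π ρ A X ε)) : Form.part k (h hκ w) = h hκ (Form.part (k + 1) w) := by
  rw [h, h, Form.part_K, Form.part_pull]

omit hκ in
theorem K_one : Form.K (1 : Form ((DT π ρ A X ε).prod (Dif.lin ℝ))) = 0 := Form.IsDeg.K_zero Form.IsDeg.one

/-- the cone operator vanishes on the empty list -/
theorem len_zero_h (w : Form (DT π ρ A X ε)) : len 0 (h hκ w) = 0 := by
  have h1 : Form.pull (Hc κ) (map_Hc hκ) (len 0 w) =
      Form.pull Prod.fst Dif.map_fst (len 0 w) * 1 := by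
    rw [mul_one]
    refine Form.ext_val fun V _ _ _ u s hu => ?_
    obtain ⟨F, hF⟩ := map_Hc hκ hu
    obtain ⟨G, hG⟩ := Dif.map_fst hu
    rw [Form.pull_val _ _ hu, Form.pull_val _ _ hu, len_val _ _ hF, len_val _ _ hG]
    simp only [Function.comp, Hc_snd]
    split_ifs with hl
    · refine w.congr ⟨F, hF⟩ ?_
      filter_upwards [hG.cst] with y hy
      have h2 : (u y).1.2 = [] := by
        rw [show (u y).1.2 = (u s).1.2 from hy]
        exact List.length_eq_zero_iff.1 hl
      have h3 : u y = (((u y).1.1, ([] : List M)), (u y).2) := by rw [← h2]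
      change Hc κ (u y) = (u y).1
      rw [h3]
      rfl
    · rfl
  rw [← h_len hκ, h, h1, Form.K_fst_mul, K_one, mul_zero]

omit hκ in
/-- the value of a form at the vertex `δ_x` with the list `x :: l` -/
def vtx (κ : M → E) (w : Form (DT π ρ A X ε)) : List M → ℝ
  | [] => 0
  | x :: l => aug (w.val (fun _ : ℝ => ((Finsupp.single (κ x) 1, x :: l) : MP E M)) 0)

omit hκ in
theorem vtx_cons (w : Form (DT π ρ A X ε)) (x : M) (l : List M) :
    vtx κ w (x :: l) =
      aug (w.val (fun _ : ℝ => ((Finsupp.single (κ x) 1, x :: l) : MP E M)) 0) := rfl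

/-- the end of the homotopy on a nonempty list -/
theorem pull_Hd_val_cons {V : Type} [NormedAddCommGroup V] [NormedSpace ℝ V]
    [FiniteDimensional ℝ V] (w : Form (DT π ρ A X ε)) {u : V → MP E M} {s : V} (hu : (DT π ρ A X ε).At u s)
    (hl : (u s).2 ≠ []) :
    (Form.pull (Hd κ) (map_Hd hκ) w).val u s = algebraMap ℝ (Lam V) (vtx κ w (u s).2) := by
  rw [Form.pull_val _ _ hu]
  obtain ⟨F, hF⟩ := id hu
  obtain ⟨x, l, hxl⟩ : ∃ x l, (u s).2 = x :: l := by
    cases h1 : (u s).2 with
    | nil => exact absurd h1 hl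
    | cons x l => exact ⟨x, l, rfl⟩
  set p₀ : MP E M := (Finsupp.single (κ x) 1, x :: l) with hp₀
  have h1 : Hd κ ∘ u =ᶠ[𝓝 s] fun _ => p₀ := by
    filter_upwards [hF.cst] with y hy
    have h2 : (u y).2 = x :: l := by rw [hy, hxl]
    have h3 : u y = ((u y).1, x :: l) := by rw [← h2]
    change Hd κ (u y) = _
    rw [h3, Hd_cons]
  have h0 : (DT π ρ A X ε).At (fun _ : V => p₀) s := (DT π ρ A X ε).congr (map_Hd hκ hu) h1
  have h2 : (DT π ρ A X ε).At (fun _ : ℝ => p₀) ((fun _ : V => (0 : ℝ)) s) := Dif.At_const h0 0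
  rw [w.congr (map_Hd hκ hu) h1]
  have h3 : (fun _ : V => p₀) = (fun _ : ℝ => p₀) ∘ (fun _ : V => (0 : ℝ)) := rfl
  have h6 : fderiv ℝ (fun _ : V => (0 : ℝ)) s = 0 := by simp
  have h7 := w.nat (u := fun _ : ℝ => p₀) (g := fun _ : V => (0 : ℝ)) (x := s) h2
    (Sm.of_contDiff contDiff_const _)
  rw [h3, h7, h6, hxl, vtx_cons, ← hp₀]
  exact Vale.Agent.P231.Co.pull_zero_clm (E := V) (w.val (fun _ : ℝ => p₀) 0)

theorem pull_Hd_val_nil {V : Type} [NormedAddCommGroup V] [NormedSpace ℝ V]
    [FiniteDimensional ℝ V] (w : Form (DT π ρ A X ε)) {u : V → MP E M} {s : V} (hu : (DT π ρ A X ε).At u s)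
    (hl : (u s).2 = []) :
    (Form.pull (Hd κ) (map_Hd hκ) w).val u s = w.val u s := by
  rw [Form.pull_val _ _ hu]
  obtain ⟨F, hF⟩ := id hu
  refine w.congr (map_Hd hκ hu) ?_
  filter_upwards [hF.cst] with y hy
  have h2 : (u y).2 = [] := by rw [hy, hl]
  have h3 : u y = ((u y).1, []) := by rw [← h2]
  change Hd κ (u y) = _
  rw [h3, Hd_nil]

/-- **the cone formula**: `h d + d h = e - 1` on nonempty lists -/
theorem h_d_eq (w : Form (DT π ρ A X ε)) : h hκ w.d + (h hκ w).d = cst (vtx κ w) - w + len 0 w := by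
  rw [h_d hκ]
  refine ext_T fun V _ _ _ u s F hF => ?_
  rw [Form.sub_val, Form.add_val, Form.sub_val, len_val _ _ hF, cst_val _ hF]
  cases hl : (u s).2 with
  | nil =>
    rw [pull_Hd_val_nil hκ w hF.at hl]
    simp [hl, vtx]
  | cons x l =>
    rw [pull_Hd_val_cons hκ w hF.at (by rw [hl]; simp), hl]
    simp

/-- on the elements without a part on the empty list -/
theorem d_h (w : Form (DT π ρ A X ε)) (h0 : len 0 w = 0) : (h hκ w).d = cst (vtx κ w) - w - h hκ w.d := by
  have := h_d_eq hκ w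
  rw [h0, add_zero] at this
  rw [← this]
  abel

/-- the vertex values of a form of positive degree vanish on the lists which occur -/
theorem cst_vtx_of_isDeg {k : ℕ} {w : Form (DT π ρ A X ε)} (hw : Form.IsDeg (k + 1) w) :
    (cst (vtx κ w) : Form (DT π ρ A X ε)) = 0 := by
  refine ext_T fun V _ _ _ u s F hF => ?_
  rw [cst_val _ hF, Form.zero_val]
  cases hl : (u s).2 with
  | nil => simp [vtx]
  | cons x l =>
    have h1 : Form.IsDeg (k + 1) (Form.pull (Hd κ) (map_Hd hκ) w) := hw.pull _ _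
    have h2 := congrArg (fun f : Form (DT π ρ A X ε) => f.val u s) h1
    change (Form.part (k + 1) _).val u s = _ at h2
    rw [Form.part_val, pull_Hd_val_cons hκ w hF.at (by rw [hl]; simp), hl,
      Vale.Agent.P231.WA.prt_algebraMap, if_neg (Nat.succ_ne_zero k)] at h2
    exact h2.symm

/-- a closed form of positive degree is exact (on nonempty lists) -/
theorem d_h_of_closed {k : ℕ} {w : Form (DT π ρ A X ε)} (hw : Form.IsDeg (k + 1) w) (h0 : len 0 w = 0)
    (hd : w.d = 0) : (h hκ w).d = -w := by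
  rw [d_h hκ w h0, cst_vtx_of_isDeg hκ hw, hd, h_zero hκ, zero_sub, sub_zero]

/-- a closed form of degree zero is a function of the list (on nonempty lists) -/
theorem eq_cst_of_closed {w : Form (DT π ρ A X ε)} (hw : Form.IsDeg 0 w) (h0 : len 0 w = 0)
    (hd : w.d = 0) : w = cst (vtx κ w) := by
  have h1 := d_h hκ w h0
  rw [h_isDeg_zero hκ hw, Form.d_zero, hd, h_zero hκ, sub_zero] at h1
  exact (sub_eq_zero.1 h1.symm).symm

end

end

end Vale.Agent.P216.V1
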