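import Mathlib

/-!
# Zigzags in a double complex, abstractly

`T` is a double complex with projections `len p` on the parts of length `p`; `low` moves an element
of total degree `m` to the part of length `m`, `high` to the part of length one.
-/

namespace Vale.Agent.P216.V1

/-- the double complex -/
structure Zg (T : Type*) [AddCommGroup T] where
  /-- the part of length `p` -/
  len : ℕ → T →+ T
  /-- the total differential -/
  D : T →+ T
  /-- the differential of forms -/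
  dd : T →+ T
  /-- the coboundary of lists -/
  del : T →+ T
  /-- the degree of forms -/
  Dg : ℕ → T → Prop
  len_self : ∀ p w, len p (len p w) = len p w
  len_ne : ∀ p q w, p ≠ q → len p (len q w) = 0
  ext : ∀ w, (∀ p, len p w = 0) → w = 0
  D_D : ∀ w, D (D w) = 0
  len_D : ∀ p w, len (p + 1) (D w) = del (len p w) + (-1 : ℤ) ^ (p + 1) • dd (len (p + 1) w)
  len_D0 : ∀ w, len 0 (D w) = dd (len 0 w)
  dg_zero : ∀ q, Dg q 0
  dg_add : ∀ q v w, Dg q v → Dg q w → Dg q (v + w)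
  dg_neg : ∀ q v, Dg q v → Dg q (-v)
  dg_len : ∀ p q w, Dg q w → Dg q (len p w)
  dg_del : ∀ q w, Dg q w → Dg q (del w)
  dg_dd : ∀ q w, Dg q w → Dg (q + 1) (dd w)

namespace Zg

variable {T : Type*} [AddCommGroup T] (Z : Zg T)

/-- `h` contracts the columns of positive length -/
structure IsH (h : T → T) : Prop where
  dg : ∀ q w, Z.Dg (q + 1) w → Z.Dg q (h w)
  len : ∀ p w, Z.len p w = w → Z.len p (h w) = h w
  dd : ∀ p q w, 1 ≤ p → Z.len p w = w → Z.Dg (q + 1) w → Z.dd w = 0 → Z.dd (h w) = -w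

/-- `S` contracts the rows -/
structure IsS (S : T → T) : Prop where
  dg : ∀ q w, Z.Dg q w → Z.Dg q (S w)
  len : ∀ p w, Z.len (p + 1) w = w → Z.len p (S w) = S w
  del : ∀ p w, Z.len (p + 1) w = w → Z.del w = 0 → Z.del (S w) = w

/-- total degree `m`: the part of length `p` has degree `m - p` -/
def TDg (m : ℕ) (w : T) : Prop :=
  Z.len 0 w = 0 ∧ (∀ p q, p + q = m → Z.Dg q (Z.len p w)) ∧ ∀ p, m < p → Z.len p w = 0

variable {Z}

theorem dg_smul {q : ℕ} {w : T} (k : ℕ) (h : Z.Dg q w) : Z.Dg q ((-1 : ℤ) ^ k • w) := by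
  rcases neg_one_pow_eq_or ℤ k with hk | hk
  · rw [hk, one_smul]
    exact h
  · rw [hk, neg_smul, one_smul]
    exact Z.dg_neg q w h

theorem smul_cancel {w : T} (k : ℕ) (h : (-1 : ℤ) ^ k • w = 0) : w = 0 := by
  rcases neg_one_pow_eq_or ℤ k with hk | hk
  · rwa [hk, one_smul] at h
  · rwa [hk, neg_smul, one_smul, neg_eq_zero] at h

namespace TDg

variable {m : ℕ} {v w : T}

theorem zero (m : ℕ) : Z.TDg m 0 :=
  ⟨map_zero _, fun p q _ => by rw [map_zero]; exact Z.dg_zero q, fun p _ => map_zero _⟩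

theorem add (hv : Z.TDg m v) (hw : Z.TDg m w) : Z.TDg m (v + w) :=
  ⟨by rw [map_add, hv.1, hw.1, add_zero],
    fun p q h => by rw [map_add]; exact Z.dg_add q _ _ (hv.2.1 p q h) (hw.2.1 p q h),
    fun p h => by rw [map_add, hv.2.2 p h, hw.2.2 p h, add_zero]⟩

theorem neg (hv : Z.TDg m v) : Z.TDg m (-v) :=
  ⟨by rw [map_neg, hv.1, neg_zero],
    fun p q h => by rw [map_neg]; exact Z.dg_neg q _ (hv.2.1 p q h),
    fun p h => by rw [map_neg, hv.2.2 p h, neg_zero]⟩

theorem sub (hv : Z.TDg m v) (hw : Z.TDg m w) : Z.TDg m (v - w) := by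
  rw [sub_eq_add_neg]
  exact hv.add hw.neg

theorem smul (k : ℕ) (hv : Z.TDg m v) : Z.TDg m ((-1 : ℤ) ^ k • v) := by
  rcases neg_one_pow_eq_or ℤ k with hk | hk
  · rw [hk, one_smul]
    exact hv
  · rw [hk, neg_smul, one_smul]
    exact hv.neg

/-- elements with a single part -/
theorem single {p q : ℕ} (hp : 1 ≤ p) (hm : p + q = m) (h1 : Z.len p w = w) (h2 : Z.Dg q w) :
    Z.TDg m w := by
  refine ⟨?_, fun p' q' h => ?_, fun p' h => ?_⟩
  · rw [← h1, Z.len_ne 0 p _ (by omega)]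
  · by_cases h3 : p' = p
    · subst h3
      have : q' = q := by omega
      subst this
      exact Z.dg_len _ _ _ h2
    · rw [← h1, Z.len_ne p' p _ h3]
      exact Z.dg_zero _
  · rw [← h1, Z.len_ne p' p _ (by omega)]

theorem D (h : Z.TDg m w) : Z.TDg (m + 1) (Z.D w) := by
  refine ⟨by rw [Z.len_D0, h.1, map_zero], fun p q hpq => ?_, fun p hp => ?_⟩
  · rcases p with _ | p
    · rw [Z.len_D0, h.1, map_zero]
      exact Z.dg_zero q
    · rw [Z.len_D]
      refine Z.dg_add q _ _ (Z.dg_del q _ (h.2.1 p q (by omega))) (dg_smul _ ?_)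
      rcases q with _ | q
      · rw [h.2.2 (p + 1) (by omega), map_zero]
        exact Z.dg_zero 0
      · exact Z.dg_dd q _ (h.2.1 (p + 1) q (by omega))
  · obtain ⟨p, rfl⟩ : ∃ p', p = p' + 1 := ⟨p - 1, by omega⟩
    rw [Z.len_D, h.2.2 p (by omega), h.2.2 (p + 1) (by omega), map_zero, map_zero, smul_zero,
      add_zero]

end TDg

/-- the parts of `D` of an element with a single part -/
theorem len_D_single {p k : ℕ} {w : T} (h : Z.len k w = w) (h1 : p ≠ k) (h2 : p ≠ k + 1) :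
    Z.len p (Z.D w) = 0 := by
  rcases p with _ | p
  · rw [Z.len_D0, ← h, Z.len_ne 0 k _ h1, map_zero]
  · rw [Z.len_D]
    have e1 : Z.len p w = 0 := by rw [← h, Z.len_ne p k _ (by omega)]
    have e2 : Z.len (p + 1) w = 0 := by rw [← h, Z.len_ne (p + 1) k _ h1]
    rw [e1, e2, map_zero, map_zero, smul_zero, add_zero]

theorem len_D_self {k : ℕ} (hk : 1 ≤ k) {w : T} (h : Z.len k w = w) :
    Z.len k (Z.D w) = (-1 : ℤ) ^ k • Z.dd w := by
  obtain ⟨k, rfl⟩ : ∃ k', k = k' + 1 := ⟨k - 1, by omega⟩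
  rw [Z.len_D, h]
  have e1 : Z.len k w = 0 := by rw [← h, Z.len_ne k (k + 1) _ (by omega)]
  rw [e1, map_zero, zero_add]

theorem len_D_succ {k : ℕ} {w : T} (h : Z.len k w = w) :
    Z.len (k + 1) (Z.D w) = Z.del w := by
  rw [Z.len_D, h]
  have e1 : Z.len (k + 1) w = 0 := by rw [← h, Z.len_ne (k + 1) k _ (by omega)]
  rw [e1, map_zero, smul_zero, add_zero]

theorem neg_one_mul_self (k : ℕ) : (-1 : ℤ) ^ k * (-1 : ℤ) ^ k = 1 := by
  rw [← mul_pow]; simp

/-- the lowest part is closed -/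
theorem dd_low {k : ℕ} (hk : 1 ≤ k) {w : T} (hD : Z.len k (Z.D w) = 0)
    (h0 : ∀ p < k, Z.len p w = 0) : Z.dd (Z.len k w) = 0 := by
  obtain ⟨k, rfl⟩ : ∃ k', k = k' + 1 := ⟨k - 1, by omega⟩
  rw [Z.len_D, h0 k (by omega), map_zero, zero_add] at hD
  exact smul_cancel _ hD

theorem low_aux {h : T → T} (hh : Z.IsH h) {m : ℕ} {w : T} (hw : Z.TDg m w) (hD : ∀ p, p ≤ m → Z.len p (Z.D w) = 0) (k : ℕ)
    (h1 : 1 ≤ k) (hk : k ≤ m) :
    ∃ b, Z.TDg (m - 1) b ∧ ∀ p < k, Z.len p (w - Z.D b) = 0 := by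
  induction k, h1 using Nat.le_induction with
  | base =>
    refine ⟨0, TDg.zero _, fun p hp => ?_⟩
    have : p = 0 := by omega
    subst this
    rw [map_zero, sub_zero]
    exact hw.1
  | succ k h1 ih =>
    obtain ⟨b, hb, hb0⟩ := ih (by omega)
    obtain ⟨m, rfl⟩ : ∃ m', m = m' + 1 := ⟨m - 1, by omega⟩
    rw [Nat.add_sub_cancel] at hb ⊢
    have hw' : Z.TDg (m + 1) (w - Z.D b) := hw.sub hb.D
    obtain ⟨q, hq⟩ : ∃ q, k + (q + 1) = m + 1 := ⟨m - k, by omega⟩
    set v := Z.len k (w - Z.D b) with hv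
    have hvv : Z.len k v = v := Z.len_self _ _
    have hvd : Z.Dg (q + 1) v := hw'.2.1 k (q + 1) hq
    have hvc : Z.dd v = 0 := by
      refine dd_low h1 ?_ hb0
      rw [map_sub, Z.D_D, sub_zero]
      exact hD k (by omega)
    have hdd := hh.dd k q v h1 hvv hvd hvc
    have hlh := hh.len k v hvv
    refine ⟨b - (-1 : ℤ) ^ k • h v, hb.sub ((TDg.single h1 (by omega) hlh
      (hh.dg q v hvd)).smul k), fun p hp => ?_⟩
    have e1 : w - Z.D (b - (-1 : ℤ) ^ k • h v) = (w - Z.D b) + (-1 : ℤ) ^ k • Z.D (h v) := by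
      rw [map_sub, map_zsmul]
      abel
    rw [e1, map_add, map_zsmul]
    rcases Nat.lt_succ_iff_lt_or_eq.1 hp with hp | rfl
    · rw [hb0 p hp, len_D_single hlh (by omega) (by omega), smul_zero, add_zero]
    · rw [len_D_self h1 hlh, smul_smul, neg_one_mul_self, one_smul, hdd, ← hv, add_neg_cancel]

/-- **elements with closed lower parts move to the highest length** -/
theorem low {h : T → T} (hh : Z.IsH h) {m : ℕ} (hm : 1 ≤ m) {w : T} (hw : Z.TDg m w)
    (hD : ∀ p, p ≤ m → Z.len p (Z.D w) = 0) :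
    ∃ b, Z.TDg (m - 1) b ∧ Z.len m (w - Z.D b) = w - Z.D b ∧ Z.Dg 0 (w - Z.D b) ∧
      Z.dd (w - Z.D b) = 0 := by
  obtain ⟨b, hb, hb0⟩ := low_aux hh hw hD m hm le_rfl
  have hw' : Z.TDg m (w - Z.D b) := by
    have := hb.D
    rw [Nat.sub_add_cancel hm] at this
    exact hw.sub this
  have e1 : Z.len m (w - Z.D b) = w - Z.D b := by
    rw [← sub_eq_zero]
    refine Z.ext _ fun p => ?_
    rw [map_sub]
    rcases lt_trichotomy p m with hp | rfl | hp
    · rw [Z.len_ne p m _ (by omega), hb0 p hp, sub_zero]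
    · rw [Z.len_self, sub_self]
    · rw [Z.len_ne p m _ (by omega), hw'.2.2 p hp, sub_zero]
  refine ⟨b, hb, e1, ?_, ?_⟩
  · rw [← e1]
    exact hw'.2.1 m 0 (by omega)
  · rw [← e1]
    refine dd_low hm ?_ hb0
    rw [map_sub, Z.D_D, sub_zero]
    exact hD m le_rfl

/-- the highest part is a cocycle -/
theorem del_high {k : ℕ} {w : T} (hD : Z.len (k + 1) (Z.D w) = 0)
    (h0 : ∀ p, k < p → Z.len p w = 0) : Z.del (Z.len k w) = 0 := by
  rw [Z.len_D, h0 (k + 1) (by omega), map_zero, smul_zero, add_zero] at hD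
  exact hD

theorem high_aux {S : T → T} (hS : Z.IsS S) {m : ℕ} {w : T} (hw : Z.TDg m w) (hD : ∀ p, 2 ≤ p → Z.len p (Z.D w) = 0) (j : ℕ)
    (hj : j + 1 ≤ m) :
    ∃ b, Z.TDg (m - 1) b ∧ ∀ p, m - j < p → Z.len p (w - Z.D b) = 0 := by
  induction j with
  | zero =>
    refine ⟨0, TDg.zero _, fun p hp => ?_⟩
    rw [map_zero, sub_zero]
    exact hw.2.2 p (by omega)
  | succ j ih =>
    obtain ⟨b, hb, hb0⟩ := ih (by omega)
    obtain ⟨k, hk⟩ : ∃ k, m - j = k + 2 := ⟨m - j - 2, by omega⟩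
    obtain ⟨m, rfl⟩ : ∃ m', m = m' + 1 := ⟨m - 1, by omega⟩
    rw [Nat.add_sub_cancel] at hb ⊢
    rw [hk] at hb0
    have hw' : Z.TDg (m + 1) (w - Z.D b) := hw.sub hb.D
    set v := Z.len (k + 2) (w - Z.D b) with hv
    have hvv : Z.len (k + 2) v = v := Z.len_self _ _
    have hvd : Z.Dg j v := hw'.2.1 (k + 2) j (by omega)
    have hvc : Z.del v = 0 := by
      refine del_high ?_ hb0
      rw [map_sub, Z.D_D, sub_zero]
      exact hD _ (by omega)
    have hdS := hS.del (k + 1) v hvv hvc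
    have hlS := hS.len (k + 1) v hvv
    refine ⟨b + S v, hb.add (TDg.single (by omega) (by omega) hlS (hS.dg j v hvd)),
      fun p hp => ?_⟩
    have e1 : w - Z.D (b + S v) = (w - Z.D b) - Z.D (S v) := by
      rw [map_add]
      abel
    rw [e1, map_sub]
    have hp' : k + 1 < p := by omega
    rcases Nat.lt_or_ge (k + 2) p with h2 | h2
    · rw [hb0 p h2, len_D_single hlS (by omega) (by omega), sub_zero]
    · have : p = k + 2 := by omega
      subst this
      rw [len_D_succ hlS, hdS, ← hv, sub_self]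

/-- **elements whose higher parts are cocycles move to length one** -/
theorem high {S : T → T} (hS : Z.IsS S) {m : ℕ} (hm : 1 ≤ m) {w : T} (hw : Z.TDg m w)
    (hD : ∀ p, 2 ≤ p → Z.len p (Z.D w) = 0) :
    ∃ b, Z.TDg (m - 1) b ∧ Z.len 1 (w - Z.D b) = w - Z.D b ∧ Z.Dg (m - 1) (w - Z.D b) ∧
      Z.del (w - Z.D b) = 0 := by
  obtain ⟨b, hb, hb0⟩ := high_aux hS hw hD (m - 1) (by omega)
  have e0 : m - (m - 1) = 1 := by omega
  rw [e0] at hb0
  have hw' : Z.TDg m (w - Z.D b) := by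
    have := hb.D
    rw [Nat.sub_add_cancel hm] at this
    exact hw.sub this
  have e1 : Z.len 1 (w - Z.D b) = w - Z.D b := by
    rw [← sub_eq_zero]
    refine Z.ext _ fun p => ?_
    rw [map_sub]
    rcases lt_trichotomy p 1 with hp | rfl | hp
    · have : p = 0 := by omega
      subst this
      rw [Z.len_ne 0 1 _ (by omega), hw'.1, sub_zero]
    · rw [Z.len_self, sub_self]
    · rw [Z.len_ne p 1 _ (by omega), hb0 p hp, sub_zero]
  refine ⟨b, hb, e1, ?_, ?_⟩
  · rw [← e1]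
    exact hw'.2.1 1 (m - 1) (by omega)
  · rw [← e1]
    refine del_high ?_ hb0
    rw [map_sub, Z.D_D, sub_zero]
    exact hD _ le_rfl

end Zg

end Vale.Agent.P216.V1
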