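import Vale.Agent.P216.V1.Tot
import Vale.Agent.P216.V1.Zig0
import Vale.Agent.P216.V1.Cone

/-!
# The double complex of forms with lists as an abstract double complex
-/

set_option linter.unusedSectionVars false
set_option linter.unusedVariables false

open Set Filter Topology
open scoped ContDiff

namespace Vale.Agent.P216.V1

open Vale.Agent.P231.Fm Vale.Agent.P231.WA

noncomputable section

variable {E M N : Type} [PseudoMetricSpace E] [PseudoMetricSpace M] [PseudoMetricSpace N]
variable {π : E → N} {ρ : M → N} {A : Set M} {X : Set E} {ε : ℝ} {ι : E → M} {κ : M → E}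

theorem len_sgn_d (p : ℕ) (w : Form (DT π ρ A X ε)) :
    len p (sc sgn w) = (-1 : ℤ) ^ p • len p w :=
  ext_T fun V _ _ _ u s F h => by
    have e1 : (((-1 : ℤ) ^ p • len p w : Form (DT π ρ A X ε))).val u s =
        (-1 : ℝ) ^ p • (len p w).val u s := by
      rcases neg_one_pow_eq_or ℤ p with hp | hp
      · have hp' : (-1 : ℝ) ^ p = 1 := by exact_mod_cast congrArg (Int.cast : ℤ → ℝ) hp
        rw [hp, hp', one_smul, one_smul]
      · have hp' : (-1 : ℝ) ^ p = -1 := by exact_mod_cast congrArg (Int.cast : ℤ → ℝ) hp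
        rw [hp, hp', neg_smul, one_smul, neg_smul, one_smul, Form.neg_val]
    rw [e1, len_val _ _ h, len_val _ _ h, sc_val _ _ h]
    split_ifs with h1
    · rw [sgn, h1]
    · rw [smul_zero]

theorem len_cst (p : ℕ) (c : List M → ℝ) :
    len p (cst c : Form (DT π ρ A X ε)) = cst (fun l => ind p l * c l) :=
  ext_T fun V _ _ _ u s F h => by
    rw [len_val _ _ h, cst_val _ h, cst_val _ h]
    simp only [ind]
    split_ifs with h1
    · rw [one_mul]
    · rw [zero_mul, map_zero]

variable (π ρ A X ε) in
/-- the abstract double complex -/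
def zg : Zg (Form (DT π ρ A X ε)) where
  len p := AddMonoidHom.mk' (len p) (len_add p)
  D := AddMonoidHom.mk' D D_add
  dd := AddMonoidHom.mk' Form.d Form.d_add
  del := AddMonoidHom.mk' del del_add
  Dg := Form.IsDeg
  len_self p w := by
    change len p (len p w) = len p w
    rw [len_len, if_pos rfl]
  len_ne p q w hpq := by
    change len p (len q w) = 0
    rw [len_len, if_neg hpq]
  ext w hw := ext_len fun p => by
    rw [len_zero]
    exact hw p
  D_D := D_D
  len_D p w := by
    change len (p + 1) (del w + sc sgn w.d) = del (len p w) + (-1 : ℤ) ^ (p + 1) • (len (p + 1) w).d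
    rw [len_add, ← del_len, len_sgn_d, d_len]
  len_D0 w := by
    change len 0 (del w + sc sgn w.d) = (len 0 w).d
    rw [len_add, len_zero_del, zero_add, len_sgn_d, pow_zero, one_smul, d_len]
  dg_zero := Form.IsDeg.zero
  dg_add q v w hv hw := hv.add hw
  dg_neg q v hv := hv.neg
  dg_len p q w hw := by
    change Form.part q (len p w) = len p w
    rw [part_len, hw.part_eq]
  dg_del q w hw := by
    change Form.part q (del w) = del w
    rw [part_del, hw.part_eq]
  dg_dd q w hw := hw.d

theorem zg_TDg {m : ℕ} {w : Form (DT π ρ A X ε)} : (zg π ρ A X ε).TDg m w ↔ TDg m w :=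
  ⟨fun ⟨a, b, c⟩ => ⟨a, b, c⟩, fun ⟨a, b, c⟩ => ⟨a, b, c⟩⟩

theorem zg_isH (hκ : Con π ρ A X κ) : (zg π ρ A X ε).IsH (h hκ) where
  dg q w := isDeg_h hκ
  len p w hw := by
    change len p w = w at hw
    change len p (h hκ w) = h hκ w
    rw [← h_len, hw]
  dd p q w hp hw hq hd := by
    change len p w = w at hw
    have h0 : len 0 w = 0 := by
      rw [← hw, len_len, if_neg (by omega)]
    exact d_h_of_closed hκ hq h0 hd

theorem zg_isS (hι : Ins π ρ A X ι) : (zg π ρ A X ε).IsS (S hι) where
  dg q w hw := by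
    change Form.part q (S hι w) = S hι w
    rw [part_S, Form.IsDeg.part_eq hw]
  len p w hw := by
    change len (p + 1) w = w at hw
    change len p (S hι w) = S hι w
    rw [← S_len, hw]
  del p w hw hd := by
    change del w = 0 at hd
    change del (S hι w) = w
    have := V1.del_S hι w
    rwa [hd, S_zero, add_zero] at this

/-- **to the discrete side**: an element of total degree `m` whose differential vanishes on the
lists of length at most `m` is cohomologous to a function of the list -/
theorem exists_cst (hκ : Con π ρ A X κ) {m : ℕ} (hm : 1 ≤ m) {w : Form (DT π ρ A X ε)}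
    (hw : TDg m w) (hD : ∀ p, p ≤ m → len p (D w) = 0) :
    ∃ b : Form (DT π ρ A X ε), TDg (m - 1) b ∧ ∃ c : List M → ℝ,
      (∀ l, l.length ≠ m → c l = 0) ∧ w - D b = cst c := by
  obtain ⟨b, hb, h1, h2, h3⟩ := Zg.low (zg_isH hκ) hm (zg_TDg.2 hw) hD
  change len m (w - D b) = w - D b at h1
  change Form.IsDeg 0 (w - D b) at h2
  change (w - D b).d = 0 at h3
  have h0 : len 0 (w - D b) = 0 := by
    rw [← h1, len_len, if_neg (by omega)]
  have h4 := eq_cst_of_closed hκ h2 h0 h3
  refine ⟨b, zg_TDg.1 hb, fun l => ind m l * vtx κ (w - D b) l, fun l hl => ?_, ?_⟩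
  · simp only [ind, if_neg hl, zero_mul]
  · rw [← len_cst, ← h4, h1]

/-- **to the side of forms**: an element of total degree `m` whose differential vanishes on the
lists of length at least `2` is cohomologous to an element of length one -/
theorem exists_one (hι : Ins π ρ A X ι) {m : ℕ} (hm : 1 ≤ m) {w : Form (DT π ρ A X ε)}
    (hw : TDg m w) (hD : ∀ p, 2 ≤ p → len p (D w) = 0) :
    ∃ b : Form (DT π ρ A X ε), TDg (m - 1) b ∧ len 1 (w - D b) = w - D b ∧
      Form.IsDeg (m - 1) (w - D b) ∧ del (w - D b) = 0 := by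
  obtain ⟨b, hb, h1, h2, h3⟩ := Zg.high (zg_isS hι) hm (zg_TDg.2 hw) hD
  exact ⟨b, zg_TDg.1 hb, h1, h2, h3⟩

end

end Vale.Agent.P216.V1
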