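import Vale.Agent.P216.V1.Defs
import Vale.Agent.P216.V706.Dga
import Vale.Agent.P231.WA.Deg

/-!
# P216-V, V1-G (helper773): the algebra of germs of forms at the diagonal

`formDga D` : the forms on a diffeological space as a `Dga`. `GA X` is the colimit of
`Form (DM X ε)` for `ε → 0`, `germ hε : Form (DM X ε) →ₐ[ℝ] GA X`, `gaDga X : Dga ℝ (GA X)`.
-/

set_option linter.unusedSectionVars false
set_option linter.unusedVariables false

open Set Filter Topology
open scoped ContDiff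

namespace Vale.Agent.P216.V1

open Vale.Agent.P231.Fm Vale.Agent.P231.WA Vale.Agent.P216.V706

noncomputable section

/-! ### Forms on a diffeological space -/

section formDga

variable {Y : Type} (D : Dif Y)

theorem form_sq_odd {a : Form D} (ha : a.sg = -a) : a * a = 0 := by
  have h1 := Form.mul_of_odd ha a
  rw [ha, neg_mul] at h1
  have h2 : (2 : ℝ) • (a * a) = 0 := by
    rw [two_smul]
    nth_rewrite 1 [h1]
    exact neg_add_cancel _
  exact (smul_eq_zero.1 h2).resolve_left two_ne_zero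

/-- the sign involution of forms as a homomorphism of algebras -/
def sgA : Form D →ₐ[ℝ] Form D :=
  AlgHom.ofLinearMap
    { toFun := Form.sg
      map_add' := Form.sg_add
      map_smul' := Form.sg_smul } Form.sg_one Form.sg_mul

@[simp] theorem sgA_apply (a : Form D) : sgA D a = a.sg := rfl

/-- **forms as a differential graded algebra** -/
def formDga : Dga ℝ (Form D) where
  deg q :=
    { carrier := {a | Form.IsDeg q a}
      add_mem' := fun h h' => h.add h'
      zero_mem' := Form.IsDeg.zero q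
      smul_mem' := fun c _ h => h.smul c }
  d := Form.dL
  sg := sgA D
  d_d := Form.d_d
  d_mul := Form.d_mul
  sg_deg h := Form.IsDeg.sg h
  one_mem := Form.IsDeg.one
  mul_mem h h' := Form.IsDeg.mul h h'
  d_mem h := Form.IsDeg.d h
  comm_even h b := Form.mul_comm_of_even (Form.IsDeg.sg_of_even h ⟨_, two_mul _⟩) b
  sq_odd h := form_sq_odd D (Form.IsDeg.sg_of_odd h ⟨_, rfl⟩)

@[simp] theorem formDga_d (a : Form D) : (formDga D).d a = a.d := rfl
@[simp] theorem formDga_sg (a : Form D) : (formDga D).sg a = a.sg := rfl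
theorem mem_formDga {q : ℕ} {a : Form D} : a ∈ (formDga D).deg q ↔ Form.IsDeg q a := Iff.rfl

end formDga

/-! ### Scales -/

/-- the scales -/
def eps (n : ℕ) : ℝ := ((n : ℝ) + 1)⁻¹

theorem eps_pos (n : ℕ) : 0 < eps n := by
  unfold eps
  positivity

theorem eps_anti {i j : ℕ} (h : i ≤ j) : eps j ≤ eps i := by
  unfold eps
  have : (i : ℝ) ≤ j := Nat.cast_le.2 h
  gcongr

theorem exists_eps_le {δ : ℝ} (hδ : 0 < δ) : ∃ n, eps n ≤ δ := by
  obtain ⟨n, hn⟩ := exists_nat_one_div_lt hδ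
  refine ⟨n, ?_⟩
  rw [one_div] at hn
  exact hn.le

variable {E : Type} [PseudoMetricSpace E] {X Y Z : Set E} {ε ε' ε'' : ℝ}

theorem res_self (w : Form (DM X ε)) : res (Subset.refl X) (le_refl ε) w = w :=
  Form.ext_val fun V _ _ _ u s h =>
    Form.pull_val (map_monoM (Subset.refl X) (le_refl ε)) w h

theorem res_res (hX : X ⊆ Y) (hε : ε ≤ ε') (hY : Y ⊆ Z) (hε' : ε' ≤ ε'')
    (w : Form (DM Z ε'')) : res hX hε (res hY hε' w) = res (hX.trans hY) (hε.trans hε') w :=
  Form.ext_val fun V _ _ _ u s h => by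
    have h1 : (DM Y ε').At (id ∘ u) s := map_monoM hX hε h
    rw [show (res hX hε (res hY hε' w)).val u s = _ from Form.pull_val (map_monoM hX hε) _ h]
    rw [show (res hY hε' w).val (id ∘ u) s = _ from Form.pull_val (map_monoM hY hε') _ h1]
    exact (Form.pull_val (map_monoM (hX.trans hY) (hε.trans hε')) _ h).symm

theorem res_d (hX : X ⊆ Y) (hε : ε ≤ ε') (w : Form (DM Y ε')) :
    res hX hε w.d = (res hX hε w).d :=
  Form.pull_d id (map_monoM hX hε) w

theorem res_sg (hX : X ⊆ Y) (hε : ε ≤ ε') (w : Form (DM Y ε')) :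
    res hX hε w.sg = (res hX hε w).sg :=
  Form.pull_sg id (map_monoM hX hε) w

theorem isDeg_res (hX : X ⊆ Y) (hε : ε ≤ ε') {q : ℕ} {w : Form (DM Y ε')}
    (h : Form.IsDeg q w) : Form.IsDeg q (res hX hε w) :=
  h.pull id (map_monoM hX hε)

theorem part_res (hX : X ⊆ Y) (hε : ε ≤ ε') (q : ℕ) (w : Form (DM Y ε')) :
    Form.part q (res hX hε w) = res hX hε (Form.part q w) :=
  Form.part_pull q id (map_monoM hX hε) w

/-! ### The germ algebra -/

/-- the transition maps -/
def tr (X : Set E) (i j : ℕ) (h : i ≤ j) : Form (DM X (eps i)) →ₐ[ℝ] Form (DM X (eps j)) :=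
  res (Subset.refl X) (eps_anti h)

instance tr_sys (X : Set E) :
    DirectedSystem (fun n => Form (DM X (eps n))) (fun i j h => (tr X i j h : _ → _)) where
  map_self _ w := res_self w
  map_map _ _ _ _ _ w := res_res _ _ _ _ w

/-- **the algebra of germs at the diagonal** -/
def GA (X : Set E) : Type 1 := DirectLimit (fun n => Form (DM X (eps n))) (tr X)

instance (X : Set E) : Ring (GA X) :=
  inferInstanceAs (Ring (DirectLimit (fun n => Form (DM X (eps n))) (tr X)))

instance (X : Set E) : Algebra ℝ (GA X) :=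
  inferInstanceAs (Algebra ℝ (DirectLimit (fun n => Form (DM X (eps n))) (tr X)))

/-- the germ of a form at the scale `eps n` -/
def gm (X : Set E) (n : ℕ) : Form (DM X (eps n)) →ₐ[ℝ] GA X :=
  DirectLimit.Algebra.of _ (tr X) n

theorem gm_tr {i j : ℕ} (h : i ≤ j) (w : Form (DM X (eps i))) : gm X j (tr X i j h w) = gm X i w :=
  DirectLimit.Algebra.of_f (f := tr X) h w

theorem exists_gm (a : GA X) (m : ℕ) : ∃ n, m ≤ n ∧ ∃ w, gm X n w = a := by
  obtain ⟨i, w, hw⟩ := DirectLimit.exists_eq_mk (f := tr X) a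
  refine ⟨max m i, le_max_left _ _, tr X i _ (le_max_right _ _) w, ?_⟩
  rw [gm_tr]
  exact hw.symm

theorem gm_eq_iff {i : ℕ} {v w : Form (DM X (eps i))} :
    gm X i v = gm X i w ↔ ∃ j, ∃ h : i ≤ j, tr X i j h v = tr X i j h w := by
  constructor
  · intro h
    obtain ⟨j, h1, h2, h3⟩ := Quotient.exact (s := DirectLimit.setoid (tr X)) h
    exact ⟨j, h1, h3⟩
  · rintro ⟨j, h, h1⟩
    rw [← gm_tr h, h1, gm_tr]

/-- an index of a scale below `ε` -/
def idx (hε : 0 < ε) : ℕ := (exists_eps_le hε).choose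

theorem idx_le (hε : 0 < ε) : eps (idx hε) ≤ ε := (exists_eps_le hε).choose_spec

/-- **the germ of a form** -/
def germ (X : Set E) (hε : 0 < ε) : Form (DM X ε) →ₐ[ℝ] GA X :=
  (gm X (idx hε)).comp (res (Subset.refl X) (idx_le hε))

theorem germ_eq_gm (hε : 0 < ε) {n : ℕ} (h : eps n ≤ ε) (w : Form (DM X ε)) :
    germ X hε w = gm X n (res (Subset.refl X) h w) := by
  change gm X _ (res (Subset.refl X) (idx_le hε) w) = _
  rw [← gm_tr (le_max_left (idx hε) n), ← gm_tr (le_max_right (idx hε) n)]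
  unfold tr
  rw [res_res, res_res]

theorem germ_eps (n : ℕ) (w : Form (DM X (eps n))) : germ X (eps_pos n) w = gm X n w := by
  rw [germ_eq_gm (eps_pos n) (le_refl (eps n)), res_self]

/-- restriction does not change the germ -/
theorem germ_res (hε : 0 < ε) (h : ε ≤ ε') (w : Form (DM X ε')) :
    germ X hε (res (Subset.refl X) h w) = germ X (hε.trans_le h) w := by
  rw [germ_eq_gm hε (idx_le hε), germ_eq_gm (hε.trans_le h) ((idx_le hε).trans h), res_res]

theorem germ_eq_iff (hε : 0 < ε) {v w : Form (DM X ε)} : germ X hε v = germ X hε w ↔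
    ∃ δ, ∃ hδ : 0 < δ, ∃ h : δ ≤ ε, res (Subset.refl X) h v = res (Subset.refl X) h w := by
  constructor
  · intro h
    rw [germ_eq_gm hε (idx_le hε), germ_eq_gm hε (idx_le hε), gm_eq_iff] at h
    obtain ⟨j, hj, h⟩ := h
    refine ⟨eps j, eps_pos j, (eps_anti hj).trans (idx_le hε), ?_⟩
    unfold tr at h
    rwa [res_res, res_res] at h
  · rintro ⟨δ, hδ, h1, h2⟩
    rw [← germ_res hδ h1, ← germ_res hδ h1, h2]

theorem germ_eq_zero (hε : 0 < ε) {w : Form (DM X ε)} : germ X hε w = 0 ↔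
    ∃ δ, ∃ hδ : 0 < δ, ∃ h : δ ≤ ε, res (Subset.refl X) h w = 0 := by
  rw [← map_zero (germ X hε), germ_eq_iff]
  simp only [map_zero]

/-- every germ has representatives at arbitrarily small scales -/
theorem exists_rep (a : GA X) {δ : ℝ} (hδ : 0 < δ) :
    ∃ ε, ∃ hε : 0 < ε, ε ≤ δ ∧ ∃ w : Form (DM X ε), germ X hε w = a := by
  obtain ⟨n, hn, w, rfl⟩ := exists_gm a (idx hδ)
  exact ⟨eps n, eps_pos n, (eps_anti hn).trans (idx_le hδ), w, germ_eps n w⟩

theorem ga_ind {p : GA X → Prop} (h : ∀ n (w : Form (DM X (eps n))), p (gm X n w)) (a : GA X) :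
    p a := by
  obtain ⟨n, _, w, rfl⟩ := exists_gm a 0
  exact h n w

theorem ga_ind₂ {p : GA X → GA X → Prop}
    (h : ∀ n (v w : Form (DM X (eps n))), p (gm X n v) (gm X n w)) (a b : GA X) : p a b := by
  obtain ⟨n, _, v, rfl⟩ := exists_gm a 0
  obtain ⟨m, hm, w, rfl⟩ := exists_gm b n
  rw [← gm_tr hm]
  exact h _ _ _

/-- the differential of germs -/
def gd (X : Set E) : GA X →ₗ[ℝ] GA X where
  toFun := DirectLimit.map (tr X) (tr X) (fun _ w => w.d) fun i j h w => res_d _ _ w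
  map_add' := ga_ind₂ fun n v w => by
    rw [← map_add]
    change gm X n (v + w).d = gm X n v.d + gm X n w.d
    rw [Form.d_add, map_add]
  map_smul' c := ga_ind fun n w => by
    rw [← map_smul]
    change gm X n (c • w).d = c • gm X n w.d
    rw [Form.d_smul, map_smul]

theorem gd_gm (n : ℕ) (w : Form (DM X (eps n))) : gd X (gm X n w) = gm X n w.d := rfl

theorem gd_germ (hε : 0 < ε) (w : Form (DM X ε)) : gd X (germ X hε w) = germ X hε w.d := by
  rw [germ_eq_gm hε (idx_le hε), germ_eq_gm hε (idx_le hε), gd_gm, res_d]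

/-- the sign involution of germs -/
def gsg (X : Set E) : GA X →ₐ[ℝ] GA X :=
  AlgHom.ofLinearMap
    { toFun := DirectLimit.map (tr X) (tr X) (fun _ w => w.sg) fun i j h w => res_sg _ _ w
      map_add' := ga_ind₂ fun n v w => by
        rw [← map_add]
        change gm X n (v + w).sg = gm X n v.sg + gm X n w.sg
        rw [Form.sg_add, map_add]
      map_smul' := fun c => ga_ind fun n w => by
        rw [← map_smul]
        change gm X n (c • w).sg = c • gm X n w.sg
        rw [Form.sg_smul, map_smul] }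
    (by
      rw [← map_one (gm X 0)]
      change gm X 0 (1 : Form _).sg = gm X 0 1
      rw [Form.sg_one])
    (ga_ind₂ fun n v w => by
      rw [← map_mul]
      change gm X n (v * w).sg = gm X n v.sg * gm X n w.sg
      rw [Form.sg_mul, map_mul])

theorem gsg_gm (n : ℕ) (w : Form (DM X (eps n))) : gsg X (gm X n w) = gm X n w.sg := rfl

theorem gsg_germ (hε : 0 < ε) (w : Form (DM X ε)) : gsg X (germ X hε w) = germ X hε w.sg := by
  rw [germ_eq_gm hε (idx_le hε), germ_eq_gm hε (idx_le hε), gsg_gm, res_sg]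

/-- the projection to degree `q` -/
def gpart (X : Set E) (q : ℕ) : GA X →ₗ[ℝ] GA X where
  toFun := DirectLimit.map (tr X) (tr X) (fun _ w => Form.part q w)
    fun i j h w => (part_res _ _ q w).symm
  map_add' := ga_ind₂ fun n v w => by
    rw [← map_add]
    change gm X n (Form.part q (v + w)) = gm X n (Form.part q v) + gm X n (Form.part q w)
    rw [Form.part_add, map_add]
  map_smul' c := ga_ind fun n w => by
    rw [← map_smul]
    change gm X n (Form.part q (c • w)) = c • gm X n (Form.part q w)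
    rw [Form.part_smul, map_smul]

theorem gpart_gm (q n : ℕ) (w : Form (DM X (eps n))) :
    gpart X q (gm X n w) = gm X n (Form.part q w) := rfl

theorem gpart_germ (q : ℕ) (hε : 0 < ε) (w : Form (DM X ε)) :
    gpart X q (germ X hε w) = germ X hε (Form.part q w) := by
  rw [germ_eq_gm hε (idx_le hε), germ_eq_gm hε (idx_le hε), gpart_gm, part_res]

/-- germs of degree `q` -/
def gdeg (X : Set E) (q : ℕ) : Submodule ℝ (GA X) where
  carrier := {a | gpart X q a = a}
  add_mem' := fun {a b} ha hb => by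
    rw [Set.mem_ofPred_eq] at *
    rw [map_add, ha, hb]
  zero_mem' := map_zero _
  smul_mem' := fun c a ha => by
    rw [Set.mem_ofPred_eq] at *
    rw [map_smul, ha]

theorem mem_gdeg {q : ℕ} {a : GA X} : a ∈ gdeg X q ↔ gpart X q a = a := Iff.rfl

theorem germ_mem (hε : 0 < ε) {q : ℕ} {w : Form (DM X ε)} (h : Form.IsDeg q w) :
    germ X hε w ∈ gdeg X q := by
  rw [mem_gdeg, gpart_germ, h.part_eq]

theorem gm_mem {n q : ℕ} {w : Form (DM X (eps n))} (h : Form.IsDeg q w) :
    gm X n w ∈ gdeg X q := by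
  rw [mem_gdeg, gpart_gm, h.part_eq]

theorem gdeg_ind {p : GA X → Prop} {q : ℕ}
    (h : ∀ n (w : Form (DM X (eps n))), Form.IsDeg q w → p (gm X n w)) {a : GA X}
    (ha : a ∈ gdeg X q) : p a := by
  obtain ⟨n, _, w, rfl⟩ := exists_gm a 0
  rw [← mem_gdeg.1 ha, gpart_gm]
  exact h n _ (Form.isDeg_part q w)

/-- homogeneous germs have homogeneous representatives at arbitrarily small scales -/
theorem exists_rep_deg {q : ℕ} {a : GA X} (ha : a ∈ gdeg X q) {δ : ℝ} (hδ : 0 < δ) :
    ∃ ε, ∃ hε : 0 < ε, ε ≤ δ ∧ ∃ w : Form (DM X ε), Form.IsDeg q w ∧ germ X hε w = a := by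
  obtain ⟨ε, hε, h1, w, rfl⟩ := exists_rep a hδ
  refine ⟨ε, hε, h1, Form.part q w, Form.isDeg_part q w, ?_⟩
  rw [← gpart_germ]
  exact mem_gdeg.1 ha

/-- **the germ algebra as a differential graded algebra** -/
def gaDga (X : Set E) : Dga ℝ (GA X) where
  deg := gdeg X
  d := gd X
  sg := gsg X
  d_d := ga_ind fun n w => by rw [gd_gm, gd_gm, Form.d_d, map_zero]
  d_mul := ga_ind₂ fun n v w => by
    rw [← map_mul, gd_gm, gd_gm, gd_gm, gsg_gm, Form.d_mul, map_add, map_mul, map_mul]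
  sg_deg h := gdeg_ind (p := fun a => gsg X a = (-1 : ℝ) ^ _ • a)
    (fun n w hw => by rw [gsg_gm, hw.sg, map_smul]) h
  one_mem := by
    rw [← map_one (gm X 0)]
    exact gm_mem Form.IsDeg.one
  mul_mem {p q a b} ha hb := by
    obtain ⟨n, _, v, rfl⟩ := exists_gm a 0
    obtain ⟨m, hm, w, rfl⟩ := exists_gm b n
    rw [← gm_tr hm] at ha ⊢
    rw [← mem_gdeg.1 ha, ← mem_gdeg.1 hb, gpart_gm, gpart_gm, ← map_mul]
    exact gm_mem ((Form.isDeg_part _ _).mul (Form.isDeg_part _ _))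
  d_mem h := gdeg_ind (p := fun a => gd X a ∈ gdeg X _)
    (fun n w hw => by rw [gd_gm]; exact gm_mem hw.d) h
  comm_even {q a} h b := by
    revert b
    refine gdeg_ind (p := fun a => ∀ b, a * b = b * a) (fun n w hw b => ?_) h
    obtain ⟨m, hm, v, rfl⟩ := exists_gm b n
    rw [← gm_tr hm, ← map_mul, ← map_mul]
    congr 1
    have h1 : Form.IsDeg (2 * q) (tr X n m hm w) := isDeg_res _ _ hw
    exact Form.mul_comm_of_even (h1.sg_of_even ⟨_, two_mul _⟩) v
  sq_odd {q a} h := by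
    refine gdeg_ind (p := fun a => a * a = 0) (fun n w hw => ?_) h
    rw [← map_mul, form_sq_odd _ (hw.sg_of_odd ⟨_, rfl⟩), map_zero]

@[simp] theorem gaDga_d (a : GA X) : (gaDga X).d a = gd X a := rfl
@[simp] theorem gaDga_sg (a : GA X) : (gaDga X).sg a = gsg X a := rfl
@[simp] theorem gaDga_deg (q : ℕ) : (gaDga X).deg q = gdeg X q := rfl

/-- cocycles of germs have closed homogeneous representatives at arbitrarily small scales -/
theorem exists_rep_Z {q : ℕ} {a : GA X} (ha : a ∈ (gaDga X).Z q) {δ : ℝ} (hδ : 0 < δ) :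
    ∃ ε, ∃ hε : 0 < ε, ε ≤ δ ∧ ∃ w : Form (DM X ε), Form.IsDeg q w ∧ w.d = 0 ∧
      germ X hε w = a := by
  obtain ⟨h1, h2⟩ := (gaDga X).mem_Z.1 ha
  obtain ⟨ε, hε, h3, w, hw, rfl⟩ := exists_rep_deg h1 hδ
  rw [gaDga_d, gd_germ, germ_eq_zero] at h2
  obtain ⟨ε', hε', h4, h5⟩ := h2
  refine ⟨ε', hε', h4.trans h3, res _ h4 w, isDeg_res _ _ hw, ?_, germ_res _ _ _⟩
  rw [← res_d, h5]

theorem germ_mem_Z (hε : 0 < ε) {q : ℕ} {w : Form (DM X ε)} (h : Form.IsDeg q w)
    (hd : w.d = 0) : germ X hε w ∈ (gaDga X).Z q :=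
  (gaDga X).mem_Z.2 ⟨germ_mem hε h, by rw [gaDga_d, gd_germ, hd, map_zero]⟩

/-- exact germs -/
theorem germ_mem_B (hε : 0 < ε) {q : ℕ} {w : Form (DM X ε)} :
    germ X hε w ∈ (gaDga X).B (q + 1) ↔ ∃ δ, ∃ hδ : 0 < δ, ∃ h : δ ≤ ε,
      ∃ b : Form (DM X δ), Form.IsDeg q b ∧ b.d = res (Subset.refl X) h w := by
  rw [(gaDga X).mem_B_succ]
  constructor
  · rintro ⟨b, hb, h⟩
    obtain ⟨δ, hδ, h1, b, hb', rfl⟩ := exists_rep_deg hb hε
    rw [gaDga_d, gd_germ, ← germ_res hδ h1, germ_eq_iff] at h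
    obtain ⟨δ', hδ', h2, h3⟩ := h
    refine ⟨δ', hδ', h2.trans h1, res (Subset.refl X) h2 b, isDeg_res _ _ hb', ?_⟩
    rw [← res_d, h3, res_res]
  · rintro ⟨δ, hδ, h1, b, hb, h⟩
    refine ⟨germ X hδ b, germ_mem hδ hb, ?_⟩
    rw [gaDga_d, gd_germ, h, germ_res]

end

end Vale.Agent.P216.V1
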