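import Vale.Agent.P216.V1.Zig

/-!
# The rows of the hybrid complex (P1)

Only the cone `Con π ρ A X κ` is used: measures on the base, lists upstairs.
-/

set_option linter.unusedSectionVars false
set_option linter.unusedVariables false

open Set Filter Topology
open scoped ContDiff

namespace Vale.Agent.P216.V1

open Vale.Agent.P231.Fm Vale.Agent.P231.WA

noncomputable section

variable {E M N : Type} [PseudoMetricSpace E] [PseudoMetricSpace M] [PseudoMetricSpace N]
variable {π : E → N} {ρ : M → N} {A : Set M} {X : Set E} {ε : ℝ} {κ : M → E}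

/-- `cst c` is closed if `c` is a cocycle on small lists -/
theorem D_cst_eq_zero {n : ℕ} {c : List M → ℝ} (hc : ∀ l, l.length ≠ n + 1 → c l = 0)
    (hd : ∀ l, PS.SmL A ε l → l.length = n + 2 → bl c l = 0) :
    D (cst c : Form (DT π ρ A X ε)) = 0 := by
  rw [D_cst]
  refine cst_eq_zero fun l hl => ?_
  by_cases h : l.length = n + 2
  · exact hd l hl h
  · exact bl_of_len hc h

/-- `cst c` is exact if `c` is a coboundary on small lists -/
theorem cst_eq_D {n : ℕ} {c g : List M → ℝ} (hc : ∀ l, l.length ≠ n + 2 → c l = 0)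
    (hg : ∀ l, l.length ≠ n + 1 → g l = 0)
    (e : ∀ l, PS.SmL A ε l → l.length = n + 2 → c l = bl g l) :
    (cst c : Form (DT π ρ A X ε)) = D (cst g) ∧ TDg (n + 1) (cst g : Form (DT π ρ A X ε)) := by
  refine ⟨?_, TDg_cst (by omega) hg⟩
  rw [D_cst]
  refine cst_congr fun l hl => ?_
  by_cases h : l.length = n + 2
  · exact e l hl h
  · rw [hc l h, bl_of_len hg h]

/-- **(P1), surjectivity** -/
theorem hyb_surj (hκ : Con π ρ A X κ) {n : ℕ} {w : Form (DT π ρ A X ε)} (hw : TDg (n + 1) w)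
    (hD : D w = 0) :
    ∃ c : List M → ℝ, (∀ l, l.length ≠ n + 1 → c l = 0) ∧
      (∀ l, PS.SmL A ε l → bl c l = 0) ∧
      ∃ b : Form (DT π ρ A X ε), TDg n b ∧ w = cst c + D b := by
  obtain ⟨b, hb, c, hc, e⟩ := exists_cst hκ (by omega) hw fun p _ => by rw [hD, len_zero]
  refine ⟨c, hc, fun l hl => ?_, b, hb, ?_⟩
  · cases l with
    | nil => rfl
    | cons x l =>
      refine eq_zero_of_cst hκ (c := bl c) ?_ hl (by simp)
      rw [← D_cst, ← e, D_sub, D_D, hD, sub_zero]
  · rw [← e]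
    abel

/-- **(P1), injectivity** -/
theorem hyb_inj (hκ : Con π ρ A X κ) {n : ℕ} {c : List M → ℝ}
    (hc : ∀ l, l.length ≠ n + 2 → c l = 0) {b : Form (DT π ρ A X ε)} (hb : TDg (n + 1) b)
    (h : cst c = D b) :
    ∃ g : List M → ℝ, (∀ l, l.length ≠ n + 1 → g l = 0) ∧
      ∀ l, PS.SmL A ε l → c l = bl g l := by
  have hDl : ∀ p, p ≤ n + 1 → len p (D b) = 0 := by
    intro p hp
    rw [← h, len_cst]
    refine cst_eq_zero fun l _ => ?_
    simp only [ind]
    split_ifs with h1
    · rw [one_mul, hc l (by omega)]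
    · rw [zero_mul]
  obtain ⟨b2, hb2, g, hg, eg⟩ := exists_cst hκ (by omega) hb hDl
  refine ⟨g, hg, fun l hl => ?_⟩
  have h1 : (cst (fun l => c l - bl g l) : Form (DT π ρ A X ε)) = 0 := by
    rw [cst_sub, h, ← D_cst, ← eg, D_sub, D_D, sub_zero, sub_self]
  cases l with
  | nil => rw [bl_nil, hc [] (by simp)]
  | cons x l =>
    have h2 := eq_zero_of_cst hκ h1 hl (by simp)
    exact sub_eq_zero.1 h2

/-- **(P1), degree zero** -/
theorem hyb_inj_zero (hκ : Con π ρ A X κ) {c : List M → ℝ} {b : Form (DT π ρ A X ε)}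
    (hb : TDg 0 b) (h : cst c = D b) {l : List M} (hl : PS.SmL A ε l) (h0 : l ≠ []) :
    c l = 0 := by
  rw [hb.eq_zero, D_zero] at h
  exact eq_zero_of_cst hκ h hl h0

/-- the same for any coboundary of the complex: the primitive of a form which restricts to a
function of lists -/
theorem hyb_rep (hκ : Con π ρ A X κ) {n : ℕ} {c : List M → ℝ}
    (hc : ∀ l, l.length ≠ n + 2 → c l = 0) {b : Form (DT π ρ A X ε)} (hb : TDg (n + 1) b)
    (h : D b = cst c) :
    ∃ g : List M → ℝ, (∀ l, l.length ≠ n + 1 → g l = 0) ∧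
      ∃ b' : Form (DT π ρ A X ε), TDg n b' ∧ b = cst g + D b' := by
  have hDl : ∀ p, p ≤ n + 1 → len p (D b) = 0 := by
    intro p hp
    rw [h, len_cst]
    refine cst_eq_zero fun l _ => ?_
    simp only [ind]
    split_ifs with h1
    · rw [one_mul, hc l (by omega)]
    · rw [zero_mul]
  obtain ⟨b2, hb2, g, hg, eg⟩ := exists_cst hκ (by omega) hb hDl
  refine ⟨g, hg, b2, hb2, ?_⟩
  rw [← eg]
  abel

end

end Vale.Agent.P216.V1
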