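import Vale.Agent.P216.V1.Nat
import Vale.Agent.P216.V773.WSI

/-!
# Naturality of the map `W` from list cochains to forms and to germs of forms
-/

set_option linter.unusedSectionVars false
set_option linter.unusedVariables false

open Set Filter Topology

namespace Vale.Agent.P216.V1

open Vale.Agent.P231.Fm Vale.Agent.P231.WA Vale.Agent.P216.H929V Vale.Agent.P216.V773

noncomputable section

section Gen

variable {E M N : Type} [PseudoMetricSpace E] [PseudoMetricSpace M] [PseudoMetricSpace N]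
variable {π : E → N} {ρ : M → N} {A : Set M} {X : Set E} {δ : ℝ}
variable {E' M' N' : Type} [PseudoMetricSpace E'] [PseudoMetricSpace M'] [PseudoMetricSpace N']
variable {π' : E' → N'} {ρ' : M' → N'} {A' : Set M'} {X' : Set E'} {ε : ℝ}
variable {f : E → E'} {ψ : M → M'}

theorem pq_d (hf : SqD π ρ A X δ π' ρ' A' X' ε f ψ) (w : Form (DT π' ρ' A' X' ε)) :
    pq hf w.d = (pq hf w).d := Form.pull_d _ hf.map w

theorem pq_RR (hf : SqD π ρ A X δ π' ρ' A' X' ε f ψ) {ι : E → M} {ι' : E' → M'}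
    (hι : Ins π ρ A X ι) (hι' : Ins π' ρ' A' X' ι') (hc : ∀ x ∈ X, ψ (ι x) = ι' (f x)) (n : ℕ)
    (w : Form (DT π' ρ' A' X' ε)) : pq hf (Wc.RR hι' n w) = Wc.RR hι n (pq hf w) := by
  induction n with
  | zero => rfl
  | succ n ih => rw [Wc.RR_succ, pq_d, pq_S hf hι hι' hc, ih, Wc.RR_succ]

end Gen

variable {E E' : Type} [PseudoMetricSpace E] [PseudoMetricSpace E'] {X : Set E} {X' : Set E'}
  {δ ε : ℝ} {f : E → E'}

/-- **the map `W` is natural** -/
theorem pm0_W (hf : SmM X δ X' ε f) (n : ℕ) (c : List E' → ℝ) :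
    pm0 hf (Wc.W X' ε n c) = Wc.W X δ n (fun l => c (l.map f)) := by
  rw [Wc.W_apply, Wc.W_apply, map_smul]
  congr 1
  refine (pq_e0 (SqD.abs hf) (Wc.AA n c)).symm.trans ?_
  rw [Wc.AA, pq_S (SqD.abs hf) (Wc.ins_id X) (Wc.ins_id X') (fun _ _ => rfl),
    pq_RR (SqD.abs hf) (Wc.ins_id X) (Wc.ins_id X') (fun _ _ => rfl), pq_cst]
  rfl

/-- **the map to germs is natural** -/
theorem gmap_Wg (hf : UM X X' f) (h : WS X) (h' : WS X') (n : ℕ) (c : List E' → ℝ) :
    (gmap hf).f (Wg X' n c) = Wg X n (fun l => c (l.map f)) := by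
  obtain ⟨δ, hδ, hm⟩ := hf 1 one_pos
  rw [Wg_eq h hδ, Wg_eq h' one_pos]
  exact (gmap_germ hf one_pos hδ hm _).trans (congrArg _ (pm0_W hm n c))

/-- the map to germs is natural -/
theorem gmap_Wg' (hf : UM X X' f) (n : ℕ) (c : List E' → ℝ) :
    (gmap hf).f (Wg X' n c) = Wg X n (fun l => c (l.map f)) :=
  gmap_Wg hf (ws X) (ws X') n c

end

end Vale.Agent.P216.V1
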