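import Vale.Agent.P216.V1.Point
import Vale.Agent.P216.H285V.Germ

/-!
# Germs over a point
-/

set_option linter.unusedSectionVars false
set_option linter.unusedVariables false

open Set Filter Topology
open scoped ContDiff

namespace Vale.Agent.P216.V1

open Vale.Agent.P231.Fm Vale.Agent.P231.WA H285V

noncomputable section

/-- germs of positive degree on a zero dimensional family vanish -/
theorem fam_deg_eq_zero {P : Type} (F : Fam P) (hF : ∀ ε, DimLE (F.D ε) 0) {q : ℕ} (hq : 0 < q)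
    {z : F.GA} (hz : z ∈ F.cdga.deg q) : z = 0 := by
  obtain ⟨ε, h, h1, w, hw, rfl⟩ := F.exists_deg hz one_pos
  rw [DimLE.isDeg_eq_zero (hF ε) hq hw, map_zero]

variable {E : Type} [PseudoMetricSpace E] {X : Set E} {x₀ : E}

/-- **germs of positive degree on a point vanish** -/
theorem ga_point_pos (hX : ∀ x ∈ X, x = x₀) {q : ℕ} (hq : 0 < q) {z : GA X}
    (hz : z ∈ (vr X).cdga.deg q) : z = 0 :=
  fam_deg_eq_zero (vr X) (fun ε => dimLE_DM hX) hq hz

/-- germs are constants if the forms are -/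
theorem fam_const {P : Type} (F : Fam P)
    (hF : ∀ ε (w : Form (F.D ε)), ∃ c : ℝ, w = c • (1 : Form (F.D ε))) (z : F.GA) :
    ∃ c : ℝ, z = algebraMap ℝ F.GA c := by
  obtain ⟨ε, h, w, rfl⟩ := F.exists_germ z
  obtain ⟨c, hc⟩ := hF ε w
  refine ⟨c, ?_⟩
  rw [hc, map_smul, map_one, Algebra.algebraMap_eq_smul_one]

/-- **germs on a point are constants** -/
theorem ga_point (hX : ∀ x ∈ X, x = x₀) (z : GA X) : ∃ c : ℝ, z = algebraMap ℝ (GA X) c :=
  fam_const (vr X) (fun ε w => ⟨ptM x₀ (X := X) (ε := ε) w, eq_ptM hX w⟩) z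

/-- the subsingleton case -/
theorem ga_unit_pos [Subsingleton E] {q : ℕ} (hq : 0 < q) {z : GA X}
    (hz : z ∈ (vr X).cdga.deg q) : z = 0 := by
  rcases isEmpty_or_nonempty E with hE | ⟨⟨x₀⟩⟩
  · refine fam_deg_eq_zero (vr X) (fun ε => ?_) hq hz
    intro V _ _ _ u s h
    obtain ⟨F, h⟩ := h
    have h1 : F = ∅ := Finset.eq_empty_of_isEmpty F
    have h2 := h.sum.self_of_nhds
    rw [h1, Finset.sum_empty] at h2
    exact absurd h2 zero_ne_one
  · exact ga_point_pos (x₀ := x₀) (fun x _ => Subsingleton.elim x x₀) hq hz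

end

end Vale.Agent.P216.V1
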