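import Vale.Agent.P216.V1.PointG
import Vale.Agent.P216.H929V.HW

/-!
# The hybrid dga over a point consists of the list cochains
-/

set_option linter.unusedSectionVars false
set_option linter.unusedVariables false

open Set Filter Topology
open scoped ContDiff

namespace Vale.Agent.P216.V1

open Vale.Agent.P231.Fm Vale.Agent.P231.WA H929V H285V V609

noncomputable section

variable {E M N : Type} [PseudoMetricSpace E] [PseudoMetricSpace M] [PseudoMetricSpace N]
variable {π : E → N} {ρ : M → N} {A : Set M} {X : Set E} {ε : ℝ} {x₀ : E}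

/-- **one scale**: elements of degree `n` over a point are functions of the lists -/
theorem hN_point (hX : ∀ x ∈ X, x = x₀) {n : ℕ} {a : HT π ρ A X ε}
    (ha : a ∈ (hN π ρ A X ε).deg n) :
    ∃ f : List M → ℝ, (∀ l, l.length ≠ n + 1 → f l = 0) ∧ a = WT π ρ A X ε n f := by
  obtain ⟨c, hc, e⟩ := (TDg_point hX).1 (mem_hN_deg.1 ha)
  have h1 : ∀ l, l.length ≠ n + 1 → (fun l => (-1 : ℝ) ^ n * c l) l = 0 := fun l hl => by
    change (-1 : ℝ) ^ n * c l = 0
    rw [hc l hl, mul_zero]
  refine ⟨fun l => (-1 : ℝ) ^ n * c l, h1, HT.ext ?_⟩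
  rw [WT_val' h1, V1.cst_smul, smul_smul, ← mul_pow, neg_one_mul,
    neg_neg, one_pow, one_smul, e]

/-- **germs**: elements of degree `n` over a point are functions of the lists -/
theorem hD_point (hX : ∀ x ∈ X, x = x₀) {n : ℕ} {z : HD π ρ A X}
    (hz : z ∈ (hD π ρ A X).deg n) : ∃ f : List M → ℝ, z = WD π ρ A X n f := by
  obtain ⟨ε, h, _, w, hw, rfl⟩ := exists_degD hz one_pos
  obtain ⟨f, _, rfl⟩ := hN_point hX hw
  exact ⟨f, germD_WT h n f⟩

end

end Vale.Agent.P216.V1
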