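import Vale.Agent.P216.V1.Defs

/-!
# V1-P (1): the cup product of functions on lists with values in a ring with an involution
-/

set_option linter.unusedSectionVars false
set_option linter.unusedVariables false

open Set Filter Topology

namespace Vale.Agent.P216.V1

section star

variable {M : Type} [PseudoMetricSpace M] {R R' : Type*} [Ring R] [Ring R']

/-- `∑ₖ σ^(|l| - 1 - k) f (l.take (k+1)) * g (l.drop k)` -/
def starL (σ : R →+* R) (g : List M → R) : (List M → R) → List M → R
  | _, [] => 0
  | f, x :: l => σ^[l.length] (f [x]) * g (x :: l) + starL σ g (fun l' => f (x :: l')) l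

variable (σ : R →+* R) {f f' g g' : List M → R}

@[simp] theorem starL_nil (f g : List M → R) : starL σ g f [] = 0 := rfl

theorem starL_cons (f g : List M → R) (x : M) (l : List M) :
    starL σ g f (x :: l) =
      σ^[l.length] (f [x]) * g (x :: l) + starL σ g (fun l' => f (x :: l')) l := rfl

/-- the product as a sum over the cuts -/
theorem starL_eq_sum (f g : List M → R) (l : List M) : starL σ g f l =
    ∑ k ∈ Finset.range l.length, σ^[l.length - 1 - k] (f (l.take (k + 1))) * g (l.drop k) := by
  induction l generalizing f with
  | nil => simp
  | cons x l ih =>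
    rw [starL_cons, ih, List.length_cons, Finset.sum_range_succ', add_comm]
    congr 1
    refine Finset.sum_congr rfl fun k hk => ?_
    rw [List.take_succ_cons, List.drop_succ_cons,
      show l.length + 1 - 1 - (k + 1) = l.length - 1 - k by omega]

theorem starL_congr {l : List M} (hf : ∀ l', l'.Sublist l → l' ≠ [] → f l' = f' l')
    (hg : ∀ l', l'.Sublist l → l' ≠ [] → g l' = g' l') : starL σ g f l = starL σ g' f' l := by
  induction l generalizing f f' with
  | nil => rfl
  | cons x l ih =>
    rw [starL_cons, starL_cons, hf [x] (by simp) (by simp),
      hg (x :: l) (List.Sublist.refl _) (by simp)]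
    congr 1
    exact ih (fun l' h h' => hf _ (h.cons_cons x) (by simp))
      fun l' h h' => hg _ (h.cons x) h'

theorem starL_add_left (f f' g : List M → R) (l : List M) :
    starL σ g (fun l => f l + f' l) l = starL σ g f l + starL σ g f' l := by
  induction l generalizing f f' with
  | nil => simp
  | cons x l ih =>
    rw [starL_cons, starL_cons, starL_cons, ih, iterate_map_add σ, add_mul]
    abel

theorem starL_sub_left (f f' g : List M → R) (l : List M) :
    starL σ g (fun l => f l - f' l) l = starL σ g f l - starL σ g f' l := by
  induction l generalizing f f' with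
  | nil => simp
  | cons x l ih =>
    rw [starL_cons, starL_cons, starL_cons, ih, iterate_map_sub σ, sub_mul]
    abel

theorem starL_neg_left (f g : List M → R) (l : List M) :
    starL σ g (fun l => -f l) l = -starL σ g f l := by
  induction l generalizing f with
  | nil => simp
  | cons x l ih =>
    rw [starL_cons, starL_cons, ih, iterate_map_neg σ, neg_mul]
    abel

theorem starL_zero_left (g : List M → R) (l : List M) : starL σ g (fun _ => 0) l = 0 := by
  induction l with
  | nil => rfl
  | cons x l ih => rw [starL_cons, ih, iterate_map_zero σ, zero_mul, add_zero]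

theorem starL_add_right (f g g' : List M → R) (l : List M) :
    starL σ (fun l => g l + g' l) f l = starL σ g f l + starL σ g' f l := by
  induction l generalizing f with
  | nil => simp
  | cons x l ih =>
    rw [starL_cons, starL_cons, starL_cons, ih, mul_add]
    abel

theorem starL_sub_right (f g g' : List M → R) (l : List M) :
    starL σ (fun l => g l - g' l) f l = starL σ g f l - starL σ g' f l := by
  induction l generalizing f with
  | nil => simp
  | cons x l ih =>
    rw [starL_cons, starL_cons, starL_cons, ih, mul_sub]
    abel

theorem starL_zero_right (f : List M → R) (l : List M) : starL σ (fun _ => 0) f l = 0 := by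
  induction l generalizing f with
  | nil => rfl
  | cons x l ih => rw [starL_cons, ih, mul_zero, add_zero]

/-- functions on the length pull out -/
theorem starL_smul_left {S : Type*} [CommRing S] [Algebra S R] (hσ : ∀ (c : S) (x : R), σ (c • x) = c • σ x)
    (c : S) (f g : List M → R) (l : List M) :
    starL σ g (fun l => c • f l) l = c • starL σ g f l := by
  have h : ∀ (n : ℕ) (x : R), σ^[n] (c • x) = c • σ^[n] x := by
    intro n
    induction n with
    | zero => intro x; rfl
    | succ n ih => intro x; rw [Function.iterate_succ_apply, hσ, ih, Function.iterate_succ_apply]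
  induction l generalizing f with
  | nil => simp
  | cons x l ih => rw [starL_cons, starL_cons, ih, h, smul_mul_assoc, smul_add]

theorem starL_smul_right {S : Type*} [CommRing S] [Algebra S R] (c : S) (f g : List M → R)
    (l : List M) : starL σ (fun l => c • g l) f l = c • starL σ g f l := by
  induction l generalizing f with
  | nil => simp
  | cons x l ih => rw [starL_cons, starL_cons, ih, mul_smul_comm, smul_add]

theorem map_starL (φ : R →+* R') (σ' : R' →+* R') (h : ∀ x, φ (σ x) = σ' (φ x))
    (f g : List M → R) (l : List M) :
    φ (starL σ g f l) = starL σ' (fun l => φ (g l)) (fun l => φ (f l)) l := by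
  have hn : ∀ (n : ℕ) (x : R), φ (σ^[n] x) = σ'^[n] (φ x) := by
    intro n
    induction n with
    | zero => intro x; rfl
    | succ n ih => intro x; rw [Function.iterate_succ_apply, ih, h, Function.iterate_succ_apply]
  induction l generalizing f with
  | nil => simp
  | cons x l ih => rw [starL_cons, starL_cons, map_add, map_mul, hn, ih]

/-- the total grade involution -/
def tauL (f : List M → R) (l : List M) : R := (-1) ^ l.length * σ (f l)

theorem sig_neg_one_pow (n : ℕ) : σ ((-1 : R) ^ n) = (-1) ^ n := by
  rw [map_pow, map_neg, map_one]

theorem tauL_cons (f : List M → R) (x : M) (l : List M) :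
    tauL σ f (x :: l) = -tauL σ (fun l' => f (x :: l')) l := by
  rw [tauL, tauL, List.length_cons, pow_succ]
  simp

theorem bl_length {L : Type*} [AddCommGroup L] (h : ℕ → List M → L) (l : List M) :
    bl (fun l' => h l'.length l') l = bl (h (l.length - 1)) l :=
  bl_congr fun l' h1 _ => by rw [← h1, Nat.add_sub_cancel]

/-- **the Leibniz rule** -/
theorem bl_starL (hσ : ∀ x, σ (σ x) = x) (f g : List M → R) (l : List M) (hl : l ≠ []) :
    bl (starL σ g f) l = starL σ g (bl f) l - starL σ (bl g) (tauL σ f) l -
      σ^[l.length - 1] (f []) * g l + tauL σ f l * g [] := by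
  induction l generalizing f with
  | nil => exact absurd rfl hl
  | cons x l ih =>
    have h0 : bl (starL σ g f) (x :: l) = starL σ g f l -
        (bl (fun l' => σ^[l'.length] (f [x]) * g (x :: l')) l +
          bl (starL σ g fun l' => f (x :: l')) l) := by
      rw [bl_cons, ← bl_add]
      rfl
    have h1 : bl (fun l' => σ^[l'.length] (f [x]) * g (x :: l')) l =
        σ^[l.length - 1] (f [x]) * (g l - bl g (x :: l)) := by
      rw [bl_length (fun n l' => σ^[n] (f [x]) * g (x :: l')) l, bl_cons, sub_sub_cancel]
      have := map_bl (AddMonoidHom.mulLeft (σ^[l.length - 1] (f [x])))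
        (fun l' => g (x :: l')) l
      exact this.symm
    have h2 : starL σ g (bl f) (x :: l) = σ^[l.length] (f []) * g (x :: l) +
        (starL σ g f l - starL σ g (bl fun l' => f (x :: l')) l) := by
      rw [starL_cons, ← starL_sub_left, bl_cons, bl_nil, sub_zero]
      rfl
    have h3 : starL σ (bl g) (tauL σ f) (x :: l) =
        -(σ^[l.length] (σ (f [x])) * bl g (x :: l)) -
          starL σ (bl g) (tauL σ fun l' => f (x :: l')) l := by
      rw [starL_cons]
      have e1 : tauL σ f [x] = -σ (f [x]) := by simp [tauL]
      have e2 : (fun l' => tauL σ f (x :: l')) = fun l' => -tauL σ (fun l' => f (x :: l')) l' := by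
        funext l'
        exact tauL_cons σ f x l'
      rw [e1, e2, starL_neg_left, iterate_map_neg σ, neg_mul]
      abel
    rcases l with _ | ⟨z, l'⟩
    · rw [h0, h2, h3, h1]
      have e1 : tauL σ f [x] = -σ (f [x]) := by simp [tauL]
      simp only [List.length_nil, List.length_cons, Function.iterate_zero, id_eq, bl_nil, starL_nil,
        bl_cons, Nat.zero_sub, Nat.sub_self, Nat.reduceAdd, e1]
      noncomm_ring
    · have ih' := ih (fun l' => f (x :: l')) (by simp)
      rw [h0, h2, h3, h1, ih', tauL_cons σ f x]
      have e3 : σ^[(z :: l').length] (σ (f [x])) = σ^[(z :: l').length - 1] (f [x]) := by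
        rw [List.length_cons, Nat.add_sub_cancel, Function.iterate_succ_apply, hσ]
      rw [e3, List.length_cons (a := x), Nat.add_sub_cancel]
      noncomm_ring

end star

end Vale.Agent.P216.V1
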