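import Vale.Agent.P216.V1.Tot
import Vale.Agent.P216.V1.ProdL

/-!
# V1-P (2): the product of forms with lists

`(a ⋆ b)(μ, l) = ∑ k < |l|, σ^(|l| - 1 - k) a (μ, l.take (k + 1)) * b (μ, l.drop k)`, and the
Leibniz rule `D (a ⋆ b) = D a ⋆ b - tau a ⋆ D b`.
-/

set_option linter.unusedSectionVars false
set_option linter.unusedVariables false

open Set Filter Topology
open scoped ContDiff

namespace Vale.Agent.P216.V1

open Vale.Agent.P231.Fm Vale.Agent.P231.WA

noncomputable section

variable {E M N : Type} [PseudoMetricSpace E] [PseudoMetricSpace M] [PseudoMetricSpace N]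

section an

variable {V W : Type} [NormedAddCommGroup V] [NormedSpace ℝ V] [FiniteDimensional ℝ V]
  [NormedAddCommGroup W] [NormedSpace ℝ W] [FiniteDimensional ℝ W]

/-- the involution -/
def iv (V : Type) [NormedAddCommGroup V] [NormedSpace ℝ V] : Lam V →+* Lam V :=
  (inv : Lam V →ₐ[ℝ] Lam V).toRingHom

theorem iv_apply (w : Lam V) : iv V w = inv w := rfl

theorem iv_iv (w : Lam V) : iv V (iv V w) = w := inv_inv w

theorem iv_smul (c : ℝ) (w : Lam V) : iv V (c • w) = c • iv V w :=
  map_smul (inv : Lam V →ₐ[ℝ] Lam V) c w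

theorem prt_iv_iter (k n : ℕ) (w : Lam V) : prt k ((iv V)^[n] w) = (iv V)^[n] (prt k w) := by
  induction n with
  | zero => rfl
  | succ n ih =>
    rw [Function.iterate_succ_apply', Function.iterate_succ_apply', iv_apply, prt_inv, ih]
    rfl

theorem contDiffAt_iv_iter {f : V → Lam V} {s : V} (n : ℕ) (h : ContDiffAt ℝ ∞ f s) :
    ContDiffAt ℝ ∞ (fun y => (iv V)^[n] (f y)) s := by
  induction n with
  | zero => exact h
  | succ n ih =>
    have e : (fun y => (iv V)^[n + 1] (f y)) = fun y => invL ((iv V)^[n] (f y)) := by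
      funext y
      rw [Function.iterate_succ_apply']
      rfl
    rw [e]
    exact (invL (E := V)).contDiff.contDiffAt.comp s ih

theorem extd_iv_iter {f : V → Lam V} {s : V} (n : ℕ) (h : DifferentiableAt ℝ f s) :
    extd (fun y => (iv V)^[n] (f y)) s = (-1 : ℝ) ^ n • (iv V)^[n] (extd f s) ∧
      DifferentiableAt ℝ (fun y => (iv V)^[n] (f y)) s := by
  induction n with
  | zero => exact ⟨by simp, h⟩
  | succ n ih =>
    have e : (fun y => (iv V)^[n + 1] (f y)) = fun y => inv ((iv V)^[n] (f y)) := by
      funext y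
      rw [Function.iterate_succ_apply']
      rfl
    rw [e]
    refine ⟨?_, (invL (E := V)).differentiableAt.comp s ih.2⟩
    rw [extd_inv ih.2, ih.1, Function.iterate_succ_apply', ← iv_apply, iv_smul, pow_succ,
      mul_neg_one, neg_smul]

theorem contDiffAt_starL {f g : V → List M → Lam V} {s : V} {l : List M}
    (hf : ∀ l', (∀ x ∈ l', x ∈ l) → ContDiffAt ℝ ∞ (fun y => f y l') s)
    (hg : ∀ l', (∀ x ∈ l', x ∈ l) → ContDiffAt ℝ ∞ (fun y => g y l') s) :
    ContDiffAt ℝ ∞ (fun y => starL (iv V) (g y) (f y) l) s := by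
  induction l generalizing f with
  | nil => exact contDiffAt_const
  | cons x l ih =>
    simp only [starL_cons]
    refine ((contDiffAt_iv_iter _ (hf [x] fun y hy => ?_)).mul (hg _ fun y hy => hy)).add
      (ih (f := fun y l' => f y (x :: l')) (fun l' hl' => hf _ ?_) fun l' hl' => hg _ ?_)
    · rw [List.mem_singleton.1 hy]
      simp
    · intro y hy
      rcases List.mem_cons.1 hy with rfl | hy
      · simp
      · exact List.mem_cons_of_mem _ (hl' y hy)
    · intro y hy
      exact List.mem_cons_of_mem _ (hl' y hy)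

/-- the exterior derivative of the product -/
theorem extd_starL {f g : V → List M → Lam V} {s : V} {l : List M}
    (hf : ∀ l', (∀ x ∈ l', x ∈ l) → DifferentiableAt ℝ (fun y => f y l') s)
    (hg : ∀ l', (∀ x ∈ l', x ∈ l) → DifferentiableAt ℝ (fun y => g y l') s) :
    (-1 : ℝ) ^ l.length • extd (fun y => starL (iv V) (g y) (f y) l) s =
      starL (iv V) (g s) (fun l' => (-1 : ℝ) ^ l'.length • extd (fun y => f y l') s) l -
        starL (iv V) (fun l' => (-1 : ℝ) ^ l'.length • extd (fun y => g y l') s)
          (tauL (iv V) (f s)) l ∧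
      DifferentiableAt ℝ (fun y => starL (iv V) (g y) (f y) l) s := by
  induction l generalizing f with
  | nil =>
    refine ⟨?_, differentiableAt_const _⟩
    simp only [starL_nil]
    rw [extd_const, smul_zero, sub_zero]
  | cons x l ih =>
    have hx : DifferentiableAt ℝ (fun y => f y [x]) s := hf [x] fun y hy => by
      rw [List.mem_singleton.1 hy]
      simp
    have hgx : DifferentiableAt ℝ (fun y => g y (x :: l)) s := hg _ fun y hy => hy
    obtain ⟨e1, d1⟩ := extd_iv_iter l.length hx
    obtain ⟨e2, d2⟩ := ih (f := fun y l' => f y (x :: l')) (fun l' hl' => hf _ (by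
      intro y hy
      rcases List.mem_cons.1 hy with rfl | hy
      · simp
      · exact List.mem_cons_of_mem _ (hl' y hy))) fun l' hl' => hg _ fun y hy =>
        List.mem_cons_of_mem _ (hl' y hy)
    simp only [starL_cons]
    refine ⟨?_, (d1.mul hgx).add d2⟩
    have hT : (fun l' => tauL (iv V) (f s) (x :: l')) =
        fun l' => -tauL (iv V) (fun l' => f s (x :: l')) l' := by
      funext l'
      exact tauL_cons (iv V) (f s) x l'
    have hF : (fun l' : List M => (-1 : ℝ) ^ (x :: l').length • extd (fun y => f y (x :: l')) s) =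
        fun l' => -((-1 : ℝ) ^ l'.length • extd (fun y => f y (x :: l')) s) := by
      funext l'
      rw [List.length_cons, pow_succ, mul_neg_one, neg_smul]
    have e3 := extd_add (w := fun y => (iv V)^[l.length] (f y [x]) * g y (x :: l))
      (d1.mul hgx) d2
    have e4 := extd_mul d1 hgx
    have hz : ∀ w : Lam V, (-1 : ℝ) ^ l.length • (-1 : ℝ) ^ l.length • w = w := by
      intro w
      rw [smul_smul, ← mul_pow]
      simp
    have e5 : (iv V)^[l.length] (tauL (iv V) (f s) [x]) =
        -inv ((iv V)^[l.length] (f s [x])) := by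
      have : tauL (iv V) (f s) [x] = -iv V (f s [x]) := by simp [tauL]
      rw [this, iterate_map_neg, ← Function.iterate_succ_apply, Function.iterate_succ_apply']
      rfl
    have e6 : (iv V)^[l.length] ((-1 : ℝ) ^ [x].length • extd (fun y => f y [x]) s) =
        -(iv V)^[l.length] (extd (fun y => f y [x]) s) := by
      rw [List.length_singleton, pow_one, neg_one_smul, iterate_map_neg]
    rw [hT, hF, starL_neg_left, starL_neg_left, e5, e6, List.length_cons, pow_succ, mul_neg_one,
      neg_smul, neg_smul, e3, e4, e1, smul_add, smul_add, e2, ← smul_mul_assoc, hz]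
    simp only [neg_mul, mul_neg, mul_smul_comm, smul_neg]
    abel

end an

variable {π : E → N} {ρ : M → N} {A : Set M} {X : Set E} {ε : ℝ}
variable {V : Type} [NormedAddCommGroup V] [NormedSpace ℝ V] [FiniteDimensional ℝ V]
  {u : V → MP E M} {s : V} {F : Finset E}

/-- the form on the slices -/
def sl (w : Form (DT π ρ A X ε)) (u : V → MP E M) (s : V) (l : List M) : Lam V :=
  w.val (fun y => ((u y).1, l)) s

theorem sl_self (w : Form (DT π ρ A X ε)) (h : Supp π ρ A X ε F u s) :
    sl w u s (u s).2 = w.val u s := val_list w h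

/-- **the product** -/
def star (a b : Form (DT π ρ A X ε)) : Form (DT π ρ A X ε) :=
  Form.mk' (fun {V} _ _ _ u s => starL (iv V) (sl b u s) (sl a u s) (u s).2)
    (by
      rintro V _ _ _ u s ⟨F, h⟩
      have h1 : (fun s => starL (iv V) (sl b u s) (sl a u s) (u s).2) =ᶠ[𝓝 s]
          fun z => starL (iv V) (sl b u z) (sl a u z) (u s).2 := by
        filter_upwards [h.cst] with y hy
        rw [hy]
      refine ContDiffAt.congr_of_eventuallyEq ?_ h1
      exact contDiffAt_starL (fun l' hl' => a.smooth ⟨F, h.sub hl'⟩)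
        fun l' hl' => b.smooth ⟨F, h.sub hl'⟩)
    (by
      rintro V W _ _ _ _ _ _ u g s ⟨F, h⟩ hg
      have h1 := map_starL (iv W) ((pull (fderiv ℝ g s) : Lam W →ₐ[ℝ] Lam V).toRingHom) (iv V)
        (fun x => pull_inv _ _) (sl a u (g s)) (sl b u (g s)) (u (g s)).2
      refine Eq.trans ?_ h1.symm
      refine starL_congr _ (fun l' hl' _ => ?_) fun l' hl' _ => ?_
      · exact a.nat (u := fun y => ((u y).1, l')) (g := g) (x := s)
          ⟨F, h.sub fun x hx => hl'.subset hx⟩ hg
      · exact b.nat (u := fun y => ((u y).1, l')) (g := g) (x := s)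
          ⟨F, h.sub fun x hx => hl'.subset hx⟩ hg)
    (by
      rintro V _ _ _ u v s ⟨F, h⟩ huv
      rw [← huv.eq_of_nhds]
      refine starL_congr _ (fun l' hl' _ => ?_) fun l' hl' _ => ?_
      · refine a.congr ⟨F, h.sub fun x hx => hl'.subset hx⟩ ?_
        filter_upwards [huv] with y hy
        rw [hy]
      · refine b.congr ⟨F, h.sub fun x hx => hl'.subset hx⟩ ?_
        filter_upwards [huv] with y hy
        rw [hy])

theorem star_val (a b : Form (DT π ρ A X ε)) (h : Supp π ρ A X ε F u s) :
    (star a b).val u s = starL (iv V) (sl b u s) (sl a u s) (u s).2 :=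
  Form.mk'_val (D := DT π ρ A X ε) ⟨F, h⟩

theorem sl_star (a b : Form (DT π ρ A X ε)) (h : Supp π ρ A X ε F u s) {l : List M}
    (hl : ∀ x ∈ l, x ∈ (u s).2) : sl (star a b) u s l = starL (iv V) (sl b u s) (sl a u s) l :=
  star_val a b (h.sub hl)

theorem star_add_left (a a' b : Form (DT π ρ A X ε)) :
    star (a + a') b = star a b + star a' b :=
  ext_T fun V _ _ _ u s F h => by
    rw [Form.add_val, star_val _ _ h, star_val _ _ h, star_val _ _ h, ← starL_add_left]
    rfl

theorem star_sub_left (a a' b : Form (DT π ρ A X ε)) :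
    star (a - a') b = star a b - star a' b :=
  ext_T fun V _ _ _ u s F h => by
    rw [Form.sub_val, star_val _ _ h, star_val _ _ h, star_val _ _ h, ← starL_sub_left]
    rfl

theorem star_add_right (a b b' : Form (DT π ρ A X ε)) :
    star a (b + b') = star a b + star a b' :=
  ext_T fun V _ _ _ u s F h => by
    rw [Form.add_val, star_val _ _ h, star_val _ _ h, star_val _ _ h, ← starL_add_right]
    rfl

theorem star_sub_right (a b b' : Form (DT π ρ A X ε)) :
    star a (b - b') = star a b - star a b' :=
  ext_T fun V _ _ _ u s F h => by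
    rw [Form.sub_val, star_val _ _ h, star_val _ _ h, star_val _ _ h, ← starL_sub_right]
    rfl

theorem star_smul_left (c : ℝ) (a b : Form (DT π ρ A X ε)) : star (c • a) b = c • star a b :=
  ext_T fun V _ _ _ u s F h => by
    rw [Form.smul_val, star_val _ _ h, star_val _ _ h, ← starL_smul_left _ iv_smul]
    rfl

theorem star_smul_right (c : ℝ) (a b : Form (DT π ρ A X ε)) : star a (c • b) = c • star a b :=
  ext_T fun V _ _ _ u s F h => by
    rw [Form.smul_val, star_val _ _ h, star_val _ _ h, ← starL_smul_right]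
    rfl

theorem star_zero_left (b : Form (DT π ρ A X ε)) : star 0 b = 0 := by
  have := star_smul_left (0 : ℝ) 0 b
  rwa [zero_smul, zero_smul] at this

theorem star_zero_right (a : Form (DT π ρ A X ε)) : star a 0 = 0 := by
  have := star_smul_right (0 : ℝ) a 0
  rwa [zero_smul, zero_smul] at this

theorem star_neg_left (a b : Form (DT π ρ A X ε)) : star (-a) b = -star a b := by
  rw [← zero_sub, star_sub_left, star_zero_left, zero_sub]

theorem star_neg_right (a b : Form (DT π ρ A X ε)) : star a (-b) = -star a b := by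
  rw [← zero_sub, star_sub_right, star_zero_right, zero_sub]

/-- the total grade involution -/
def tau (a : Form (DT π ρ A X ε)) : Form (DT π ρ A X ε) := sc sgn a.sg

theorem sl_sc (c : List M → ℝ) (a : Form (DT π ρ A X ε)) (h : Supp π ρ A X ε F u s) {l : List M}
    (hl : ∀ x ∈ l, x ∈ (u s).2) : sl (sc c a) u s l = c l • sl a u s l :=
  sc_val c a (h.sub hl)

theorem sl_tau (a : Form (DT π ρ A X ε)) (h : Supp π ρ A X ε F u s) {l : List M}
    (hl : ∀ x ∈ l, x ∈ (u s).2) : sl (tau a) u s l = tauL (iv V) (sl a u s) l := by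
  rw [tau, sl_sc _ _ h hl, tauL, sgn, Algebra.smul_def, map_pow, map_neg, map_one]
  rfl

theorem sl_del (a : Form (DT π ρ A X ε)) (h : Supp π ρ A X ε F u s) {l : List M}
    (hl : ∀ x ∈ l, x ∈ (u s).2) : sl (del a) u s l = bl (sl a u s) l :=
  del_val' a h hl

theorem sl_nil {a : Form (DT π ρ A X ε)} (ha : len 0 a = 0) (h : Supp π ρ A X ε F u s) :
    sl a u s [] = 0 := by
  have h1 : Supp π ρ A X ε F (fun y => ((u y).1, ([] : List M))) s := h.sub (by simp)
  have h2 := len_val 0 a h1
  rw [ha, Form.zero_val] at h2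
  exact (h2.trans (if_pos rfl)).symm

theorem sl_d (a : Form (DT π ρ A X ε)) (h : Supp π ρ A X ε F u s) {l : List M}
    (hl : ∀ x ∈ l, x ∈ (u s).2) : sl a.d u s l = extd (fun y => sl a u y l) s :=
  Form.d_val _ (h.sub hl).at

theorem del_star {a b : Form (DT π ρ A X ε)} (ha : len 0 a = 0) (hb : len 0 b = 0) :
    del (star a b) = star (del a) b - star (tau a) (del b) :=
  ext_T fun V _ _ _ u s F h => by
    rw [del_val _ h, Form.sub_val, star_val _ _ h, star_val _ _ h]
    have e0 : bl (fun l => (star a b).val (fun y => ((u y).1, l)) s) (u s).2 =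
        bl (starL (iv V) (sl b u s) (sl a u s)) (u s).2 :=
      bl_congr' fun l' hl' => sl_star a b h hl'
    have e1 : starL (iv V) (sl b u s) (sl (del a) u s) (u s).2 =
        starL (iv V) (sl b u s) (bl (sl a u s)) (u s).2 :=
      starL_congr _ (fun l' hl' _ => sl_del a h fun x hx => hl'.subset hx) fun _ _ _ => rfl
    have e2 : starL (iv V) (sl (del b) u s) (sl (tau a) u s) (u s).2 =
        starL (iv V) (bl (sl b u s)) (tauL (iv V) (sl a u s)) (u s).2 :=
      starL_congr _ (fun l' hl' _ => sl_tau a h fun x hx => hl'.subset hx)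
        fun l' hl' _ => sl_del b h fun x hx => hl'.subset hx
    rw [e0, e1, e2]
    rcases eq_or_ne (u s).2 [] with h0 | h0
    · rw [h0]
      simp
    · rw [bl_starL (iv V) iv_iv _ _ _ h0, sl_nil ha h, sl_nil hb h, mul_zero, add_zero,
        iterate_map_zero, zero_mul, sub_zero]

theorem d_star (a b : Form (DT π ρ A X ε)) :
    sc sgn (star a b).d = star (sc sgn a.d) b - star (tau a) (sc sgn b.d) :=
  ext_T fun V _ _ _ u s F h => by
    rw [sc_val _ _ h, Form.d_val _ h.at, Form.sub_val, star_val _ _ h, star_val _ _ h]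
    have h1 : (star a b).val u =ᶠ[𝓝 s]
        fun z => starL (iv V) (sl b u z) (sl a u z) (u s).2 := by
      filter_upwards [h.near, h.cst] with y hy h2
      rw [star_val _ _ hy, h2]
    have e1 : starL (iv V) (sl b u s) (sl (sc sgn a.d) u s) (u s).2 =
        starL (iv V) (sl b u s)
          (fun l' => (-1 : ℝ) ^ l'.length • extd (fun y => sl a u y l') s) (u s).2 :=
      starL_congr _ (fun l' hl' _ => by
        rw [sl_sc _ _ h fun x hx => hl'.subset hx, sl_d _ h fun x hx => hl'.subset hx]
        rfl) fun _ _ _ => rfl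
    have e2 : starL (iv V) (sl (sc sgn b.d) u s) (sl (tau a) u s) (u s).2 =
        starL (iv V) (fun l' => (-1 : ℝ) ^ l'.length • extd (fun y => sl b u y l') s)
          (tauL (iv V) (sl a u s)) (u s).2 :=
      starL_congr _ (fun l' hl' _ => sl_tau a h fun x hx => hl'.subset hx)
        fun l' hl' _ => by
          rw [sl_sc _ _ h fun x hx => hl'.subset hx, sl_d _ h fun x hx => hl'.subset hx]
          rfl
    rw [extd_congr h1, e1, e2]
    exact (extd_starL (fun l' hl' => a.differentiableAt (h.sub hl').at)
      fun l' hl' => b.differentiableAt (h.sub hl').at).1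

/-- **the Leibniz rule** -/
theorem D_star {a b : Form (DT π ρ A X ε)} (ha : len 0 a = 0) (hb : len 0 b = 0) :
    D (star a b) = star (D a) b - star (tau a) (D b) := by
  rw [D, D, D, del_star ha hb, d_star, star_add_left, star_add_right]
  abel

end

end Vale.Agent.P216.V1
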