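import Vale.Agent.P216.V1.Prod

/-!
# V1-P (3): degrees of products, products of cochains
-/

set_option linter.unusedSectionVars false
set_option linter.unusedVariables false

open Set Filter Topology
open scoped ContDiff

namespace Vale.Agent.P216.V1

open Vale.Agent.P231.Fm Vale.Agent.P231.WA

noncomputable section

variable {E M N : Type} [PseudoMetricSpace E] [PseudoMetricSpace M] [PseudoMetricSpace N]
variable {π : E → N} {ρ : M → N} {A : Set M} {X : Set E} {ε : ℝ}
variable {V : Type} [NormedAddCommGroup V] [NormedSpace ℝ V] [FiniteDimensional ℝ V]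
  {u : V → MP E M} {s : V} {F : Finset E}

/-! ### Degrees -/

theorem len_slice {w : Form (DT π ρ A X ε)} (hF : Supp π ρ A X ε F u s) {l : List M}
    (hl : ∀ x ∈ l, x ∈ (u s).2) : sl (len l.length w) u s l = sl w u s l :=
  (len_val l.length w (hF.sub hl)).trans (if_pos rfl)

theorem TDg.sl_deg {m : ℕ} {w : Form (DT π ρ A X ε)} (h : TDg m w)
    (hF : Supp π ρ A X ε F u s) {l : List M} (hl : ∀ x ∈ l, x ∈ (u s).2) {q : ℕ}
    (hq : l.length + q = m) : prt q (sl w u s l) = sl w u s l := by
  have h1 := h.deg _ _ hq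
  rw [← len_slice hF hl, sl, ← Form.part_val, h1.part_eq]

theorem TDg.sl_top {m : ℕ} {w : Form (DT π ρ A X ε)} (h : TDg m w)
    (hF : Supp π ρ A X ε F u s) {l : List M} (hl : ∀ x ∈ l, x ∈ (u s).2)
    (hm : m < l.length) : sl w u s l = 0 := by
  rw [← len_slice hF hl, h.top _ hm]
  rfl

theorem TDg.sl_nil {m : ℕ} {w : Form (DT π ρ A X ε)} (h : TDg m w)
    (hF : Supp π ρ A X ε F u s) : sl w u s [] = 0 := V1.sl_nil h.zero hF

theorem TDg.of_sl {m : ℕ} {w : Form (DT π ρ A X ε)}
    (h0 : ∀ (V : Type) [NormedAddCommGroup V] [NormedSpace ℝ V] [FiniteDimensional ℝ V]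
      (u : V → MP E M) (s : V) (F : Finset E), Supp π ρ A X ε F u s → (u s).2 = [] →
      w.val u s = 0)
    (h1 : ∀ (V : Type) [NormedAddCommGroup V] [NormedSpace ℝ V] [FiniteDimensional ℝ V]
      (u : V → MP E M) (s : V) (F : Finset E), Supp π ρ A X ε F u s → ∀ q,
      (u s).2.length + q = m → prt q (w.val u s) = w.val u s)
    (h2 : ∀ (V : Type) [NormedAddCommGroup V] [NormedSpace ℝ V] [FiniteDimensional ℝ V]
      (u : V → MP E M) (s : V) (F : Finset E), Supp π ρ A X ε F u s → m < (u s).2.length →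
      w.val u s = 0) : TDg m w where
  zero := ext_T fun V _ _ _ u s F h => by
    rw [len_val _ _ h, Form.zero_val]
    split_ifs with h3
    · exact h0 V u s F h (List.length_eq_zero_iff.1 h3)
    · rfl
  deg p q hpq := ext_T fun V _ _ _ u s F h => by
    rw [Form.part_val, len_val _ _ h]
    split_ifs with h3
    · exact h1 V u s F h q (h3 ▸ hpq)
    · rw [map_zero]
  top p hp := ext_T fun V _ _ _ u s F h => by
    rw [len_val _ _ h, Form.zero_val]
    split_ifs with h3
    · exact h2 V u s F h (h3 ▸ hp)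
    · rfl

/-- **the degree of a product** -/
theorem TDg.star {m m' : ℕ} {a b : Form (DT π ρ A X ε)} (ha : TDg m a) (hb : TDg m' b) :
    TDg (m + m' - 1) (star a b) := by
  have hv : ∀ (V : Type) [NormedAddCommGroup V] [NormedSpace ℝ V] [FiniteDimensional ℝ V]
      (u : V → MP E M) (s : V) (F : Finset E), Supp π ρ A X ε F u s → ∀ k < (u s).2.length,
      ((iv V)^[(u s).2.length - 1 - k] (sl a u s ((u s).2.take (k + 1))) *
        sl b u s ((u s).2.drop k) = 0) ∨ (k + 1 ≤ m ∧ (u s).2.length - k ≤ m' ∧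
        prt ((m - (k + 1)) + (m' - ((u s).2.length - k)))
          ((iv V)^[(u s).2.length - 1 - k] (sl a u s ((u s).2.take (k + 1))) *
            sl b u s ((u s).2.drop k)) =
          (iv V)^[(u s).2.length - 1 - k] (sl a u s ((u s).2.take (k + 1))) *
            sl b u s ((u s).2.drop k)) := by
    intro V _ _ _ u s F h k hk
    have hl1 : ∀ x ∈ (u s).2.take (k + 1), x ∈ (u s).2 := fun x hx => List.mem_of_mem_take hx
    have hl2 : ∀ x ∈ (u s).2.drop k, x ∈ (u s).2 := fun x hx => List.mem_of_mem_drop hx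
    have hL1 : ((u s).2.take (k + 1)).length = k + 1 := by
      rw [List.length_take]
      omega
    have hL2 : ((u s).2.drop k).length = (u s).2.length - k := List.length_drop
    rcases lt_or_ge m (k + 1) with h1 | h1
    · left
      rw [ha.sl_top h hl1 (by rw [hL1]; exact h1), iterate_map_zero, zero_mul]
    rcases lt_or_ge m' ((u s).2.length - k) with h2 | h2
    · left
      rw [hb.sl_top h hl2 (by rw [hL2]; exact h2), mul_zero]
    refine Or.inr ⟨h1, h2, prt_mul_of_eq ?_ ?_⟩
    · rw [prt_iv_iter, ha.sl_deg h hl1 (by rw [hL1]; omega)]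
    · exact hb.sl_deg h hl2 (by rw [hL2]; omega)
  refine TDg.of_sl ?_ ?_ ?_
  · intro V _ _ _ u s F h h0
    rw [star_val _ _ h, h0]
    rfl
  · intro V _ _ _ u s F h q hq
    rw [star_val _ _ h, starL_eq_sum, map_sum]
    refine Finset.sum_congr rfl fun k hk => ?_
    rw [Finset.mem_range] at hk
    rcases hv V u s F h k hk with h1 | ⟨h1, h2, h3⟩
    · rw [h1, map_zero]
    · rwa [show m - (k + 1) + (m' - ((u s).2.length - k)) = q by omega] at h3
  · intro V _ _ _ u s F h hm
    rw [star_val _ _ h, starL_eq_sum]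
    refine Finset.sum_eq_zero fun k hk => ?_
    rw [Finset.mem_range] at hk
    rcases hv V u s F h k hk with h1 | ⟨h1, h2, h3⟩
    · exact h1
    · omega

/-! ### Products of cochains -/

theorem sl_cst (c : List M → ℝ) (h : Supp π ρ A X ε F u s) {l : List M}
    (hl : ∀ x ∈ l, x ∈ (u s).2) : sl (cst c : Form (DT π ρ A X ε)) u s l =
      algebraMap ℝ (Lam V) (c l) := cst_val c (h.sub hl)

theorem eq_zero_of_algebraMap {r : ℝ} (h : algebraMap ℝ (Lam V) r = 0) : r = 0 :=
  (map_eq_zero_iff _ (algebraMap ℝ (Lam V)).injective).1 h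

theorem cst_nil {c : List M → ℝ} (hc : len 0 (cst c : Form (DT π ρ A X ε)) = 0)
    (h : Supp π ρ A X ε F u s) : c [] = 0 := by
  have h1 := sl_nil hc h
  rw [sl_cst c h (by simp)] at h1
  exact eq_zero_of_algebraMap h1

theorem TDg.cst_eq_zero {m : ℕ} {c : List M → ℝ} (hc : TDg m (cst c : Form (DT π ρ A X ε)))
    (h : Supp π ρ A X ε F u s) {l : List M} (hl : ∀ x ∈ l, x ∈ (u s).2) (hm : l.length ≠ m) :
    c l = 0 := by
  rcases lt_or_gt_of_ne hm with h1 | h1
  · have h2 := hc.sl_deg h hl (q := m - l.length) (by omega)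
    rw [sl_cst c h hl, prt_algebraMap, if_neg (by omega)] at h2
    exact eq_zero_of_algebraMap h2.symm
  · have h2 := hc.sl_top h hl h1
    rw [sl_cst c h hl] at h2
    exact eq_zero_of_algebraMap h2

theorem iv_iter_algebraMap (n : ℕ) (r : ℝ) :
    (iv V)^[n] (algebraMap ℝ (Lam V) r) = algebraMap ℝ (Lam V) r := by
  induction n with
  | zero => rfl
  | succ n ih =>
    rw [Function.iterate_succ_apply', ih, iv_apply]
    exact AlgHom.commutes _ _

/-- **the product of two cochains is their cup product** -/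
theorem star_cst_cst {n : ℕ} {c c' : List M → ℝ}
    (hc : TDg (n + 1) (cst c : Form (DT π ρ A X ε)))
    (hc' : len 0 (cst c' : Form (DT π ρ A X ε)) = 0) :
    star (cst c) (cst c') =
      (cst (fun l => c (l.take (n + 1)) * c' (l.drop n)) : Form (DT π ρ A X ε)) :=
  ext_T fun V _ _ _ u s F h => by
    have hl1 : ∀ k, ∀ x ∈ (u s).2.take (k + 1), x ∈ (u s).2 :=
      fun k x hx => List.mem_of_mem_take hx
    have hl2 : ∀ k, ∀ x ∈ (u s).2.drop k, x ∈ (u s).2 := fun k x hx => List.mem_of_mem_drop hx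
    rw [star_val _ _ h, starL_eq_sum, cst_val _ h]
    have hk : ∀ k ∈ Finset.range (u s).2.length, k ≠ n →
        (iv V)^[(u s).2.length - 1 - k] (sl (cst c : Form (DT π ρ A X ε)) u s
          ((u s).2.take (k + 1))) * sl (cst c' : Form (DT π ρ A X ε)) u s ((u s).2.drop k) = 0 := by
      intro k hk hkn
      rw [Finset.mem_range] at hk
      rw [sl_cst c h (hl1 k), hc.cst_eq_zero h (hl1 k), map_zero, iterate_map_zero, zero_mul]
      rw [List.length_take]
      omega
    rcases lt_or_ge n (u s).2.length with h1 | h1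
    · rw [Finset.sum_eq_single n hk fun h2 => absurd (Finset.mem_range.2 h1) h2,
        sl_cst c h (hl1 n), sl_cst c' h (hl2 n), iv_iter_algebraMap, ← map_mul]
    · rw [Finset.sum_eq_zero fun k hk1 => hk k hk1 (by rw [Finset.mem_range] at hk1; omega),
        List.drop_eq_nil_of_le h1, cst_nil hc' h, mul_zero, map_zero]

theorem tau_cst {m : ℕ} {c : List M → ℝ} (hc : TDg m (cst c : Form (DT π ρ A X ε))) :
    tau (cst c : Form (DT π ρ A X ε)) = (-1 : ℝ) ^ m • (cst c : Form (DT π ρ A X ε)) :=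
  ext_T fun V _ _ _ u s F h => by
    rw [tau, sg_cst, sc_val _ _ h, Form.smul_val, cst_val _ h]
    by_cases hm : (u s).2.length = m
    · rw [sgn, hm]
    · rw [hc.cst_eq_zero h (fun x hx => hx) hm, map_zero, smul_zero, smul_zero]

end

end Vale.Agent.P216.V1
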