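import Vale.Agent.P216.V1.ZgT
import Vale.Agent.P216.V1.Emb

/-!
# Comparison of closed forms with cocycles on lists

`RelT π ρ A X ε n a c` says that the closed form `a` of degree `n` and the cocycle `c` on the lists
of length `n + 1` agree in the double complex.
-/

set_option linter.unusedSectionVars false
set_option linter.unusedVariables false

open Set Filter Topology
open scoped ContDiff

namespace Vale.Agent.P216.V1

open Vale.Agent.P231.Fm Vale.Agent.P231.WA

noncomputable section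

variable {E M N : Type} [PseudoMetricSpace E] [PseudoMetricSpace M] [PseudoMetricSpace N]
variable {π : E → N} {ρ : M → N} {A : Set M} {X : Set E} {ε : ℝ} {ι : E → M} {κ : M → E}

/-! ### Functions of the list -/

theorem cst_add (c c' : List M → ℝ) :
    (cst (fun l => c l + c' l) : Form (DT π ρ A X ε)) = cst c + cst c' :=
  ext_T fun V _ _ _ u s F h => by
    rw [Form.add_val, cst_val _ h, cst_val _ h, cst_val _ h, map_add]

theorem cst_sub (c c' : List M → ℝ) :
    (cst (fun l => c l - c' l) : Form (DT π ρ A X ε)) = cst c - cst c' :=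
  ext_T fun V _ _ _ u s F h => by
    rw [Form.sub_val, cst_val _ h, cst_val _ h, cst_val _ h, map_sub]

theorem cst_neg (c : List M → ℝ) :
    (cst (fun l => -c l) : Form (DT π ρ A X ε)) = -cst c :=
  ext_T fun V _ _ _ u s F h => by
    rw [Form.neg_val, cst_val _ h, cst_val _ h, map_neg]

theorem cst_smul (r : ℝ) (c : List M → ℝ) :
    (cst (fun l => r * c l) : Form (DT π ρ A X ε)) = r • cst c :=
  ext_T fun V _ _ _ u s F h => by
    rw [Form.smul_val, cst_val _ h, cst_val _ h, map_mul, ← Algebra.smul_def]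

theorem cst_congr {c c' : List M → ℝ} (h : ∀ l, PS.SmL A ε l → c l = c' l) :
    (cst c : Form (DT π ρ A X ε)) = cst c' :=
  ext_T fun V _ _ _ u s F hF => by
    rw [cst_val _ hF, cst_val _ hF, h _ hF.smA]

theorem cst_zero : (cst (fun _ => 0) : Form (DT π ρ A X ε)) = 0 :=
  ext_T fun V _ _ _ u s F hF => by
    rw [cst_val _ hF, map_zero, Form.zero_val]

theorem cst_eq_zero {c : List M → ℝ} (h : ∀ l, PS.SmL A ε l → c l = 0) :
    (cst c : Form (DT π ρ A X ε)) = 0 := by
  rw [← cst_zero]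
  exact cst_congr h

/-- a vertex near a nonempty small list -/
theorem supp_vertex (hκ : Con π ρ A X κ) {x : M} {l : List M} (hl : PS.SmL A ε (x :: l)) :
    Supp π ρ A X ε {κ x} (fun _ : ℝ => ((Finsupp.single (κ x) 1, x :: l) : MP E M)) 0 := by
  have hx : x ∈ x :: l := List.mem_cons_self
  have hε : (0 : ℝ) < ε := (dist_self x).symm.trans_lt (hl.2 x hx x hx)
  refine ⟨⟨?_, ?_⟩, hl, ?_, Eventually.of_forall fun _ => rfl, ?_, ?_, fun z => ?_⟩
  · intro z hz
    rw [Finset.mem_singleton.1 hz]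
    exact hκ.mem x (hl.1 x hx)
  · intro z hz z' hz'
    rw [Finset.mem_singleton.1 hz, Finset.mem_singleton.1 hz', dist_self]
    exact hε
  · intro z hz w hw
    rw [Finset.mem_singleton.1 hw, hκ.fib]
    exact (hκ.lipR z x).trans_lt (hl.2 z hz x hx)
  · refine Eventually.of_forall fun _ z hz => ?_
    exact Finsupp.single_eq_of_ne fun h => hz (Finset.mem_singleton.2 h)
  · refine Eventually.of_forall fun _ => ?_
    rw [Finset.sum_singleton]
    exact Finsupp.single_eq_same
  · exact Sm.of_contDiff contDiff_const _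

theorem eq_zero_of_cst (hκ : Con π ρ A X κ) {c : List M → ℝ}
    (h : (cst c : Form (DT π ρ A X ε)) = 0) {l : List M} (hl : PS.SmL A ε l) (h0 : l ≠ []) :
    c l = 0 := by
  obtain ⟨x, l, rfl⟩ : ∃ x l', l = x :: l' := by
    cases l with
    | nil => exact absurd rfl h0
    | cons x l => exact ⟨x, l, rfl⟩
  have h1 := congrArg (fun f : Form (DT π ρ A X ε) =>
    f.val (fun _ : ℝ => ((Finsupp.single (κ x) 1, x :: l) : MP E M)) 0) h
  rw [cst_val _ (supp_vertex hκ hl), Form.zero_val] at h1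
  have h2 := congrArg aug h1
  rw [map_zero, AlgHom.commutes] at h2
  exact h2

/-- functions of lists of length `m` -/
theorem TDg_cst {m : ℕ} (hm : 1 ≤ m) {c : List M → ℝ} (hc : ∀ l, l.length ≠ m → c l = 0) :
    TDg m (cst c : Form (DT π ρ A X ε)) := by
  have h1 : ∀ p, p ≠ m → len p (cst c : Form (DT π ρ A X ε)) = 0 := by
    intro p hp
    rw [len_cst, ← cst_zero]
    congr 1
    funext l
    simp only [ind]
    split_ifs with h
    · rw [one_mul]
      exact hc l (by omega)
    · rw [zero_mul]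
  refine ⟨h1 0 (by omega), fun p q hpq => ?_, fun p hp => h1 p (by omega)⟩
  by_cases hp : p = m
  · have : q = 0 := by omega
    subst this
    rw [len_cst]
    exact isDeg_cst _
  · rw [h1 p hp]
    exact Form.IsDeg.zero _

theorem bl_len {g : List M → ℝ} {n : ℕ} (l : List M) :
    bl (fun l => ind n l * g l) l = ind (n + 1) l * bl g l := by
  by_cases h : l.length = n + 1
  · rw [show ind (n + 1) l = 1 from if_pos h, one_mul]
    refine bl_congr fun l' h1 _ => ?_
    rw [show ind n l' = 1 from if_pos (by omega), one_mul]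
  · rw [show ind (n + 1) l = 0 from if_neg h, zero_mul]
    rw [bl_congr (g := fun _ => 0) fun l' h1 _ => ?_, bl_zero]
    rw [show ind n l' = 0 from if_neg (by omega), zero_mul]

/-! ### The comparison -/

variable (π ρ A) in
/-- **comparison of a form with a function of lists** -/
def RelT (n : ℕ) (a : Form (DM X ε)) (c : List M → ℝ) : Prop :=
  ∃ b : Form (DT π ρ A X ε), TDg n b ∧ i a - cst c = D b

theorem TDg.addT {m : ℕ} {v w : Form (DT π ρ A X ε)} (hv : TDg m v) (hw : TDg m w) :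
    TDg m (v + w) := zg_TDg.1 ((zg_TDg.2 hv).add (zg_TDg.2 hw))

theorem TDg.negT {m : ℕ} {v : Form (DT π ρ A X ε)} (hv : TDg m v) :
    TDg m (-v) := zg_TDg.1 (zg_TDg.2 hv).neg

theorem TDg.subT {m : ℕ} {v w : Form (DT π ρ A X ε)} (hv : TDg m v) (hw : TDg m w) :
    TDg m (v - w) := zg_TDg.1 ((zg_TDg.2 hv).sub (zg_TDg.2 hw))

theorem TDg.dT {m : ℕ} {v : Form (DT π ρ A X ε)} (hv : TDg m v) :
    TDg (m + 1) (D v) := zg_TDg.1 (zg_TDg.2 hv).D

theorem TDg.smulT {m : ℕ} {v : Form (DT π ρ A X ε)} (r : ℝ) (hv : TDg m v) :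
    TDg m (r • v) :=
  ⟨by rw [len_smul, hv.zero, smul_zero],
    fun p q h => by rw [len_smul]; exact (hv.deg p q h).smul r,
    fun p h => by rw [len_smul, hv.top p h, smul_zero]⟩

theorem TDg.eq_zero {w : Form (DT π ρ A X ε)} (hw : TDg 0 w) : w = 0 :=
  ext_len fun p => by
    rw [len_zero]
    rcases Nat.eq_zero_or_pos p with rfl | hp
    · exact hw.zero
    · exact hw.top p hp

namespace RelT

variable {n : ℕ} {a a' : Form (DM X ε)} {c c' : List M → ℝ}

theorem add (h : RelT π ρ A n a c) (h' : RelT π ρ A n a' c') :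
    RelT π ρ A n (a + a') (fun l => c l + c' l) := by
  obtain ⟨b, hb, e⟩ := h
  obtain ⟨b', hb', e'⟩ := h'
  refine ⟨b + b', hb.addT hb', ?_⟩
  rw [i_add, cst_add, D_add, ← e, ← e']
  abel

theorem smul (r : ℝ) (h : RelT π ρ A n a c) : RelT π ρ A n (r • a) (fun l => r * c l) := by
  obtain ⟨b, hb, e⟩ := h
  refine ⟨r • b, hb.smulT r, ?_⟩
  rw [i_smul, cst_smul, D_smul, ← e, smul_sub]

theorem neg (h : RelT π ρ A n a c) : RelT π ρ A n (-a) (fun l => -c l) := by
  obtain ⟨b, hb, e⟩ := h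
  refine ⟨-b, hb.negT, ?_⟩
  rw [i_neg, cst_neg, D_neg, ← e]
  abel

theorem sub (h : RelT π ρ A n a c) (h' : RelT π ρ A n a' c') :
    RelT π ρ A n (a - a') (fun l => c l - c' l) := by
  have := h.add h'.neg
  simpa only [sub_eq_add_neg] using this

theorem zero (n : ℕ) : RelT (X := X) (ε := ε) π ρ A n 0 (fun _ => 0) :=
  ⟨0, zg_TDg.1 (Zg.TDg.zero n), by rw [i_zero, cst_zero, D_zero, sub_zero]⟩

theorem congr (h : RelT π ρ A n a c) (hc : ∀ l, PS.SmL A ε l → c l = c' l) :
    RelT π ρ A n a c' := by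
  obtain ⟨b, hb, e⟩ := h
  exact ⟨b, hb, by rw [← cst_congr hc, e]⟩

/-- the function may be restricted to the lists of the right length -/
theorem rest (ha : Form.IsDeg n a) (h : RelT π ρ A n a c) :
    RelT π ρ A n a (fun l => ind (n + 1) l * c l) := by
  obtain ⟨b, hb, e⟩ := h
  refine ⟨b, hb, ?_⟩
  have h1 : TDg (n + 1) (cst c : Form (DT π ρ A X ε)) := by
    have : (cst c : Form (DT π ρ A X ε)) = i a - D b := by rw [← e]; abel
    rw [this]
    exact (TDg_i ha).subT hb.dT
  have h2 : len (n + 1) (cst c : Form (DT π ρ A X ε)) = cst c := by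
    refine ext_len fun p => ?_
    rw [len_len]
    split_ifs with hp
    · rw [hp]
    · rcases Nat.lt_or_ge (n + 1) p with h3 | h3
      · rw [h1.top p h3]
      · obtain ⟨q, hq⟩ : ∃ q, p + (q + 1) = n + 1 := ⟨n - p, by omega⟩
        have h4 := h1.deg p (q + 1) hq
        rw [len_cst] at h4 ⊢
        rw [← h4.part_eq, (isDeg_cst _).part_eq_zero (by omega)]
  rw [← len_cst, h2, e]

/-- both are closed -/
theorem closed (hι : Ins π ρ A X ι) (hc : ∀ l, l.length ≠ n + 1 → c l = 0)
    (h : RelT π ρ A n a c) : a.d = 0 := by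
  obtain ⟨b, hb, e⟩ := h
  have h1 : D (i a - cst c : Form (DT π ρ A X ε)) = 0 := by rw [e, D_D]
  rw [D_sub, D_i, D_cst] at h1
  have h2 : len 1 (-i a.d - cst (bl c) : Form (DT π ρ A X ε)) = 0 := by rw [h1, len_zero]
  have h3 : len 1 (cst (bl c) : Form (DT π ρ A X ε)) = 0 := by
    rw [len_cst, ← cst_zero]
    congr 1
    funext l
    have h4 := bl_len (g := c) (n := n + 1) l
    have h5 : (fun l => ind (n + 1) l * c l) = c := by
      funext l
      simp only [ind]
      split_ifs with h6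
      · rw [one_mul]
      · rw [zero_mul, hc l h6]
    rw [h5] at h4
    rw [h4]
    simp only [ind]
    split_ifs with h6 h7
    · omega
    · simp
    · simp
    · simp
  rw [len_sub, len_neg, len_i, if_pos rfl, h3, sub_zero, neg_eq_zero] at h2
  exact i_inj hι (h2.trans i_zero.symm)

theorem cocycle (hκ : Con π ρ A X κ) (h : RelT π ρ A n a c) {l : List M} (hl : PS.SmL A ε l)
    (h2 : 2 ≤ l.length) : bl c l = 0 := by
  obtain ⟨b, hb, e⟩ := h
  have h1 : D (i a - cst c : Form (DT π ρ A X ε)) = 0 := by rw [e, D_D]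
  rw [D_sub, D_i, D_cst] at h1
  have h3 : len l.length (-i a.d - cst (bl c) : Form (DT π ρ A X ε)) = 0 := by
    rw [h1, len_zero]
  rw [len_sub, len_neg, len_i, if_neg (by omega), neg_zero, zero_sub, neg_eq_zero, len_cst] at h3
  have h4 := eq_zero_of_cst hκ h3 hl (by rintro rfl; simp at h2)
  rwa [show ind l.length l = 1 from if_pos rfl, one_mul] at h4

end RelT

/-- **(a)**: every closed form has a cocycle -/
theorem exists_relT_cst (hκ : Con π ρ A X κ) {n : ℕ} {a : Form (DM X ε)} (ha : Form.IsDeg n a)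
    (hd : a.d = 0) :
    ∃ c : List M → ℝ, (∀ l, l.length ≠ n + 1 → c l = 0) ∧ RelT π ρ A n a c := by
  have hD : D (i a : Form (DT π ρ A X ε)) = 0 := by rw [D_i, hd, i_zero, neg_zero]
  obtain ⟨b, hb, c, hc, e⟩ := exists_cst hκ (by omega) (TDg_i (π := π) (ρ := ρ) (A := A) ha)
    fun p _ => by rw [hD, len_zero]
  refine ⟨c, hc, b, hb, ?_⟩
  rw [← e]
  abel

/-- **(b)**: every cocycle has a closed form -/
theorem exists_relT_form (hι : Ins π ρ A X ι) {n : ℕ} {c : List M → ℝ}
    (hc : ∀ l, l.length ≠ n + 1 → c l = 0)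
    (hd : ∀ l, PS.SmL A ε l → l.length = n + 2 → bl c l = 0) :
    ∃ a : Form (DM X ε), Form.IsDeg n a ∧ a.d = 0 ∧ RelT π ρ A n a c := by
  have hcc : (fun l => ind (n + 1) l * c l) = c := by
    funext l
    simp only [ind]
    split_ifs with h6
    · rw [one_mul]
    · rw [zero_mul, hc l h6]
  have hD : D (cst c : Form (DT π ρ A X ε)) = 0 := by
    rw [D_cst]
    refine cst_eq_zero fun l hl => ?_
    by_cases h : l.length = n + 2
    · exact hd l hl h
    · have h4 := bl_len (g := c) (n := n + 1) l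
      rw [hcc] at h4
      rw [h4, show ind (n + 1 + 1) l = 0 from if_neg h, zero_mul]
  obtain ⟨b, hb, h1, h2, h3⟩ := exists_one hι (by omega) (TDg_cst (π := π) (ρ := ρ) (A := A)
    (X := X) (ε := ε) (by omega) hc) fun p _ => by rw [hD, len_zero]
  have hv := i_e0 hι h1 h3
  set a := e0 (S hι (cst c - D b)) with ha
  rw [Nat.add_sub_cancel] at h2 hb
  have hda : a.d = 0 := by
    have h4 : D (i a : Form (DT π ρ A X ε)) = 0 := by
      rw [hv, D_sub, hD, D_D, sub_zero]
    rw [D_i, neg_eq_zero] at h4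
    exact i_inj hι (h4.trans i_zero.symm)
  refine ⟨a, ?_, hda, -b, hb.negT, ?_⟩
  · have h5 : Form.IsDeg n (S hι (cst c - D b)) := (zg_isS hι).dg n _ h2
    exact h5.pull _ _
  · rw [hv, D_neg]
    abel

theorem ind_mul_of {n : ℕ} {g : List M → ℝ} (hg : ∀ l, l.length ≠ n → g l = 0) :
    (fun l => ind n l * g l) = g := by
  funext l
  simp only [ind]
  split_ifs with h6
  · rw [one_mul]
  · rw [zero_mul, hg l h6]

theorem bl_of_len {n : ℕ} {g : List M → ℝ} (hg : ∀ l, l.length ≠ n → g l = 0) {l : List M}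
    (hl : l.length ≠ n + 1) : bl g l = 0 := by
  rw [← ind_mul_of hg, bl_len, show ind (n + 1) l = 0 from if_neg hl, zero_mul]

/-- **(c)**, positive degree: exact forms have exact cocycles -/
theorem exact_lists (hκ : Con π ρ A X κ) {n : ℕ} {a : Form (DM X ε)} {c : List M → ℝ}
    (hc : ∀ l, l.length ≠ n + 2 → c l = 0)
    (h : RelT π ρ A (n + 1) a c) {η : Form (DM X ε)} (hη : Form.IsDeg n η) (e : a = η.d) :
    ∃ g : List M → ℝ, (∀ l, l.length ≠ n + 1 → g l = 0) ∧
      ∀ l, PS.SmL A ε l → c l = bl g l := by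
  obtain ⟨b, hb, eb⟩ := h
  have hw : TDg (n + 1) (b + i η) := hb.addT (TDg_i hη)
  have hDw : D (b + i η) = -cst c := by
    rw [D_add, ← eb, D_i, ← e]
    abel
  have hDl : ∀ p, p ≤ n + 1 → len p (D (b + i η)) = 0 := by
    intro p hp
    rw [hDw, len_neg, len_cst, neg_eq_zero]
    refine cst_eq_zero fun l _ => ?_
    simp only [ind]
    split_ifs with h1
    · rw [one_mul, hc l (by omega)]
    · rw [zero_mul]
  obtain ⟨b2, hb2, g, hg, eg⟩ := exists_cst hκ (by omega) hw hDl
  have h1 : (cst (fun l => c l + bl g l) : Form (DT π ρ A X ε)) = 0 := by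
    rw [cst_add, ← D_cst, ← eg, D_sub, D_D, hDw, sub_zero, add_neg_cancel]
  refine ⟨fun l => -g l, fun l hl => neg_eq_zero.2 (hg l hl), fun l hl => ?_⟩
  have h3 : bl (fun l => -g l) l = -bl g l := by
    have := bl_smul (-1 : ℝ) g l
    simpa using this
  rw [h3]
  cases l with
  | nil =>
    rw [bl_nil, neg_zero, hc [] (by simp)]
  | cons x l =>
    have h2 := eq_zero_of_cst hκ h1 hl (by simp)
    linarith

/-- **(c)**, positive degree: exact cocycles have exact forms -/
theorem exact_forms (hι : Ins π ρ A X ι) {n : ℕ} {a : Form (DM X ε)} {c : List M → ℝ}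
    (hc : ∀ l, l.length ≠ n + 2 → c l = 0)
    (h : RelT π ρ A (n + 1) a c) {g : List M → ℝ}
    (e : ∀ l, PS.SmL A ε l → l.length = n + 2 → c l = bl g l) :
    ∃ η : Form (DM X ε), Form.IsDeg n η ∧ a = η.d := by
  obtain ⟨b, hb, eb⟩ := h
  set g' : List M → ℝ := fun l => ind (n + 1) l * g l with hg'
  have hg0 : ∀ l, l.length ≠ n + 1 → g' l = 0 := fun l hl => by
    rw [hg']
    simp only [ind, if_neg hl, zero_mul]
  have hcg : (cst c : Form (DT π ρ A X ε)) = cst (bl g') := by
    refine cst_congr fun l hl => ?_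
    by_cases h1 : l.length = n + 2
    · rw [hg', bl_len, show ind (n + 1 + 1) l = 1 from if_pos h1, one_mul, e l hl h1]
    · rw [hc l h1, bl_of_len hg0 h1]
  have hw : TDg (n + 1) (b + cst g') := hb.addT (TDg_cst (by omega) hg0)
  have hDw : D (b + cst g') = i a := by
    rw [D_add, ← eb, D_cst, ← hcg]
    abel
  obtain ⟨b2, hb2, h1, h2, h3⟩ := exists_one hι (by omega) hw fun p hp => by
    rw [hDw, len_i, if_neg (by omega)]
  rw [Nat.add_sub_cancel] at h2
  have hv := i_e0 hι h1 h3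
  set η := e0 (S hι (b + cst g' - D b2)) with hη
  have h5 : Form.IsDeg n (S hι (b + cst g' - D b2)) := (zg_isS hι).dg n _ h2
  refine ⟨-η, (h5.pull _ _).neg, ?_⟩
  have h6 : D (i η : Form (DT π ρ A X ε)) = i a := by
    rw [hv, D_sub, D_D, sub_zero, hDw]
  rw [D_i] at h6
  have h7 : (i a : Form (DT π ρ A X ε)) = i (-η).d := by
    rw [← h6, Form.d_neg, i_neg]
  exact i_inj hι h7

/-- **(c)**, degree zero -/
theorem zero_lists (hκ : Con π ρ A X κ) {c : List M → ℝ} (h : RelT (X := X) (ε := ε) π ρ A 0 0 c)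
    {l : List M} (hl : PS.SmL A ε l) (h0 : l ≠ []) : c l = 0 := by
  obtain ⟨b, hb, eb⟩ := h
  rw [hb.eq_zero, D_zero, i_zero, zero_sub, neg_eq_zero] at eb
  exact eq_zero_of_cst hκ eb hl h0

/-- **(c)**, degree zero -/
theorem zero_forms (hι : Ins π ρ A X ι) {a : Form (DM X ε)} {c : List M → ℝ}
    (hc : ∀ l, l.length ≠ 1 → c l = 0) (h : RelT π ρ A 0 a c)
    (h0 : ∀ l, PS.SmL A ε l → l.length = 1 → c l = 0) : a = 0 := by
  obtain ⟨b, hb, eb⟩ := h
  have h1 : (cst c : Form (DT π ρ A X ε)) = 0 := by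
    refine cst_eq_zero fun l hl => ?_
    by_cases h : l.length = 1
    · exact h0 l hl h
    · exact hc l h
  rw [hb.eq_zero, D_zero, h1, sub_zero] at eb
  exact i_inj hι (eb.trans i_zero.symm)

/-- the cocycle of a form is unique up to coboundaries -/
theorem RelT.unique_lists (hκ : Con π ρ A X κ) {n : ℕ} {a : Form (DM X ε)} {c c' : List M → ℝ}
    (hc : ∀ l, l.length ≠ n + 2 → c l = 0) (hc' : ∀ l, l.length ≠ n + 2 → c' l = 0)
    (h : RelT π ρ A (n + 1) a c) (h' : RelT π ρ A (n + 1) a c') :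
    ∃ g : List M → ℝ, (∀ l, l.length ≠ n + 1 → g l = 0) ∧
      ∀ l, PS.SmL A ε l → c l - c' l = bl g l :=
  exact_lists hκ (fun l hl => by rw [hc l hl, hc' l hl, sub_zero]) (h.sub h')
    (Form.IsDeg.zero n) (by rw [sub_self, Form.d_zero])

/-- the form of a cocycle is unique up to exact forms -/
theorem RelT.unique_forms (hι : Ins π ρ A X ι) {n : ℕ} {a a' : Form (DM X ε)} {c : List M → ℝ}
    (h : RelT π ρ A (n + 1) a c) (h' : RelT π ρ A (n + 1) a' c) :
    ∃ η : Form (DM X ε), Form.IsDeg n η ∧ a - a' = η.d := by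
  have h1 := h.sub h'
  refine exact_forms hι (g := fun _ => 0) (c := fun _ => 0) (fun _ _ => rfl)
    (h1.congr fun l _ => sub_self _) fun l _ _ => ?_
  rw [bl_zero]

/-! ### The absolute case -/

variable {X : Set E}

/-- **comparison of a form with a function of lists**, the absolute case -/
def Rel (X : Set E) (ε : ℝ) (n : ℕ) (a : Form (DM X ε)) (c : List E → ℝ) : Prop :=
  ∃ b : Form (DT (id : E → E) (id : E → E) X X ε), TDg n b ∧ i a - cst c = D b

theorem rel_iff {n : ℕ} {a : Form (DM X ε)} {c : List E → ℝ} :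
    Rel X ε n a c ↔ RelT (id : E → E) (id : E → E) X n a c := Iff.rfl

/-- the insertion of the absolute case -/
theorem insA : Ins (id : E → E) (id : E → E) X X id :=
  ins_self (π := (id : E → E)) (fun _ _ => le_rfl) fun _ h => h

/-- **(a)** -/
theorem exists_rel_lists {n : ℕ} {a : Form (DM X ε)} (ha : Form.IsDeg n a) (hd : a.d = 0) :
    ∃ c : List E → ℝ, (∀ l, l.length ≠ n + 1 → c l = 0) ∧ Rel X ε n a c :=
  exists_relT_cst con_id ha hd

/-- **(b)** -/
theorem exists_rel_form {n : ℕ} {c : List E → ℝ} (hc : ∀ l, l.length ≠ n + 1 → c l = 0)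
    (hd : ∀ l, PS.SmL X ε l → l.length = n + 2 → bl c l = 0) :
    ∃ a : Form (DM X ε), Form.IsDeg n a ∧ a.d = 0 ∧ Rel X ε n a c :=
  exists_relT_form insA hc hd

/-- **(c)** -/
theorem rel_exact_iff {n : ℕ} {a : Form (DM X ε)} {c : List E → ℝ}
    (hc : ∀ l, l.length ≠ n + 2 → c l = 0) (h : Rel X ε (n + 1) a c) :
    (∃ η : Form (DM X ε), Form.IsDeg n η ∧ a = η.d) ↔
      ∃ g : List E → ℝ, ∀ l, PS.SmL X ε l → l.length = n + 2 → c l = bl g l := by
  constructor
  · rintro ⟨η, hη, e⟩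
    obtain ⟨g, -, hg⟩ := exact_lists con_id hc h hη e
    exact ⟨g, fun l hl _ => hg l hl⟩
  · rintro ⟨g, hg⟩
    exact exact_forms insA hc h hg

/-- **(c)**, degree zero -/
theorem rel_zero_iff {a : Form (DM X ε)} {c : List E → ℝ}
    (hc : ∀ l, l.length ≠ 1 → c l = 0) (h : Rel X ε 0 a c) :
    a = 0 ↔ ∀ l, PS.SmL X ε l → l.length = 1 → c l = 0 := by
  constructor
  · rintro rfl l hl h1
    exact zero_lists con_id h hl (by rintro rfl; simp at h1)
  · exact fun h0 => zero_forms insA hc h h0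

theorem Rel.add {n : ℕ} {a a' : Form (DM X ε)} {c c' : List E → ℝ} (h : Rel X ε n a c)
    (h' : Rel X ε n a' c') : Rel X ε n (a + a') (fun l => c l + c' l) := RelT.add h h'

theorem Rel.sub {n : ℕ} {a a' : Form (DM X ε)} {c c' : List E → ℝ} (h : Rel X ε n a c)
    (h' : Rel X ε n a' c') : Rel X ε n (a - a') (fun l => c l - c' l) := RelT.sub h h'

theorem Rel.neg {n : ℕ} {a : Form (DM X ε)} {c : List E → ℝ} (h : Rel X ε n a c) :
    Rel X ε n (-a) (fun l => -c l) := RelT.neg h

theorem Rel.smul (r : ℝ) {n : ℕ} {a : Form (DM X ε)} {c : List E → ℝ} (h : Rel X ε n a c) :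
    Rel X ε n (r • a) (fun l => r * c l) := RelT.smul r h

theorem Rel.zero (n : ℕ) : Rel X ε n 0 (fun _ => 0) := RelT.zero n

theorem Rel.congr {n : ℕ} {a : Form (DM X ε)} {c c' : List E → ℝ} (h : Rel X ε n a c)
    (hc : ∀ l, PS.SmL X ε l → c l = c' l) : Rel X ε n a c' := RelT.congr h hc

/-- the function may be restricted to the lists of the right length -/
theorem Rel.rest {n : ℕ} {a : Form (DM X ε)} {c : List E → ℝ} (ha : Form.IsDeg n a)
    (h : Rel X ε n a c) : Rel X ε n a (fun l => ind (n + 1) l * c l) := RelT.rest ha h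

theorem Rel.closed {n : ℕ} {a : Form (DM X ε)} {c : List E → ℝ}
    (hc : ∀ l, l.length ≠ n + 1 → c l = 0) (h : Rel X ε n a c) : a.d = 0 :=
  RelT.closed insA hc h

theorem Rel.cocycle {n : ℕ} {a : Form (DM X ε)} {c : List E → ℝ} (h : Rel X ε n a c)
    {l : List E} (hl : PS.SmL X ε l) (h2 : 2 ≤ l.length) : bl c l = 0 :=
  RelT.cocycle con_id h hl h2

theorem Rel.unique_lists {n : ℕ} {a : Form (DM X ε)} {c c' : List E → ℝ}
    (hc : ∀ l, l.length ≠ n + 2 → c l = 0) (hc' : ∀ l, l.length ≠ n + 2 → c' l = 0)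
    (h : Rel X ε (n + 1) a c) (h' : Rel X ε (n + 1) a c') :
    ∃ g : List E → ℝ, (∀ l, l.length ≠ n + 1 → g l = 0) ∧
      ∀ l, PS.SmL X ε l → c l - c' l = bl g l :=
  RelT.unique_lists con_id hc hc' h h'

theorem Rel.unique_forms {n : ℕ} {a a' : Form (DM X ε)} {c : List E → ℝ}
    (h : Rel X ε (n + 1) a c) (h' : Rel X ε (n + 1) a' c) :
    ∃ η : Form (DM X ε), Form.IsDeg n η ∧ a - a' = η.d :=
  RelT.unique_forms insA h h'

end

end Vale.Agent.P216.V1
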