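import Vale.Agent.P216.V1.Prod4
import Vale.Agent.P216.V1.Zig

/-!
# V1-P (6): the comparison of forms and cocycles is multiplicative
-/

set_option linter.unusedSectionVars false
set_option linter.unusedVariables false

open Set Filter Topology
open scoped ContDiff

namespace Vale.Agent.P216.V1

open Vale.Agent.P231.Fm Vale.Agent.P231.WA

noncomputable section

variable {E M N : Type} [PseudoMetricSpace E] [PseudoMetricSpace M] [PseudoMetricSpace N]
variable {π : E → N} {ρ : M → N} {A : Set M} {X : Set E} {ε : ℝ}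

/-- the cochain of a relation has the right degree -/
theorem RelT.tdg_cst {n : ℕ} {a : Form (DM X ε)} {c : List M → ℝ} (ha : Form.IsDeg n a)
    (h : RelT π ρ A n a c) : TDg (n + 1) (cst c : Form (DT π ρ A X ε)) := by
  obtain ⟨b, hb, e⟩ := h
  have h1 : (cst c : Form (DT π ρ A X ε)) = i a - D b := by
    rw [← e]
    abel
  rw [h1]
  exact (TDg_i ha).subT hb.dT

theorem RelT.D_cst {n : ℕ} {a : Form (DM X ε)} {c : List M → ℝ} (hd : a.d = 0)
    (h : RelT π ρ A n a c) : D (cst c : Form (DT π ρ A X ε)) = 0 := by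
  obtain ⟨b, hb, e⟩ := h
  have h1 : (cst c : Form (DT π ρ A X ε)) = i a - D b := by
    rw [← e]
    abel
  rw [h1, D_sub, D_D, D_i, hd, i_zero, neg_zero, sub_zero]

/-- **multiplicativity** -/
theorem RelT.mul {n n' : ℕ} {a a' : Form (DM X ε)} {c c' : List M → ℝ}
    (ha : Form.IsDeg n a) (ha' : Form.IsDeg n' a') (hd : a.d = 0) (hd' : a'.d = 0)
    (h : RelT π ρ A n a c) (h' : RelT π ρ A n' a' c') :
    RelT π ρ A (n + n') (a * a') (fun l => c (l.take (n + 1)) * c' (l.drop n)) := by
  have hc := h.tdg_cst ha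
  have hc' := h'.tdg_cst ha'
  have hD := h.D_cst hd
  obtain ⟨b, hb, e⟩ := h
  obtain ⟨b', hb', e'⟩ := h'
  refine ⟨star b (i a') + (-1 : ℝ) ^ n • star (cst c) b', ?_, ?_⟩
  · have h1 := hb.star (TDg_i (π := π) (ρ := ρ) (A := A) ha')
    have h2 := (hc.star hb').smulT ((-1 : ℝ) ^ n)
    rw [show n + (n' + 1) - 1 = n + n' by omega] at h1
    rw [show n + 1 + n' - 1 = n + n' by omega] at h2
    exact h1.addT h2
  · have e1 : (i (a * a') : Form (DT π ρ A X ε)) = star (i a) (i a') :=
      (base_star_base a a').symm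
    have e2 := star_cst_cst (π := π) (ρ := ρ) (A := A) (X := X) (ε := ε) hc hc'.zero
    have e3 : D (star b (i a')) = star (D b) (i a') := by
      rw [D_star hb.zero (TDg_i ha').zero, D_i, hd', i_zero, neg_zero, star_zero_right, sub_zero]
    have e4 : D (star (cst c) b') = (-1 : ℝ) ^ n • star (cst c) (D b') := by
      rw [D_star hc.zero hb'.zero, hD, star_zero_left, hc.tau, star_smul_left, pow_succ,
        mul_neg_one, neg_smul, zero_sub, neg_neg]
    have e5 : ((-1 : ℝ) ^ n) * (-1) ^ n = 1 := by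
      rw [← mul_pow]
      simp
    rw [D_add, D_smul, e3, e4, smul_smul, e5, one_smul, e1, ← e2, ← e, ← e', star_sub_left,
      star_sub_right]
    abel

/-- **multiplicativity**, the absolute case -/
theorem Rel.mul {n n' : ℕ} {a a' : Form (DM X ε)} {c c' : List E → ℝ}
    (ha : Form.IsDeg n a) (ha' : Form.IsDeg n' a') (hd : a.d = 0) (hd' : a'.d = 0)
    (h : Rel X ε n a c) (h' : Rel X ε n' a' c') :
    Rel X ε (n + n') (a * a') (fun l => c (l.take (n + 1)) * c' (l.drop n)) :=
  RelT.mul ha ha' hd hd' h h'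

end

end Vale.Agent.P216.V1
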