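import Vale.Agent.P216.V1.Defs
import Vale.Agent.P231.WA.Deg

/-!
# The double complex of forms with lists
-/

set_option linter.unusedSectionVars false
set_option linter.unusedVariables false

open Set Filter Topology
open scoped ContDiff

namespace Vale.Agent.P216.V1

open Vale.Agent.P231.Fm Vale.Agent.P231.WA

noncomputable section

variable {E M N : Type} [PseudoMetricSpace E] [PseudoMetricSpace M] [PseudoMetricSpace N]

section bl

variable {L : Type*} [AddCommGroup L]

theorem bl_congr' {f g : List M → L} {l : List M} (h : ∀ l', (∀ x ∈ l', x ∈ l) → f l' = g l') :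
    bl f l = bl g l :=
  bl_congr fun l' _ h2 => h l' fun x hx => h2.subset hx

theorem bl_lift {P : L → Prop} (h0 : P 0) (hs : ∀ a b, P a → P b → P (a - b)) {f : List M → L}
    {l : List M} (h : ∀ l', (∀ x ∈ l', x ∈ l) → P (f l')) : P (bl f l) := by
  induction l generalizing f with
  | nil => exact h0
  | cons x l ih =>
    rw [bl_cons]
    refine hs _ _ (h l fun y hy => List.mem_cons_of_mem _ hy) (ih fun l' hl' => h _ ?_)
    intro y hy
    rcases List.mem_cons.1 hy with rfl | hy
    · simp
    · exact List.mem_cons_of_mem _ (hl' y hy)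

end bl

section an

variable {V : Type} [NormedAddCommGroup V] [NormedSpace ℝ V] [FiniteDimensional ℝ V]
variable {M : Type}

theorem contDiffAt_bl {f : V → List M → Lam V} {s : V} {l : List M}
    (h : ∀ l', (∀ x ∈ l', x ∈ l) → ContDiffAt ℝ ∞ (fun y => f y l') s) :
    ContDiffAt ℝ ∞ (fun y => bl (f y) l) s := by
  induction l generalizing f with
  | nil => exact contDiffAt_const
  | cons x l ih =>
    simp only [bl_cons]
    refine (h l fun y hy => List.mem_cons_of_mem _ hy).sub (ih fun l' hl' => h _ ?_)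
    intro y hy
    rcases List.mem_cons.1 hy with rfl | hy
    · simp
    · exact List.mem_cons_of_mem _ (hl' y hy)

theorem extd_bl {f : V → List M → Lam V} {s : V} {l : List M}
    (h : ∀ l', (∀ x ∈ l', x ∈ l) → DifferentiableAt ℝ (fun y => f y l') s) :
    extd (fun y => bl (f y) l) s = bl (fun l' => extd (fun y => f y l') s) l ∧
      DifferentiableAt ℝ (fun y => bl (f y) l) s := by
  induction l generalizing f with
  | nil =>
    refine ⟨?_, differentiableAt_const _⟩
    simp only [bl_nil]
    have := extd_of (w := fun _ : V => (0 : Lam V)) (hasFDerivAt_const (0 : Lam V) s)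
    rw [this, map_zero]
  | cons x l ih =>
    have h1 := h l fun y hy => List.mem_cons_of_mem _ hy
    obtain ⟨h2, h3⟩ := ih (f := fun y l' => f y (x :: l')) fun l' hl' => h _ (by
      intro y hy
      rcases List.mem_cons.1 hy with rfl | hy
      · simp
      · exact List.mem_cons_of_mem _ (hl' y hy))
    simp only [bl_cons]
    refine ⟨?_, h1.sub h3⟩
    rw [extd_sub h1 h3, h2]

end an

variable {π : E → N} {ρ : M → N} {A : Set M} {X : Set E} {ε : ℝ}
variable {V : Type} [NormedAddCommGroup V] [NormedSpace ℝ V] [FiniteDimensional ℝ V]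
  {u : V → MP E M} {s : V} {F : Finset E}

theorem Supp.at (h : Supp π ρ A X ε F u s) : (DT π ρ A X ε).At u s := ⟨F, h⟩

theorem ext_T {a b : Form (DT π ρ A X ε)} (h : ∀ (V : Type) [NormedAddCommGroup V]
    [NormedSpace ℝ V] [FiniteDimensional ℝ V] (u : V → MP E M) (s : V) (F : Finset E),
    Supp π ρ A X ε F u s → a.val u s = b.val u s) : a = b :=
  Form.ext_val fun V _ _ _ u s ⟨F, hF⟩ => h V u s F hF

/-- the list is locally constant -/
theorem val_list (w : Form (DT π ρ A X ε)) (h : Supp π ρ A X ε F u s) :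
    w.val (fun y => ((u y).1, (u s).2)) s = w.val u s := by
  refine w.congr ⟨F, h.sub fun x hx => hx⟩ ?_
  filter_upwards [h.cst] with y hy
  rw [← hy]

/-! ### Locally constant functions -/

/-- a function of the list as a form -/
def cst (c : List M → ℝ) : Form (DT π ρ A X ε) :=
  Form.mk' (fun u s => algebraMap ℝ _ (c (u s).2))
    (by
      rintro V _ _ _ u s ⟨F, h⟩
      refine ContDiffAt.congr_of_eventuallyEq (f := fun _ => algebraMap ℝ _ (c (u s).2))
        contDiffAt_const ?_
      filter_upwards [h.cst] with y hy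
      rw [hy])
    (by
      rintro V W _ _ _ _ _ _ u g s ⟨F, h⟩ hg
      exact (AlgHom.commutes _ _).symm)
    (by
      rintro V _ _ _ u v s ⟨F, h⟩ huv
      rw [huv.eq_of_nhds])

theorem cst_val (c : List M → ℝ) (h : Supp π ρ A X ε F u s) :
    (cst c : Form (DT π ρ A X ε)).val u s = algebraMap ℝ _ (c (u s).2) :=
  Form.mk'_val (D := DT π ρ A X ε) ⟨F, h⟩

/-- multiplication with a function of the list -/
def sc (c : List M → ℝ) (w : Form (DT π ρ A X ε)) : Form (DT π ρ A X ε) := cst c * w

theorem sc_val (c : List M → ℝ) (w : Form (DT π ρ A X ε)) (h : Supp π ρ A X ε F u s) :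
    (sc c w).val u s = c (u s).2 • w.val u s := by
  rw [sc, Form.mul_val, cst_val c h, ← Algebra.smul_def]

theorem sc_add (c : List M → ℝ) (v w : Form (DT π ρ A X ε)) : sc c (v + w) = sc c v + sc c w :=
  mul_add _ _ _

theorem sc_sub (c : List M → ℝ) (v w : Form (DT π ρ A X ε)) : sc c (v - w) = sc c v - sc c w :=
  mul_sub _ _ _

theorem sc_neg (c : List M → ℝ) (w : Form (DT π ρ A X ε)) : sc c (-w) = -sc c w := mul_neg _ _

theorem sc_zero (c : List M → ℝ) : sc c (0 : Form (DT π ρ A X ε)) = 0 := mul_zero _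

theorem sc_smul (c : List M → ℝ) (r : ℝ) (w : Form (DT π ρ A X ε)) :
    sc c (r • w) = r • sc c w := mul_smul_comm _ _ _

theorem sc_sc (c c' : List M → ℝ) (w : Form (DT π ρ A X ε)) :
    sc c (sc c' w) = sc (fun l => c l * c' l) w :=
  ext_T fun V _ _ _ u s F h => by
    rw [sc_val _ _ h, sc_val _ _ h, sc_val _ _ h, mul_smul]

theorem sc_one (w : Form (DT π ρ A X ε)) : sc (fun _ => 1) w = w :=
  ext_T fun V _ _ _ u s F h => by rw [sc_val _ _ h, one_smul]

theorem sc_congr {c c' : List M → ℝ} (hc : ∀ l, c l = c' l) (w : Form (DT π ρ A X ε)) :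
    sc c w = sc c' w := by rw [funext hc]

theorem d_cst (c : List M → ℝ) : (cst c : Form (DT π ρ A X ε)).d = 0 :=
  ext_T fun V _ _ _ u s F h => by
    rw [Form.d_val _ h.at, Form.zero_val]
    have h1 : (cst c : Form (DT π ρ A X ε)).val u =ᶠ[𝓝 s]
        fun _ => algebraMap ℝ _ (c (u s).2) := by
      filter_upwards [h.near, h.cst] with y hy h2
      rw [cst_val c hy, h2]
    rw [extd_congr h1, extd_of (hasFDerivAt_const _ s), map_zero]

theorem sg_cst (c : List M → ℝ) : (cst c : Form (DT π ρ A X ε)).sg = cst c :=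
  ext_T fun V _ _ _ u s F h => by
    rw [Form.sg_val, cst_val c h, AlgHom.commutes]

theorem isDeg_cst (c : List M → ℝ) : Form.IsDeg 0 (cst c : Form (DT π ρ A X ε)) :=
  ext_T fun V _ _ _ u s F h => by
    rw [Form.part_val, cst_val c h, prt_algebraMap, if_pos rfl]

theorem d_sc (c : List M → ℝ) (w : Form (DT π ρ A X ε)) : (sc c w).d = sc c w.d := by
  rw [sc, Form.d_mul, d_cst, zero_mul, zero_add, sg_cst, sc]

theorem sg_sc (c : List M → ℝ) (w : Form (DT π ρ A X ε)) : (sc c w).sg = sc c w.sg := by
  rw [sc, Form.sg_mul, sg_cst, sc]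

theorem part_sc (k : ℕ) (c : List M → ℝ) (w : Form (DT π ρ A X ε)) :
    Form.part k (sc c w) = sc c (Form.part k w) :=
  ext_T fun V _ _ _ u s F h => by
    rw [Form.part_val, sc_val _ _ h, sc_val _ _ h, Form.part_val, map_smul]

/-! ### The coboundary of the lists -/

/-- the coboundary in the lists -/
def del (w : Form (DT π ρ A X ε)) : Form (DT π ρ A X ε) :=
  Form.mk' (fun u s => bl (fun l => w.val (fun y => ((u y).1, l)) s) (u s).2)
    (by
      rintro V _ _ _ u s ⟨F, h⟩
      have h1 : (fun s => bl (fun l => w.val (fun y => ((u y).1, l)) s) (u s).2) =ᶠ[𝓝 s]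
          fun z => bl (fun l => w.val (fun y => ((u y).1, l)) z) (u s).2 := by
        filter_upwards [h.cst] with y hy
        rw [hy]
      refine ContDiffAt.congr_of_eventuallyEq ?_ h1
      exact contDiffAt_bl fun l' hl' => w.smooth ⟨F, h.sub hl'⟩)
    (by
      rintro V W _ _ _ _ _ _ u g s ⟨F, h⟩ hg
      rw [map_bl]
      refine bl_congr' fun l' hl' => ?_
      exact w.nat (u := fun y => ((u y).1, l')) (g := g) (x := s) ⟨F, h.sub hl'⟩ hg)
    (by
      rintro V _ _ _ u v s ⟨F, h⟩ huv
      rw [← huv.eq_of_nhds]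
      refine bl_congr' fun l' hl' => w.congr ⟨F, h.sub hl'⟩ ?_
      filter_upwards [huv] with y hy
      rw [hy])

theorem del_val (w : Form (DT π ρ A X ε)) (h : Supp π ρ A X ε F u s) :
    (del w).val u s = bl (fun l => w.val (fun y => ((u y).1, l)) s) (u s).2 :=
  Form.mk'_val (D := DT π ρ A X ε) ⟨F, h⟩

/-- the value of `del w` with a given list -/
theorem del_val' (w : Form (DT π ρ A X ε)) (h : Supp π ρ A X ε F u s) {l : List M}
    (hl : ∀ x ∈ l, x ∈ (u s).2) : (del w).val (fun y => ((u y).1, l)) s =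
      bl (fun l => w.val (fun y => ((u y).1, l)) s) l :=
  del_val w (h.sub hl)

theorem del_add (v w : Form (DT π ρ A X ε)) : del (v + w) = del v + del w :=
  ext_T fun V _ _ _ u s F h => by
    rw [Form.add_val, del_val _ h, del_val _ h, del_val _ h, ← bl_add]
    rfl

theorem del_sub (v w : Form (DT π ρ A X ε)) : del (v - w) = del v - del w :=
  ext_T fun V _ _ _ u s F h => by
    rw [Form.sub_val, del_val _ h, del_val _ h, del_val _ h, ← bl_sub]
    rfl

theorem del_smul (c : ℝ) (w : Form (DT π ρ A X ε)) : del (c • w) = c • del w :=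
  ext_T fun V _ _ _ u s F h => by
    rw [Form.smul_val, del_val _ h, del_val _ h, ← bl_smul]
    rfl

theorem del_zero : del (0 : Form (DT π ρ A X ε)) = 0 := by
  have := del_smul (0 : ℝ) (0 : Form (DT π ρ A X ε))
  rwa [zero_smul, zero_smul] at this

theorem del_neg (w : Form (DT π ρ A X ε)) : del (-w) = -del w := by
  rw [← zero_sub, del_sub, del_zero, zero_sub]

theorem del_del (w : Form (DT π ρ A X ε)) : del (del w) = 0 :=
  ext_T fun V _ _ _ u s F h => by
    rw [del_val _ h, Form.zero_val, ← bl_bl (fun l => w.val (fun y => ((u y).1, l)) s) (u s).2]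
    exact bl_congr' fun l' hl' => del_val' w h hl'

theorem d_del (w : Form (DT π ρ A X ε)) : (del w).d = del w.d :=
  ext_T fun V _ _ _ u s F h => by
    rw [Form.d_val _ h.at, del_val _ h]
    have h1 : (del w).val u =ᶠ[𝓝 s]
        fun z => bl (fun l => w.val (fun y => ((u y).1, l)) z) (u s).2 := by
      filter_upwards [h.near, h.cst] with y hy h2
      rw [del_val _ hy, h2]
    rw [extd_congr h1, (extd_bl fun l' hl' => w.differentiableAt
      (Supp.at (π := π) (ρ := ρ) (A := A) (X := X) (ε := ε) (h.sub hl'))).1]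
    exact bl_congr' fun l' hl' => (Form.d_val _ (h.sub hl').at).symm

theorem part_del (k : ℕ) (w : Form (DT π ρ A X ε)) :
    Form.part k (del w) = del (Form.part k w) :=
  ext_T fun V _ _ _ u s F h => by
    rw [Form.part_val, del_val _ h, del_val _ h, map_bl]
    rfl

theorem sg_del (w : Form (DT π ρ A X ε)) : (del w).sg = del w.sg :=
  ext_T fun V _ _ _ u s F h => by
    rw [Form.sg_val, del_val _ h, del_val _ h, map_bl]
    rfl

/-- a function of the length -/
theorem del_sc_len (c : ℕ → ℝ) (w : Form (DT π ρ A X ε)) :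
    del (sc (fun l => c (l.length + 1)) w) = sc (fun l => c l.length) (del w) :=
  ext_T fun V _ _ _ u s F h => by
    rw [del_val _ h, sc_val _ _ h, del_val _ h, ← bl_smul]
    refine bl_congr fun l' h1 h2 => ?_
    rw [sc_val _ _ (h.sub fun x hx => h2.subset hx), h1]

theorem del_cst (c : List M → ℝ) : del (cst c : Form (DT π ρ A X ε)) = cst (bl c) :=
  ext_T fun V _ _ _ u s F h => by
    rw [del_val _ h, cst_val _ h, map_bl]
    exact bl_congr' fun l' hl' => cst_val c (h.sub hl')

/-! ### The contraction -/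

theorem finsum_supp {L : Type*} [AddCommGroup L] [Module ℝ L] (h : Supp π ρ A X ε F u s)
    (b : E → L) : ∑ᶠ x, (u s).1 x • b x = ∑ x ∈ F, (u s).1 x • b x := by
  refine finsum_eq_sum_of_support_subset _ fun x hx => ?_
  by_contra hF
  refine hx ?_
  have h1 := h.out.self_of_nhds x hF
  change (u s).1 x • b x = 0
  rw [h1, zero_smul]

variable {ι : E → M}

/-- **contraction with the measure**: `(S w)(μ, l) = ∑ x, μ x • w (μ, ι x :: l)` -/
def S (hι : Ins π ρ A X ι) (w : Form (DT π ρ A X ε)) : Form (DT π ρ A X ε) :=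
  Form.mk' (fun u s => ∑ᶠ x, (u s).1 x • w.val (fun y => ((u y).1, ι x :: (u y).2)) s)
    (by
      rintro V _ _ _ u s ⟨F, h⟩
      have h1 : (fun s => ∑ᶠ x, (u s).1 x • w.val (fun y => ((u y).1, ι x :: (u y).2)) s)
          =ᶠ[𝓝 s] fun s => ∑ x ∈ F, (u s).1 x • w.val (fun y => ((u y).1, ι x :: (u y).2)) s := by
        filter_upwards [h.near] with y hy
        exact finsum_supp hy _
      refine ContDiffAt.congr_of_eventuallyEq ?_ h1
      refine ContDiffAt.sum fun x hx => ?_
      exact (h.sm x).contDiffAt.smul (w.smooth ⟨F, h.ins hι hx⟩))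
    (by
      rintro V W _ _ _ _ _ _ u g s ⟨F, h⟩ hg
      rw [finsum_supp (h.comp hg), finsum_supp h, map_sum]
      refine Finset.sum_congr rfl fun x hx => ?_
      rw [map_smul]
      congr 1
      exact w.nat (u := fun y => ((u y).1, ι x :: (u y).2)) (g := g) (x := s)
        ⟨F, h.ins hι hx⟩ hg)
    (by
      rintro V _ _ _ u v s ⟨F, h⟩ huv
      rw [finsum_supp h, finsum_supp (h.congr huv)]
      refine Finset.sum_congr rfl fun x hx => ?_
      rw [huv.eq_of_nhds]
      congr 1
      refine w.congr ⟨F, h.ins hι hx⟩ ?_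
      filter_upwards [huv] with y hy
      rw [hy])

theorem S_val (hι : Ins π ρ A X ι) (w : Form (DT π ρ A X ε)) (h : Supp π ρ A X ε F u s) :
    (S hι w).val u s = ∑ x ∈ F, (u s).1 x • w.val (fun y => ((u y).1, ι x :: (u s).2)) s := by
  rw [show (S hι w).val u s = _ from Form.mk'_val (D := DT π ρ A X ε) ⟨F, h⟩, finsum_supp h]
  refine Finset.sum_congr rfl fun x hx => ?_
  congr 1
  refine w.congr ⟨F, h.ins hι hx⟩ ?_
  filter_upwards [h.cst] with y hy
  rw [hy]

theorem S_add (hι : Ins π ρ A X ι) (v w : Form (DT π ρ A X ε)) :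
    S hι (v + w) = S hι v + S hι w :=
  ext_T fun V _ _ _ u s F h => by
    rw [Form.add_val, S_val hι _ h, S_val hι _ h, S_val hι _ h, ← Finset.sum_add_distrib]
    exact Finset.sum_congr rfl fun x _ => by rw [Form.add_val, smul_add]

theorem S_sub (hι : Ins π ρ A X ι) (v w : Form (DT π ρ A X ε)) :
    S hι (v - w) = S hι v - S hι w :=
  ext_T fun V _ _ _ u s F h => by
    rw [Form.sub_val, S_val hι _ h, S_val hι _ h, S_val hι _ h, ← Finset.sum_sub_distrib]
    exact Finset.sum_congr rfl fun x _ => by rw [Form.sub_val, smul_sub]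

theorem S_smul (hι : Ins π ρ A X ι) (c : ℝ) (w : Form (DT π ρ A X ε)) :
    S hι (c • w) = c • S hι w :=
  ext_T fun V _ _ _ u s F h => by
    rw [Form.smul_val, S_val hι _ h, S_val hι _ h, Finset.smul_sum]
    exact Finset.sum_congr rfl fun x _ => by rw [Form.smul_val, smul_comm]

theorem S_zero (hι : Ins π ρ A X ι) : S hι (0 : Form (DT π ρ A X ε)) = 0 := by
  have := S_smul hι (0 : ℝ) (0 : Form (DT π ρ A X ε))
  rwa [zero_smul, zero_smul] at this

theorem S_neg (hι : Ins π ρ A X ι) (w : Form (DT π ρ A X ε)) : S hι (-w) = -S hι w := by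
  rw [← zero_sub, S_sub, S_zero, zero_sub]

/-- the value of `S w` with a given list -/
theorem S_val' (hι : Ins π ρ A X ι) (w : Form (DT π ρ A X ε)) (h : Supp π ρ A X ε F u s)
    {l : List M} (hl : ∀ x ∈ l, x ∈ (u s).2) : (S hι w).val (fun y => ((u y).1, l)) s =
      ∑ x ∈ F, (u s).1 x • w.val (fun y => ((u y).1, ι x :: l)) s :=
  S_val hι w (h.sub hl)

/-- **the contraction identity** -/
theorem del_S (hι : Ins π ρ A X ι) (w : Form (DT π ρ A X ε)) :
    del (S hι w) + S hι (del w) = w :=
  ext_T fun V _ _ _ u s F h => by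
    have h1 : (S hι (del w)).val u s = w.val u s -
        ∑ x ∈ F, (u s).1 x • bl (fun l => w.val (fun y => ((u y).1, ι x :: l)) s) (u s).2 := by
      rw [S_val hι _ h]
      have h2 : ∀ x ∈ F, (u s).1 x • (del w).val (fun y => ((u y).1, ι x :: (u s).2)) s =
          (u s).1 x • w.val u s -
            (u s).1 x • bl (fun l => w.val (fun y => ((u y).1, ι x :: l)) s) (u s).2 := by
        intro x hx
        have h4 : Supp π ρ A X ε F (fun y => ((u y).1, ι x :: (u s).2)) s :=
          (h.ins hι hx).sub (l := ι x :: (u s).2) fun z hz => hz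
        rw [del_val w h4]
        rw [← smul_sub]
        congr 1
        rw [show ((fun y => ((u y).1, ι x :: (u s).2)) s : MP E M).2 = ι x :: (u s).2 from rfl,
          bl_cons, val_list w h]
      rw [Finset.sum_congr rfl h2, Finset.sum_sub_distrib, ← Finset.sum_smul,
        h.sum.self_of_nhds, one_smul]
    have h3 : (del (S hι w)).val u s =
        ∑ x ∈ F, (u s).1 x • bl (fun l => w.val (fun y => ((u y).1, ι x :: l)) s) (u s).2 := by
      rw [del_val _ h, bl_congr' fun l' hl' => S_val' hι w h hl', bl_sum]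
      exact Finset.sum_congr rfl fun x _ => bl_smul _ _ _
    rw [Form.add_val, h1, h3, add_sub_cancel]

theorem part_S (hι : Ins π ρ A X ι) (k : ℕ) (w : Form (DT π ρ A X ε)) :
    Form.part k (S hι w) = S hι (Form.part k w) :=
  ext_T fun V _ _ _ u s F h => by
    rw [Form.part_val, S_val hι _ h, S_val hι _ h, map_sum]
    exact Finset.sum_congr rfl fun x _ => by rw [map_smul, Form.part_val]

theorem S_sc_len (hι : Ins π ρ A X ι) (c : ℕ → ℝ) (w : Form (DT π ρ A X ε)) :
    S hι (sc (fun l => c l.length) w) = sc (fun l => c (l.length + 1)) (S hι w) :=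
  ext_T fun V _ _ _ u s F h => by
    rw [S_val hι _ h, sc_val _ _ h, S_val hι _ h, Finset.smul_sum]
    refine Finset.sum_congr rfl fun x hx => ?_
    rw [sc_val _ _ ((h.ins hι hx).sub (l := ι x :: (u s).2) fun z hz => hz), smul_comm]
    rfl

/-! ### The total differential -/

/-- the sign of the length -/
def sgn (l : List M) : ℝ := (-1) ^ l.length

/-- the total differential -/
def D (w : Form (DT π ρ A X ε)) : Form (DT π ρ A X ε) := del w + sc sgn w.d

theorem sc_sgn_sgn (w : Form (DT π ρ A X ε)) : sc sgn (sc sgn w) = w := by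
  rw [sc_sc, ← sc_one w, sc_sc]
  refine sc_congr (fun l => ?_) _
  simp only [sgn]
  rw [← mul_pow]
  simp

theorem del_sgn (w : Form (DT π ρ A X ε)) : del (sc sgn w) = -sc sgn (del w) := by
  have := del_sc_len (fun n => -(-1 : ℝ) ^ n) w
  have h1 : sc (fun l : List M => -(-1 : ℝ) ^ (l.length + 1)) w = sc sgn w :=
    sc_congr (fun l => by simp [sgn, pow_succ]) _
  rw [h1] at this
  rw [this]
  refine ext_T fun V _ _ _ u s F h => ?_
  rw [sc_val _ _ h, Form.neg_val, sc_val _ _ h, neg_smul]
  rfl

theorem S_sgn (hι : Ins π ρ A X ι) (w : Form (DT π ρ A X ε)) :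
    S hι (sc sgn w) = -sc sgn (S hι w) := by
  have := S_sc_len hι (fun n => (-1 : ℝ) ^ n) w
  change S hι (sc sgn w) = _ at this
  rw [this]
  refine ext_T fun V _ _ _ u s F h => ?_
  rw [sc_val _ _ h, Form.neg_val, sc_val _ _ h, pow_succ, mul_neg_one, neg_smul]
  rfl

theorem D_add (v w : Form (DT π ρ A X ε)) : D (v + w) = D v + D w := by
  rw [D, D, D, del_add, Form.d_add, sc_add]
  abel

theorem D_sub (v w : Form (DT π ρ A X ε)) : D (v - w) = D v - D w := by
  rw [D, D, D, del_sub, Form.d_sub, sc_sub]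
  abel

theorem D_smul (c : ℝ) (w : Form (DT π ρ A X ε)) : D (c • w) = c • D w := by
  rw [D, D, del_smul, Form.d_smul, sc_smul, smul_add]

theorem D_zero : D (0 : Form (DT π ρ A X ε)) = 0 := by
  have := D_smul (0 : ℝ) (0 : Form (DT π ρ A X ε))
  rwa [zero_smul, zero_smul] at this

theorem D_neg (w : Form (DT π ρ A X ε)) : D (-w) = -D w := by
  rw [← zero_sub, D_sub, D_zero, zero_sub]

theorem D_D (w : Form (DT π ρ A X ε)) : D (D w) = 0 := by
  rw [D, D, del_add, del_del, zero_add, del_sgn, Form.d_add, sc_add, d_del, d_sc, Form.d_d,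
    sc_zero, sc_zero, add_zero, neg_add_cancel]

theorem D_cst (c : List M → ℝ) : D (cst c : Form (DT π ρ A X ε)) = cst (bl c) := by
  rw [D, del_cst, d_cst, sc_zero, add_zero]

/-! ### The part of a given length -/

/-- the indicator of the length -/
def ind (p : ℕ) (l : List M) : ℝ := if l.length = p then 1 else 0

/-- the part on the lists of length `p` -/
def len (p : ℕ) (w : Form (DT π ρ A X ε)) : Form (DT π ρ A X ε) := sc (ind p) w

theorem len_val (p : ℕ) (w : Form (DT π ρ A X ε)) (h : Supp π ρ A X ε F u s) :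
    (len p w).val u s = if (u s).2.length = p then w.val u s else 0 := by
  rw [len, sc_val _ _ h, ind]
  split_ifs
  · rw [one_smul]
  · rw [zero_smul]

theorem len_add (p : ℕ) (v w : Form (DT π ρ A X ε)) : len p (v + w) = len p v + len p w :=
  sc_add _ _ _

theorem len_sub (p : ℕ) (v w : Form (DT π ρ A X ε)) : len p (v - w) = len p v - len p w :=
  sc_sub _ _ _

theorem len_neg (p : ℕ) (w : Form (DT π ρ A X ε)) : len p (-w) = -len p w := sc_neg _ _

theorem len_zero (p : ℕ) : len p (0 : Form (DT π ρ A X ε)) = 0 := sc_zero _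

theorem len_smul (p : ℕ) (r : ℝ) (w : Form (DT π ρ A X ε)) : len p (r • w) = r • len p w :=
  sc_smul _ _ _

theorem len_sc (p : ℕ) (c : List M → ℝ) (w : Form (DT π ρ A X ε)) :
    len p (sc c w) = sc c (len p w) := by
  rw [len, len, sc_sc, sc_sc]
  exact sc_congr (fun l => mul_comm _ _) _

theorem len_len (p q : ℕ) (w : Form (DT π ρ A X ε)) :
    len p (len q w) = if p = q then len q w else 0 := by
  rcases eq_or_ne p q with rfl | hpq
  · rw [if_pos rfl, len, len, sc_sc]
    refine sc_congr (fun l => ?_) _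
    simp only [ind]
    split_ifs <;> simp
  · rw [if_neg hpq]
    refine ext_T fun V _ _ _ u s F h => ?_
    rw [len_val _ _ h, len_val _ _ h, Form.zero_val]
    split_ifs with h1 h2
    · exact absurd (h1.symm.trans h2) hpq
    · rfl
    · rfl

theorem ext_len {v w : Form (DT π ρ A X ε)} (h : ∀ p, len p v = len p w) : v = w :=
  ext_T fun V _ _ _ u s F hF => by
    have h1 : (len (u s).2.length v).val u s = (len (u s).2.length w).val u s := by rw [h]
    rwa [len_val _ _ hF, len_val _ _ hF, if_pos rfl, if_pos rfl] at h1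

theorem d_len (p : ℕ) (w : Form (DT π ρ A X ε)) : (len p w).d = len p w.d := d_sc _ _

theorem part_len (k p : ℕ) (w : Form (DT π ρ A X ε)) :
    Form.part k (len p w) = len p (Form.part k w) := part_sc _ _ _

theorem del_len (p : ℕ) (w : Form (DT π ρ A X ε)) : del (len p w) = len (p + 1) (del w) := by
  have := del_sc_len (fun n => if n = p + 1 then (1 : ℝ) else 0) w
  have h1 : sc (fun l : List M => if l.length + 1 = p + 1 then (1 : ℝ) else 0) w = len p w :=
    sc_congr (fun l => by simp [ind]) _
  rw [h1] at this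
  rw [this]
  rfl

theorem len_zero_del (w : Form (DT π ρ A X ε)) : len 0 (del w) = 0 :=
  ext_T fun V _ _ _ u s F h => by
    rw [len_val _ _ h, Form.zero_val]
    split_ifs with h1
    · rw [del_val _ h, List.length_eq_zero_iff.1 h1, bl_nil]
    · rfl

theorem S_len (hι : Ins π ρ A X ι) (p : ℕ) (w : Form (DT π ρ A X ε)) :
    S hι (len (p + 1) w) = len p (S hι w) := by
  have := S_sc_len hι (fun n => if n = p + 1 then (1 : ℝ) else 0) w
  have h1 : sc (fun l : List M => if l.length + 1 = p + 1 then (1 : ℝ) else 0) (S hι w) =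
      len p (S hι w) := sc_congr (fun l => by simp [ind]) _
  rw [h1] at this
  rw [← this]
  rfl

theorem S_len_zero (hι : Ins π ρ A X ι) (w : Form (DT π ρ A X ε)) : S hι (len 0 w) = 0 := by
  have := S_sc_len hι (fun n => if n = 0 then (1 : ℝ) else 0) w
  have h1 : sc (fun l : List M => if l.length + 1 = 0 then (1 : ℝ) else 0) (S hι w) = 0 :=
    ext_T fun V _ _ _ u s F h => by rw [sc_val _ _ h, Form.zero_val]; simp
  rw [h1] at this
  rw [← this]
  rfl

/-- elements of total degree `m`: form degree plus length -/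
structure TDg (m : ℕ) (w : Form (DT π ρ A X ε)) : Prop where
  zero : len 0 w = 0
  deg : ∀ p q, p + q = m → Form.IsDeg q (len p w)
  top : ∀ p, m < p → len p w = 0

end

end Vale.Agent.P216.V1
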