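import Vale.Agent.P216.V1.Tot
import Vale.Agent.P216.N929.Fib0

/-!
# P216-V, V1-W: the map `W` from list cochains to forms

`W n c = ± ∑ t_{x₀} dt_{x₁} ⋯ dt_{xₙ} c [xₙ, …, x₀]`: a chain map which is multiplicative on cocycles.
-/

set_option linter.unusedSectionVars false
set_option linter.unusedVariables false
set_option linter.all false

open Set Filter Topology
open scoped ContDiff

namespace Vale.Agent.P216.V1.Wc

open Vale.Agent.P231.Fm Vale.Agent.P231.WA

noncomputable section

section Gen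

variable {E M N : Type} [PseudoMetricSpace E] [PseudoMetricSpace M] [PseudoMetricSpace N]
variable {π : E → N} {ρ : M → N} {A : Set M} {X : Set E} {ε : ℝ} {ι : E → M}

/-- the iterate of `d S` -/
def RR (hι : Ins π ρ A X ι) : ℕ → Form (DT π ρ A X ε) → Form (DT π ρ A X ε)
  | 0, w => w
  | n + 1, w => (S hι (RR hι n w)).d

variable (hι : Ins π ρ A X ι)
include hι

@[simp] theorem RR_zero (w : Form (DT π ρ A X ε)) : RR hι 0 w = w := rfl

theorem RR_succ (n : ℕ) (w : Form (DT π ρ A X ε)) : RR hι (n + 1) w = (S hι (RR hι n w)).d := rfl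

theorem RR_add (n : ℕ) (v w : Form (DT π ρ A X ε)) :
    RR hι n (v + w) = RR hι n v + RR hι n w := by
  induction n with
  | zero => rfl
  | succ n ih => rw [RR_succ, ih, S_add, Form.d_add, RR_succ, RR_succ]

theorem RR_smul (n : ℕ) (c : ℝ) (w : Form (DT π ρ A X ε)) :
    RR hι n (c • w) = c • RR hι n w := by
  induction n with
  | zero => rfl
  | succ n ih => rw [RR_succ, ih, S_smul, Form.d_smul, RR_succ]

theorem RR_zero' (n : ℕ) : RR hι n (0 : Form (DT π ρ A X ε)) = 0 := by
  have := RR_smul hι n 0 (0 : Form (DT π ρ A X ε))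
  rwa [zero_smul, zero_smul] at this

theorem RR_neg (n : ℕ) (w : Form (DT π ρ A X ε)) : RR hι n (-w) = -RR hι n w := by
  have := RR_smul hι n (-1) w
  rwa [neg_one_smul, neg_one_smul] at this

theorem RR_sub (n : ℕ) (v w : Form (DT π ρ A X ε)) :
    RR hι n (v - w) = RR hι n v - RR hι n w := by
  rw [sub_eq_add_neg, RR_add, RR_neg, ← sub_eq_add_neg]

theorem RR_add_right (m n : ℕ) (w : Form (DT π ρ A X ε)) :
    RR hι (m + n) w = RR hι m (RR hι n w) := by
  induction m with
  | zero => rw [Nat.zero_add]; rfl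
  | succ m ih => rw [Nat.succ_add, RR_succ, ih, RR_succ]

theorem d_RR_succ (n : ℕ) (w : Form (DT π ρ A X ε)) : (RR hι (n + 1) w).d = 0 := Form.d_d _

theorem d_RR (n : ℕ) {w : Form (DT π ρ A X ε)} (hw : w.d = 0) : (RR hι n w).d = 0 := by
  cases n with
  | zero => exact hw
  | succ n => exact d_RR_succ hι n w

theorem isDeg_S {k : ℕ} {w : Form (DT π ρ A X ε)} (hw : Form.IsDeg k w) :
    Form.IsDeg k (S hι w) := by
  rw [Form.IsDeg, part_S, hw.part_eq]

theorem isDeg_RR (n : ℕ) {k : ℕ} {w : Form (DT π ρ A X ε)} (hw : Form.IsDeg k w) :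
    Form.IsDeg (k + n) (RR hι n w) := by
  induction n with
  | zero => exact hw
  | succ n ih => exact (isDeg_S hι ih).d

theorem RR_len (n p : ℕ) (w : Form (DT π ρ A X ε)) :
    RR hι n (len (p + n) w) = len p (RR hι n w) := by
  induction n generalizing p with
  | zero => rfl
  | succ n ih =>
    rw [RR_succ, RR_succ, show p + (n + 1) = (p + 1) + n by omega, ih, S_len, d_len]

/-- `del` of `S (d S)^n w` for closed `w` -/
theorem del_RR (n : ℕ) {w : Form (DT π ρ A X ε)} (hw : w.d = 0) :
    del (RR hι n w) = (-1 : ℝ) ^ n • RR hι n (del w) := by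
  induction n with
  | zero => rw [pow_zero, one_smul]; rfl
  | succ n ih =>
    rw [RR_succ, ← d_del]
    have h1 : del (S hι (RR hι n w)) = RR hι n w - S hι (del (RR hι n w)) := by
      rw [eq_sub_iff_add_eq, del_S]
    rw [h1, Form.d_sub, d_RR hι n hw, ih, S_smul, Form.d_smul, zero_sub, RR_succ, pow_succ,
      mul_neg_one, neg_smul]

/-- the basic relation -/
theorem del_S_RR (n : ℕ) {w : Form (DT π ρ A X ε)} (hw : w.d = 0) :
    del (S hι (RR hι n w)) = RR hι n w - (-1 : ℝ) ^ n • S hι (RR hι n (del w)) := by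
  rw [eq_sub_iff_add_eq, ← S_smul, ← del_RR hι n hw, del_S]

/-! ### Multiplication by forms which do not depend on the list -/

/-- `a` does not depend on the list -/
theorem S_fst_mul (a : Form (DM X ε)) (w : Form (DT π ρ A X ε)) :
    S hι (Form.pull Prod.fst map_fst a * w) = Form.pull Prod.fst map_fst a * S hι w :=
  ext_T fun V _ _ _ u s F hF => by
    rw [S_val hι _ hF, Form.mul_val, S_val hι _ hF, Finset.mul_sum]
    refine Finset.sum_congr rfl fun x hx => ?_
    have h4 : Supp π ρ A X ε F (fun y => ((u y).1, ι x :: (u s).2)) s :=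
      (hF.ins hι hx).sub (l := ι x :: (u s).2) fun z hz => hz
    rw [Form.mul_val, Form.pull_val _ _ h4.at, Form.pull_val _ _ hF.at, mul_smul_comm]
    rfl

theorem RR_fst_mul (n : ℕ) {a : Form (DM X ε)} (ha : a.d = 0) {p : ℕ} (hp : Form.IsDeg p a)
    (w : Form (DT π ρ A X ε)) :
    RR hι n (Form.pull Prod.fst map_fst a * w) =
      (-1 : ℝ) ^ (p * n) • (Form.pull Prod.fst map_fst a * RR hι n w) := by
  induction n with
  | zero => rw [mul_zero, pow_zero, one_smul]; rfl
  | succ n ih =>
    rw [RR_succ, ih, S_smul, S_fst_mul, Form.d_smul, Form.d_mul, ← Form.pull_d, ha]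
    have h0 : Form.pull Prod.fst (map_fst (π := π) (ρ := ρ) (A := A)) (0 : Form (DM X ε)) = 0 :=
      map_zero (Form.pullA Prod.fst map_fst)
    rw [h0, zero_mul, zero_add, ← Form.pull_sg, hp.sg]
    have h1 : Form.pull Prod.fst (map_fst (π := π) (ρ := ρ) (A := A)) ((-1 : ℝ) ^ p • a) =
        (-1 : ℝ) ^ p • Form.pull Prod.fst map_fst a :=
      map_smul (Form.pullA Prod.fst map_fst) _ _
    rw [h1, smul_mul_assoc, smul_smul, ← pow_add, RR_succ]
    congr 2

/-! ### Truncation of the list -/

end Gen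

section Cut

variable {E M N : Type} [PseudoMetricSpace E] [PseudoMetricSpace M] [PseudoMetricSpace N]
variable {π : E → N} {ρ : M → N} {A : Set M} {X : Set E} {ε : ℝ} {ι : E → M}

/-- keep the first `k` points of the list -/
theorem map_cut (k : ℕ) : (DT π ρ A X ε).Map (DT π ρ A X ε) (fun p => (p.1, p.2.take k)) := by
  rintro V _ _ _ u s ⟨F, h⟩
  refine (DT π ρ A X ε).congr (u := fun y => ((u y).1, (u s).2.take k))
    ⟨F, h.sub fun x hx => List.mem_of_mem_take hx⟩ ?_
  filter_upwards [h.cst] with y hy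
  change _ = ((u y).1, (u y).2.take k)
  rw [hy]

/-- keep the first `k` points of the list -/
def cut (k : ℕ) (w : Form (DT π ρ A X ε)) : Form (DT π ρ A X ε) :=
  Form.pull (fun p => (p.1, p.2.take k)) (map_cut k) w

theorem cut_val {V : Type} [NormedAddCommGroup V] [NormedSpace ℝ V] [FiniteDimensional ℝ V]
    {u : V → MP E M} {s : V} {F : Finset E} (k : ℕ) (w : Form (DT π ρ A X ε))
    (h : Supp π ρ A X ε F u s) :
    (cut k w).val u s = w.val (fun y => ((u y).1, (u s).2.take k)) s := by
  rw [cut, Form.pull_val _ _ h.at]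
  refine w.congr (map_cut k h.at) ?_
  filter_upwards [h.cst] with y hy
  change ((u y).1, (u y).2.take k) = _
  rw [hy]

theorem d_cut (k : ℕ) (w : Form (DT π ρ A X ε)) : (cut k w).d = cut k w.d :=
  (Form.pull_d _ _ _).symm

theorem S_cut (hι : Ins π ρ A X ι) (k : ℕ) (w : Form (DT π ρ A X ε)) (c : List M → ℝ) :
    S hι (cut (k + 1) w * cst (fun l => c (l.drop 1))) = cut k (S hι w) * cst c :=
  ext_T fun V _ _ _ u s F hF => by
    rw [S_val hι _ hF, Form.mul_val, cut_val _ _ hF, cst_val _ hF,
      S_val' hι w hF (fun x hx => List.mem_of_mem_take hx), Finset.sum_mul]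
    refine Finset.sum_congr rfl fun x hx => ?_
    have h4 : Supp π ρ A X ε F (fun y => ((u y).1, ι x :: (u s).2)) s :=
      (hF.ins hι hx).sub (l := ι x :: (u s).2) fun z hz => hz
    rw [Form.mul_val, cut_val _ _ h4, cst_val _ h4, smul_mul_assoc]
    rfl

theorem RR_cut (hι : Ins π ρ A X ι) (n k : ℕ) (w : Form (DT π ρ A X ε)) (c : List M → ℝ) :
    RR hι n (cut (k + n) w * cst (fun l => c (l.drop n))) = cut k (RR hι n w) * cst c := by
  induction n generalizing k c with
  | zero => rfl
  | succ n ih =>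
    have h1 := ih (k + 1) (fun l => c (l.drop 1))
    rw [show k + (n + 1) = k + 1 + n by omega, RR_succ]
    have h2 : (fun l : List M => c (l.drop (n + 1))) = fun l => c ((l.drop n).drop 1) := by
      funext l
      rw [List.drop_drop]
    rw [h2, h1, S_cut, Form.d_mul, d_cst, mul_zero, add_zero, d_cut]
    rfl

end Cut

/-! ### The map `W` -/

variable {E : Type} [PseudoMetricSpace E] {X Y : Set E} {ε ε' : ℝ}

/-- the absolute case -/
theorem ins_id (X : Set E) : Ins (id : E → E) (id : E → E) X X id :=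
  ins_self (fun _ _ => le_rfl) fun _ h => h

variable (X ε) in
/-- the absolute space of measures with lists -/
abbrev DA : Dif (MP E E) := DT (id : E → E) (id : E → E) X X ε

/-- restriction to the empty list -/
def em (w : Form (DA X ε)) : Form (DM X ε) := Form.pull (fun μ => (μ, [])) map_emp w

theorem em_add (v w : Form (DA X ε)) : em (v + w) = em v + em w :=
  map_add (Form.pullA (fun μ => (μ, ([] : List E))) map_emp) v w

theorem em_sub (v w : Form (DA X ε)) : em (v - w) = em v - em w :=
  map_sub (Form.pullA (fun μ => (μ, ([] : List E))) map_emp) v w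

theorem em_smul (c : ℝ) (w : Form (DA X ε)) : em (c • w) = c • em w :=
  map_smul (Form.pullA (fun μ => (μ, ([] : List E))) map_emp) c w

theorem em_mul (v w : Form (DA X ε)) : em (v * w) = em v * em w :=
  map_mul (Form.pullA (fun μ => (μ, ([] : List E))) map_emp) v w

theorem em_d (w : Form (DA X ε)) : em w.d = (em w).d :=
  Form.pull_d (fun μ => (μ, ([] : List E))) map_emp w

theorem em_val {V : Type} [NormedAddCommGroup V] [NormedSpace ℝ V] [FiniteDimensional ℝ V]
    {u : V → (E →₀ ℝ)} {s : V} (w : Form (DA X ε)) (hu : (DM X ε).At u s) :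
    (em w).val u s = w.val (fun y => (u y, [])) s :=
  Form.pull_val (f := fun μ => (μ, ([] : List E))) map_emp w hu

theorem em_fst (a : Form (DM X ε)) :
    em (Form.pull Prod.fst (map_fst (π := (id : E → E)) (ρ := (id : E → E)) (A := X)) a) = a :=
  Form.ext_val fun V _ _ _ u s hu => by
    have h1 : (DA X ε).At (fun y => (u y, ([] : List E))) s := map_emp hu
    rw [em_val _ hu, Form.pull_val _ _ h1]
    rfl

theorem em_len (w : Form (DA X ε)) : em (len 0 w) = em w :=
  Form.ext_val fun V _ _ _ u s hu => by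
    obtain ⟨F, hF⟩ := map_emp (π := (id : E → E)) (ρ := (id : E → E)) (A := X) hu
    rw [em_val _ hu, em_val _ hu]
    exact (len_val 0 w hF).trans (if_pos rfl)

theorem em_del (w : Form (DA X ε)) : em (del w) = 0 :=
  Form.ext_val fun V _ _ _ u s hu => by
    obtain ⟨F, hF⟩ := map_emp (π := (id : E → E)) (ρ := (id : E → E)) (A := X) hu
    rw [em_val _ hu]
    exact (del_val w hF).trans rfl

/-- `S (d S)^n c` -/
def AA (n : ℕ) (c : List E → ℝ) : Form (DA X ε) := S (ins_id X) (RR (ins_id X) n (cst c))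

/-- the sign of `W` -/
def sW (n : ℕ) : ℝ := (-1) ^ (n * (n + 1) / 2)

theorem sW_zero : sW 0 = 1 := by simp [sW]

theorem sW_succ (n : ℕ) : sW (n + 1) = (-1) ^ (n + 1) * sW n := by
  rw [sW, sW, ← pow_add]
  congr 1
  have h : (n + 1) * (n + 1 + 1) = n * (n + 1) + (n + 1) * 2 := by ring
  rw [h, Nat.add_mul_div_right _ _ (by norm_num : 0 < 2)]
  ring

theorem sW_mul_self (n : ℕ) : sW n * sW n = 1 := by
  rw [sW, ← mul_pow]
  simp

theorem sW_add (p q : ℕ) : sW (p + q) = (-1) ^ (p * q) * (sW p * sW q) := by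
  induction q with
  | zero => simp [sW_zero]
  | succ q ih =>
    rw [← add_assoc, sW_succ, ih, sW_succ]
    have h : (p * (q + 1)) = p * q + p := by ring
    rw [h, pow_add (-1 : ℝ) (p * q) p, add_assoc p q 1, pow_add (-1 : ℝ) p (q + 1)]
    ring

theorem cst_add (c c' : List E → ℝ) :
    (cst (c + c') : Form (DA X ε)) = cst c + cst c' :=
  ext_T fun V _ _ _ u s F hF => by
    rw [Form.add_val, cst_val _ hF, cst_val _ hF, cst_val _ hF, Pi.add_apply, map_add]

theorem cst_smul (r : ℝ) (c : List E → ℝ) :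
    (cst (r • c) : Form (DA X ε)) = r • cst c :=
  ext_T fun V _ _ _ u s F hF => by
    rw [Form.smul_val, cst_val _ hF, cst_val _ hF, Pi.smul_apply, smul_eq_mul, map_mul,
      Algebra.smul_def]

variable (X ε) in
/-- **the chain map from lists to forms** -/
def W (n : ℕ) : (List E → ℝ) →ₗ[ℝ] Form (DM X ε) where
  toFun c := sW n • em (AA n c)
  map_add' c c' := by
    rw [AA, cst_add, RR_add, S_add, em_add, smul_add]
    rfl
  map_smul' r c := by
    rw [AA, cst_smul, RR_smul, S_smul, em_smul, smul_comm]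
    rfl

theorem W_apply (n : ℕ) (c : List E → ℝ) : W X ε n c = sW n • em (AA n c) := rfl

theorem isDeg_AA (n : ℕ) (c : List E → ℝ) : Form.IsDeg n (AA n c : Form (DA X ε)) := by
  have := isDeg_RR (ins_id X) n (isDeg_cst (π := (id : E → E)) (ρ := (id : E → E)) (A := X)
    (X := X) (ε := ε) c)
  rw [zero_add] at this
  exact isDeg_S _ this

theorem isDeg_em {k : ℕ} {w : Form (DA X ε)} (hw : Form.IsDeg k w) : Form.IsDeg k (em w) :=
  hw.pull (fun μ => (μ, ([] : List E))) map_emp

theorem W_isDeg (n : ℕ) (c : List E → ℝ) : Form.IsDeg n (W X ε n c) :=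
  (isDeg_em (isDeg_AA n c)).smul _

theorem d_AA (n : ℕ) (c : List E → ℝ) :
    (AA n c : Form (DA X ε)).d = RR (ins_id X) (n + 1) (cst c) := rfl

theorem del_AA (n : ℕ) (c : List E → ℝ) : del (AA n c : Form (DA X ε)) =
    RR (ins_id X) n (cst c) - (-1 : ℝ) ^ n • AA n (bl c) := by
  rw [AA, del_S_RR _ n (d_cst c), del_cst]
  rfl

/-- the boundary formula on the empty list -/
theorem em_RR_succ (n : ℕ) (c : List E → ℝ) :
    em (RR (ins_id X) n (cst c) : Form (DA X ε)) = (-1 : ℝ) ^ n • em (AA n (bl c)) := by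
  have h := congrArg em (del_AA (X := X) (ε := ε) n c)
  rw [em_del, em_sub, em_smul] at h
  exact (sub_eq_zero.1 h.symm)

/-- **`W` is a chain map** -/
theorem W_d (n : ℕ) (c : List E → ℝ) : (W X ε n c).d = W X ε (n + 1) (Sl.dl c) := by
  rw [W_apply, W_apply, Form.d_smul, ← em_d, d_AA, em_RR_succ, smul_smul, sW_succ, mul_comm]
  congr 3
  funext l
  exact (bl_eq_dl c l).symm ▸ rfl

/-- only the lists of length `n + 1` matter -/
theorem em_AA_congr (n : ℕ) {w v : Form (DA X ε)} (h : len (n + 1) w = len (n + 1) v) :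
    em (S (ins_id X) (RR (ins_id X) n w)) = em (S (ins_id X) (RR (ins_id X) n v)) := by
  rw [← em_len, ← em_len (S (ins_id X) (RR (ins_id X) n v)), ← S_len, ← S_len,
    ← RR_len, ← RR_len, show 0 + 1 + n = n + 1 by omega, h]

theorem len_cst_congr {n : ℕ} {c c' : List E → ℝ}
    (h : ∀ l, l.length = n → PS.SmL X ε l → c l = c' l) :
    len n (cst c : Form (DA X ε)) = len n (cst c') :=
  ext_T fun V _ _ _ u s F hF => by
    rw [len_val _ _ hF, len_val _ _ hF]
    split_ifs with hl
    · rw [cst_val _ hF, cst_val _ hF, h _ hl hF.smA]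
    · rfl

/-- `W` only depends on the small lists of length `n + 1` -/
theorem W_congr (n : ℕ) {c c' : List E → ℝ}
    (h : ∀ l, l.length = n + 1 → PS.SmL X ε l → c l = c' l) : W X ε n c = W X ε n c' := by
  rw [W_apply, W_apply, AA, AA, em_AA_congr n (len_cst_congr h)]

theorem W_eq_zero (n : ℕ) {c : List E → ℝ}
    (h : ∀ l, l.length = n + 1 → PS.SmL X ε l → c l = 0) : W X ε n c = 0 := by
  rw [W_congr n (c' := 0) fun l hl hs => h l hl hs, map_zero]

/-- the forms of cocycles are closed -/
theorem W_closed (n : ℕ) {c : List E → ℝ}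
    (h : ∀ l, l.length = n + 2 → PS.SmL X ε l → Sl.dl c l = 0) : (W X ε n c).d = 0 := by
  rw [W_d, W_eq_zero _ h]

/-- on the lists of length one, for a cocycle: `(dS)^n c = S (dS)^n c` on the empty list -/
theorem RR_one (n : ℕ) {c : List E → ℝ}
    (h : ∀ l, l.length = n + 2 → PS.SmL X ε l → Sl.dl c l = 0) :
    len 1 (RR (ins_id X) n (cst c) : Form (DA X ε)) =
      len 1 (Form.pull Prod.fst map_fst (em (AA n c))) := by
  have h0 : len 1 (AA n (bl c) : Form (DA X ε)) = 0 := by
    rw [AA, ← S_len, ← RR_len, show 1 + 1 + n = n + 2 by omega,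
      len_cst_congr (c' := 0) (fun l hl hs => by rw [bl_eq_dl]; exact h l hl hs)]
    have h1 : (cst (0 : List E → ℝ) : Form (DA X ε)) = 0 :=
      ext_T fun V _ _ _ u s F hF => by
        rw [cst_val _ hF, Form.zero_val, Pi.zero_apply, map_zero]
    rw [h1, len_zero, RR_zero', S_zero]
  have h2 := congrArg (len 1) (del_AA (X := X) (ε := ε) n c)
  rw [len_sub, len_smul, h0, smul_zero, sub_zero] at h2
  rw [← h2]
  refine ext_T fun V _ _ _ u s F hF => ?_
  rw [len_val _ _ hF, len_val _ _ hF]
  split_ifs with hl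
  · obtain ⟨x, hx⟩ := List.length_eq_one_iff.1 hl
    rw [del_val _ hF, hx, bl_cons, bl_nil, sub_zero, Form.pull_val _ _ hF.at,
      em_val _ (map_fst hF.at)]
    rfl
  · rfl

/-- **`W` is multiplicative** when the first factor is a cocycle -/
theorem W_cup (p q : ℕ) {f g : List E → ℝ}
    (hf : ∀ l, l.length = p + 2 → PS.SmL X ε l → Sl.dl f l = 0) :
    W X ε (p + q) (N929.cup p f g) = W X ε p f * W X ε q g := by
  have hcl : (em (AA p f : Form (DA X ε))).d = 0 := by
    have h1 := W_closed (X := X) (ε := ε) p hf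
    rw [W_apply, Form.d_smul] at h1
    have h2 := congrArg (fun w => sW p • w) h1
    simp only [smul_smul, sW_mul_self, one_smul, smul_zero] at h2
    exact h2
  set a : Form (DM X ε) := em (AA p f) with ha
  have hdeg : Form.IsDeg p a := isDeg_em (isDeg_AA p f)
  have e1 : (cst (N929.cup p f g) : Form (DA X ε)) =
      cut (1 + p) (cst f) * cst (fun l => g (l.drop p)) := by
    refine ext_T fun V _ _ _ u s F hF => ?_
    rw [Form.mul_val, cut_val _ _ hF, cst_val _ hF, cst_val _ hF,
      cst_val _ (hF.sub (l := (u s).2.take (1 + p)) fun x hx => List.mem_of_mem_take hx),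
      ← map_mul, N929.cup, add_comm 1 p]
  have e2 : RR (ins_id X) p (cst (N929.cup p f g) : Form (DA X ε)) =
      cut 1 (RR (ins_id X) p (cst f)) * cst g := by
    rw [e1, RR_cut]
  have e3 : len (q + 1) (RR (ins_id X) p (cst (N929.cup p f g)) : Form (DA X ε)) =
      len (q + 1) (Form.pull Prod.fst map_fst a * cst g) := by
    rw [e2]
    refine ext_T fun V _ _ _ u s F hF => ?_
    rw [len_val _ _ hF, len_val _ _ hF]
    split_ifs with hl
    · obtain ⟨x, l, hxl⟩ : ∃ x l, (u s).2 = x :: l := by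
        cases h1 : (u s).2 with
        | nil => rw [h1] at hl; simp at hl
        | cons x l => exact ⟨x, l, rfl⟩
      have h4 : Supp (id : E → E) (id : E → E) X X ε F (fun y => ((u y).1, [x])) s :=
        hF.sub (l := [x]) fun z hz => by
          rw [hxl]
          rw [List.mem_singleton] at hz
          rw [hz]
          exact List.mem_cons_self
      have h5 : (u s).2.take 1 = [x] := by rw [hxl]; rfl
      rw [Form.mul_val, Form.mul_val, cut_val _ _ hF, h5]
      have h6 : (len 1 (RR (ins_id X) p (cst f) : Form (DA X ε))).val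
          (fun y => ((u y).1, [x])) s = (len 1 (Form.pull Prod.fst map_fst a :
            Form (DA X ε))).val (fun y => ((u y).1, [x])) s := by
        rw [RR_one (X := X) (ε := ε) p hf]
      rw [len_val _ _ h4, len_val _ _ h4, if_pos (by simp), if_pos (by simp)] at h6
      rw [h6, Form.pull_val _ _ h4.at, Form.pull_val _ _ hF.at]
      rfl
    · rfl
  have e4 : em (AA (p + q) (N929.cup p f g) : Form (DA X ε)) =
      (-1 : ℝ) ^ (p * q) • (a * em (AA q g)) := by
    rw [AA, add_comm p q, RR_add_right, em_AA_congr q e3, RR_fst_mul _ q hcl hdeg, S_smul,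
      S_fst_mul, em_smul, em_mul, em_fst]
    rfl
  rw [W_apply, W_apply, W_apply, e4, sW_add, smul_smul, ← ha]
  rw [smul_mul_smul_comm]
  congr 1
  have : ((-1 : ℝ) ^ (p * q)) * (-1) ^ (p * q) = 1 := by
    rw [← mul_pow]
    simp
  calc (-1 : ℝ) ^ (p * q) * (sW p * sW q) * (-1) ^ (p * q) =
      ((-1 : ℝ) ^ (p * q) * (-1) ^ (p * q)) * (sW p * sW q) := by ring
    _ = sW p * sW q := by rw [this, one_mul]

end

end Vale.Agent.P216.V1.Wc
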