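import Vale.Agent.P216.V1.W

/-!
# P216-V, V1-W: `W n c` and the cocycle `c` are cohomologous in the double complex
-/

set_option linter.unusedSectionVars false
set_option linter.unusedVariables false
set_option linter.all false

open Set Filter Topology
open scoped ContDiff

namespace Vale.Agent.P216.V1.Wc

open Vale.Agent.P231.Fm Vale.Agent.P231.WA

noncomputable section

variable {E : Type} [PseudoMetricSpace E] {X Y : Set E} {ε ε' : ℝ}

/-- the sign `∏_{j < k} -(-1)^(n - j)` -/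
def sR (n k : ℕ) : ℝ := ∏ j ∈ Finset.range k, (-(-1 : ℝ) ^ (n - j))

theorem sR_zero (n : ℕ) : sR n 0 = 1 := by simp [sR]

theorem sR_succ (n k : ℕ) : sR n (k + 1) = sR n k * (-(-1 : ℝ) ^ (n - k)) := by
  rw [sR, sR, Finset.prod_range_succ]

theorem sR_self (n : ℕ) : sR n n = (-1) ^ n * sW n := by
  induction n with
  | zero => simp [sR, sW_zero]
  | succ n ih =>
    have h1 : sR (n + 1) (n + 1) = sR n n * (-(-1 : ℝ) ^ (n + 1)) := by
      rw [sR, Finset.prod_range_succ', sR]
      congr 1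
      refine Finset.prod_congr rfl fun j _ => ?_
      rw [Nat.add_sub_add_right]
    rw [h1, ih, sW_succ]
    have h2 : ((-1 : ℝ) ^ (n + 1)) * (-1) ^ (n + 1) = 1 := by
      rw [← mul_pow]
      simp
    have h3 : ((-1 : ℝ) ^ n) * (-1) ^ n = 1 := by
      rw [← mul_pow]
      simp
    calc (-1 : ℝ) ^ n * sW n * -(-1) ^ (n + 1) = ((-1 : ℝ) ^ n * (-1) ^ n) * sW n := by
          rw [pow_succ]
          ring
      _ = sW n := by rw [h3, one_mul]
      _ = (-1) ^ (n + 1) * ((-1) ^ (n + 1) * sW n) := by rw [← mul_assoc, h2, one_mul]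

/-- the cochain restricted to the lists of length `n + 1` -/
def cr (n : ℕ) (c : List E → ℝ) (l : List E) : ℝ := if l.length = n + 1 then c l else 0

theorem cst_cr (n : ℕ) (c : List E → ℝ) :
    (cst (cr n c) : Form (DA X ε)) = len (n + 1) (cst c) :=
  ext_T fun V _ _ _ u s F hF => by
    rw [cst_val _ hF, len_val _ _ hF, cr]
    split_ifs
    · rw [cst_val _ hF]
    · rw [map_zero]

theorem bl_cr (n : ℕ) (c : List E → ℝ) (l : List E) :
    bl (cr n c) l = if l.length = n + 2 then bl c l else 0 := by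
  split_ifs with h
  · exact bl_congr fun l' h1 _ => by rw [cr, if_pos (by omega)]
  · rw [← bl_zero (L := ℝ) l]
    exact bl_congr fun l' h1 _ => by rw [cr, if_neg (by omega)]

/-- the restricted cochain is closed -/
theorem cst_bl_cr {n : ℕ} {c : List E → ℝ}
    (h : ∀ l, l.length = n + 2 → PS.SmL X ε l → Sl.dl c l = 0) :
    (cst (bl (cr n c)) : Form (DA X ε)) = 0 :=
  ext_T fun V _ _ _ u s F hF => by
    rw [cst_val _ hF, Form.zero_val, bl_cr]
    split_ifs with hl
    · rw [bl_eq_dl, h _ hl hF.smA, map_zero]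
    · rw [map_zero]

section

variable {n : ℕ} {c : List E → ℝ}

theorem RR_len_self (k : ℕ) (hk : k ≤ n + 1) :
    len (n + 1 - k) (RR (ins_id X) k (cst (cr n c)) : Form (DA X ε)) =
      RR (ins_id X) k (cst (cr n c)) := by
  rw [← RR_len, Nat.sub_add_cancel hk, cst_cr, len_len, if_pos rfl]

theorem len_RR_ne (k : ℕ) (hk : k ≤ n + 1) {p : ℕ} (hp : p ≠ n + 1 - k) :
    len p (RR (ins_id X) k (cst (cr n c)) : Form (DA X ε)) = 0 := by
  rw [← RR_len_self k hk, len_len, if_neg hp]

theorem AA_len_self (k : ℕ) (hk : k ≤ n) :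
    len (n - k) (AA k (cr n c) : Form (DA X ε)) = AA k (cr n c) := by
  have h1 := RR_len_self (X := X) (ε := ε) (n := n) (c := c) k (by omega)
  rw [show n + 1 - k = n - k + 1 by omega] at h1
  rw [AA, ← S_len, h1]

theorem len_AA_ne (k : ℕ) (hk : k ≤ n) {p : ℕ} (hp : p ≠ n - k) :
    len p (AA k (cr n c) : Form (DA X ε)) = 0 := by
  rw [← AA_len_self k hk, len_len, if_neg hp]

theorem sc_sgn_of_len {p : ℕ} {w : Form (DA X ε)} (hw : len p w = w) :
    sc sgn w = (-1 : ℝ) ^ p • w := by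
  rw [← hw]
  refine ext_T fun V _ _ _ u s F hF => ?_
  rw [sc_val _ _ hF, Form.smul_val, len_val _ _ hF]
  split_ifs with hl
  · rw [sgn, hl]
  · rw [smul_zero, smul_zero]

/-- the differential of `AA k` -/
theorem D_AA (h : ∀ l, l.length = n + 2 → PS.SmL X ε l → Sl.dl c l = 0) (k : ℕ) (hk : k ≤ n) :
    D (AA k (cr n c) : Form (DA X ε)) = RR (ins_id X) k (cst (cr n c)) +
      (-1 : ℝ) ^ (n - k) • RR (ins_id X) (k + 1) (cst (cr n c)) := by
  have h1 : (AA k (bl (cr n c)) : Form (DA X ε)) = 0 := by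
    rw [AA, cst_bl_cr h, RR_zero', S_zero]
  rw [D, del_AA, h1, smul_zero, sub_zero, d_AA,
    sc_sgn_of_len (p := n - k) (by
      have h2 := RR_len_self (X := X) (ε := ε) (n := n) (c := c) (k + 1) (by omega)
      rwa [show n + 1 - (k + 1) = n - k by omega] at h2)]

theorem tdg_AA (k : ℕ) (hk : k < n) : TDg n (AA k (cr n c) : Form (DA X ε)) := by
  refine ⟨len_AA_ne k hk.le (by omega), fun p q hpq => ?_, fun p hp => len_AA_ne k hk.le (by omega)⟩
  by_cases h1 : p = n - k
  · rw [h1, AA_len_self k hk.le, show q = k by omega]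
    exact isDeg_AA k _
  · rw [len_AA_ne k hk.le h1]
    exact Form.IsDeg.zero q

end

theorem TDg.sub' {m : ℕ} {v w : Form (DA X ε)} (hv : TDg m v) (hw : TDg m w) : TDg m (v - w) :=
  ⟨by rw [len_sub, hv.zero, hw.zero, sub_zero],
    fun p q h => by rw [len_sub]; exact (hv.deg p q h).sub (hw.deg p q h),
    fun p hp => by rw [len_sub, hv.top p hp, hw.top p hp, sub_zero]⟩

theorem TDg.smul' {m : ℕ} (r : ℝ) {v : Form (DA X ε)} (hv : TDg m v) : TDg m (r • v) :=
  ⟨by rw [len_smul, hv.zero, smul_zero],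
    fun p q h => by rw [len_smul]; exact (hv.deg p q h).smul r,
    fun p hp => by rw [len_smul, hv.top p hp, smul_zero]⟩

theorem TDg.zero' (m : ℕ) : TDg m (0 : Form (DA X ε)) :=
  ⟨len_zero 0, fun p q _ => by rw [len_zero]; exact Form.IsDeg.zero q, fun p _ => len_zero p⟩

/-- the descent -/
theorem exists_descent {n : ℕ} {c : List E → ℝ}
    (h : ∀ l, l.length = n + 2 → PS.SmL X ε l → Sl.dl c l = 0) (k : ℕ) (hk : k ≤ n) :
    ∃ b : Form (DA X ε), TDg n b ∧
      sR n k • RR (ins_id X) k (cst (cr n c)) - cst (cr n c) = D b := by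
  induction k with
  | zero =>
    refine ⟨0, TDg.zero' n, ?_⟩
    rw [sR_zero, one_smul, RR_zero, sub_self, D_zero]
  | succ k ih =>
    obtain ⟨b, hb, hb2⟩ := ih (by omega)
    refine ⟨b - sR n k • AA k (cr n c), TDg.sub' hb (TDg.smul' _ (tdg_AA k (by omega))), ?_⟩
    rw [D_sub, D_smul, ← hb2, D_AA h k (by omega), sR_succ, smul_add, smul_smul]
    rw [mul_neg, neg_smul]
    abel

/-- **`(-1)^n W n c` and `c` are cohomologous in the double complex**, for a cocycle `c` -/
theorem exists_rel {n : ℕ} {c : List E → ℝ}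
    (h : ∀ l, l.length = n + 2 → PS.SmL X ε l → Sl.dl c l = 0) :
    ∃ b : Form (DA X ε), TDg n b ∧
      len 1 (Form.pull Prod.fst map_fst ((-1 : ℝ) ^ n • W X ε n c)) - len (n + 1) (cst c) =
        D b := by
  obtain ⟨b, hb, hb2⟩ := exists_descent h n le_rfl
  refine ⟨b, hb, ?_⟩
  rw [← hb2, cst_cr]
  congr 1
  have hcr : ∀ l, l.length = n + 2 → PS.SmL X ε l → Sl.dl (cr n c) l = 0 := fun l hl hs => by
    rw [← bl_eq_dl, bl_cr, if_pos hl, bl_eq_dl]
    exact h l hl hs
  have h1 : W X ε n c = W X ε n (cr n c) :=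
    W_congr n fun l hl _ => by rw [cr, if_pos hl]
  have h2 := RR_len_self (X := X) (ε := ε) (n := n) (c := c) n (by omega)
  rw [show n + 1 - n = 1 by omega] at h2
  have h3 : Form.pull Prod.fst (map_fst (π := (id : E → E)) (ρ := (id : E → E)) (A := X))
      ((-1 : ℝ) ^ n • W X ε n c) =
      sR n n • Form.pull Prod.fst map_fst (em (AA n (cr n c))) := by
    rw [h1, W_apply, smul_smul, ← sR_self]
    exact map_smul (Form.pullA Prod.fst map_fst) _ _
  rw [h3, len_smul, ← RR_one n hcr, ← cst_cr, h2]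

end

end Vale.Agent.P216.V1.Wc
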