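import Vale.Agent.P216.V1.W2
import Vale.Agent.P216.V1.Cone
import Vale.Agent.P216.V1.Zig0

/-!
# P216-V, V1-W: `W` is an isomorphism on cohomology, at every scale
-/

set_option linter.unusedSectionVars false
set_option linter.unusedVariables false
set_option linter.all false

open Set Filter Topology
open scoped ContDiff

namespace Vale.Agent.P216.V1.Wc

open Vale.Agent.P231.Fm Vale.Agent.P231.WA

noncomputable section

variable {E : Type} [PseudoMetricSpace E] {X Y : Set E} {ε ε' : ℝ}

/-! ### The abstract double complex -/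

theorem zsmul_pow (k : ℕ) (w : Form (DA X ε)) : (-1 : ℤ) ^ k • w = (-1 : ℝ) ^ k • w := by
  rcases neg_one_pow_eq_or ℤ k with h | h
  · have h' : (-1 : ℝ) ^ k = 1 := by exact_mod_cast congrArg (fun z : ℤ => (z : ℝ)) h
    rw [h, h', one_smul, one_smul]
  · have h' : (-1 : ℝ) ^ k = -1 := by exact_mod_cast congrArg (fun z : ℤ => (z : ℝ)) h
    rw [h, h', neg_smul, neg_smul, one_smul, one_smul]

theorem len_sgn (p : ℕ) (w : Form (DA X ε)) : len p (sc sgn w) = (-1 : ℝ) ^ p • len p w := by
  rw [len_sc]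
  exact sc_sgn_of_len (by rw [len_len, if_pos rfl])

variable (X ε) in
/-- forms with lists as an abstract double complex -/
def zW : Zg (Form (DA X ε)) where
  len p := { toFun := len p, map_zero' := len_zero p, map_add' := len_add p }
  D := { toFun := D, map_zero' := D_zero, map_add' := D_add }
  dd := { toFun := Form.d, map_zero' := Form.d_zero, map_add' := Form.d_add }
  del := { toFun := del, map_zero' := del_zero, map_add' := del_add }
  Dg q w := Form.IsDeg q w
  len_self p w := (len_len p p w).trans (if_pos rfl)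
  len_ne p q w h := (len_len p q w).trans (if_neg h)
  ext w hw := ext_len fun p => by rw [len_zero]; exact hw p
  D_D := D_D
  len_D p w := by
    change len (p + 1) (D w) = del (len p w) + (-1 : ℤ) ^ (p + 1) • (len (p + 1) w).d
    rw [D, len_add, ← del_len, len_sgn, zsmul_pow, d_len]
  len_D0 w := by
    change len 0 (D w) = (len 0 w).d
    rw [D, len_add, len_zero_del, zero_add, len_sgn, pow_zero, one_smul, d_len]
  dg_zero q := Form.IsDeg.zero q
  dg_add q v w hv hw := hv.add hw
  dg_neg q v hv := hv.neg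
  dg_len p q w hw := by
    change Form.part q (len p w) = len p w
    rw [part_len, Form.IsDeg.part_eq hw]
  dg_del q w hw := by
    change Form.part q (del w) = del w
    rw [part_del, Form.IsDeg.part_eq hw]
  dg_dd q w hw := hw.d

theorem zW_isH : (zW X ε).IsH (h con_id) where
  dg q w hw := isDeg_h con_id hw
  len p w hw := by
    change len p (h con_id w) = h con_id w
    have hw' : len p w = w := hw
    rw [← h_len, hw']
  dd p q w hp hw hq hd := by
    have hw' : len p w = w := hw
    refine d_h_of_closed con_id hq ?_ hd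
    rw [← hw', len_len, if_neg (by omega)]

theorem zW_isS : (zW X ε).IsS (S (ins_id X)) where
  dg q w hw := isDeg_S (ins_id X) hw
  len p w hw := by
    change len p (S (ins_id X) w) = S (ins_id X) w
    have hw' : len (p + 1) w = w := hw
    rw [← S_len, hw']
  del p w hw hd := by
    have hd' : del w = 0 := hd
    have h1 := del_S (ins_id X) w
    rw [hd', S_zero, add_zero] at h1
    exact h1

theorem tdg_iff {m : ℕ} {w : Form (DA X ε)} : (zW X ε).TDg m w ↔ TDg m w :=
  ⟨fun h => ⟨h.1, h.2.1, h.2.2⟩, fun h => ⟨h.zero, h.deg, h.top⟩⟩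

/-! ### Forms which do not depend on the list -/

/-- the pull-back to lists -/
def pf : Form (DM X ε) →ₐ[ℝ] Form (DA X ε) := Form.pullA Prod.fst map_fst

theorem pf_eq (w : Form (DM X ε)) : (pf w : Form (DA X ε)) = Form.pull Prod.fst map_fst w := rfl

theorem pf_d (w : Form (DM X ε)) : (pf w : Form (DA X ε)).d = pf w.d :=
  (Form.pull_d (Prod.fst : MP E E → _) map_fst w).symm

theorem pf_val {V : Type} [NormedAddCommGroup V] [NormedSpace ℝ V] [FiniteDimensional ℝ V]
    {u : V → MP E E} {s : V} (w : Form (DM X ε)) (h : (DA X ε).At u s) :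
    (pf w).val u s = w.val (fun y => (u y).1) s :=
  Form.pull_val (f := (Prod.fst : MP E E → _)) map_fst w h

/-- a form on the lists of length one -/
def i1 (w : Form (DM X ε)) : Form (DA X ε) := len 1 (Form.pull Prod.fst map_fst w)

theorem i1_sub (v w : Form (DM X ε)) : i1 (v - w) = i1 v - i1 w := by
  rw [i1, i1, i1, ← len_sub]
  congr 1
  exact map_sub (Form.pullA Prod.fst map_fst) v w

theorem i1_add (v w : Form (DM X ε)) : i1 (v + w) = i1 v + i1 w := by
  rw [i1, i1, i1, ← len_add]
  congr 1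
  exact map_add (Form.pullA Prod.fst map_fst) v w

theorem i1_smul (c : ℝ) (w : Form (DM X ε)) : i1 (c • w) = c • i1 w := by
  rw [i1, i1, ← len_smul]
  congr 1
  exact map_smul (Form.pullA Prod.fst map_fst) c w

theorem i1_eq (w : Form (DM X ε)) : (i1 w : Form (DA X ε)) = len 1 (pf w) := rfl

theorem i1_d (w : Form (DM X ε)) : (i1 w).d = i1 w.d := by
  rw [i1_eq, i1_eq, d_len, pf_d]

theorem len_i1 (w : Form (DM X ε)) : len 1 (i1 w) = i1 w := by
  rw [i1, len_len, if_pos rfl]

theorem isDeg_pf {k : ℕ} {w : Form (DM X ε)} (hw : Form.IsDeg k w) :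
    Form.IsDeg k (pf w : Form (DA X ε)) := hw.pull (Prod.fst : MP E E → _) map_fst

theorem isDeg_i1 {k : ℕ} {w : Form (DM X ε)} (hw : Form.IsDeg k w) : Form.IsDeg k (i1 w) := by
  rw [Form.IsDeg, i1_eq, part_len, (isDeg_pf hw).part_eq]

theorem i1_val {V : Type} [NormedAddCommGroup V] [NormedSpace ℝ V] [FiniteDimensional ℝ V]
    {u : V → MP E E} {s : V} {F : Finset E} (w : Form (DM X ε))
    (h : Supp (id : E → E) (id : E → E) X X ε F u s) :
    (i1 w).val u s = if (u s).2.length = 1 then w.val (fun y => (u y).1) s else 0 := by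
  rw [i1_eq, len_val _ _ h, pf_val _ h.at]

theorem del_i1 (w : Form (DM X ε)) : del (i1 w) = 0 := by
  rw [i1_eq, del_len]
  refine ext_T fun V _ _ _ u s F hF => ?_
  rw [len_val _ _ hF, Form.zero_val]
  split_ifs with hl
  · obtain ⟨x, y, hxy⟩ := List.length_eq_two.1 hl
    rw [del_val _ hF, hxy, bl_cons, bl_cons, bl_nil, sub_zero]
    have h1 : ∀ z, z ∈ (u s).2 → (pf w : Form (DA X ε)).val
        (fun y => ((u y).1, [z])) s = w.val (fun y => (u y).1) s := by
      intro z hz
      have h4 : Supp (id : E → E) (id : E → E) X X ε F (fun y => ((u y).1, [z])) s :=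
        hF.sub (l := [z]) fun z' hz' => by
          rw [List.mem_singleton] at hz'
          rw [hz']
          exact hz
      rw [pf_val _ h4.at]
    rw [h1 x (by rw [hxy]; simp), h1 y (by rw [hxy]; simp), sub_self]
  · rfl

theorem D_i1 (w : Form (DM X ε)) : D (i1 w) = -i1 w.d := by
  rw [D, del_i1, zero_add, i1_d, sc_sgn_of_len (len_i1 _), pow_one, neg_one_smul]

theorem tdg_i1 {n : ℕ} {w : Form (DM X ε)} (hw : Form.IsDeg n w) : TDg (n + 1) (i1 w) :=
  tdg_iff.1 (Zg.TDg.single (Z := zW X ε) (p := 1) (q := n) le_rfl (by omega) (len_i1 w)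
    (isDeg_i1 hw))

/-- a form is determined by its values with lists of length one -/
theorem i1_inj {w : Form (DM X ε)} (h : i1 w = 0) : w = 0 :=
  Form.ext_val fun V _ _ _ u s hu => by
    obtain ⟨F, hF⟩ := hu
    have hne : F.Nonempty := by
      by_contra hn
      rw [Finset.not_nonempty_iff_eq_empty] at hn
      have := hF.sum.self_of_nhds
      rw [hn, Finset.sum_empty] at this
      exact zero_ne_one this
    obtain ⟨x, hx⟩ := hne
    have h0 : Supp (id : E → E) (id : E → E) X X ε F (fun y => (u y, [x])) s := by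
      refine ⟨hF.smF, ⟨?_, ?_⟩, ?_, Eventually.of_forall fun _ => rfl, hF.out, hF.sum, hF.sm⟩
      · intro z hz
        rw [List.mem_singleton.1 hz]
        exact hF.smF.1 x hx
      · intro z hz z' hz'
        rw [List.mem_singleton.1 hz, List.mem_singleton.1 hz']
        exact hF.smF.2 x hx x hx
      · intro z hz z' hz'
        rw [List.mem_singleton.1 hz]
        exact hF.smF.2 x hx z' hz'
    have h1 := i1_val w h0
    rw [h, Form.zero_val] at h1
    rw [Form.zero_val, h1]
    simp

/-- elements of length one killed by `del` come from forms without lists -/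
theorem eq_i1 {w : Form (DA X ε)} (hl : len 1 w = w) (hd : del w = 0) :
    w = i1 (em (S (ins_id X) w)) := by
  have h1 := del_S (ins_id X) w
  rw [hd, S_zero, add_zero] at h1
  have h2 := congrArg (len 1) h1
  rw [hl] at h2
  rw [← h2]
  refine ext_T fun V _ _ _ u s F hF => ?_
  rw [len_val _ _ hF, i1_val _ hF]
  split_ifs with hl'
  · obtain ⟨x, hx⟩ := List.length_eq_one_iff.1 hl'
    rw [del_val _ hF, hx, bl_cons, bl_nil, sub_zero]
    rw [h2]
    exact (em_val _ (map_fst hF.at)).symm
  · rfl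

/-- the vertex plots -/
theorem supp_vtx {l : List E} (hl : l ≠ []) (hs : PS.SmL X ε l) :
    ∃ (F : Finset E) (μ : E →₀ ℝ), Supp (id : E → E) (id : E → E) X X ε F
      (fun _ : ℝ => ((μ, l) : MP E E)) 0 := by
  obtain ⟨x, l', rfl⟩ := List.exists_cons_of_ne_nil hl
  have hx : x ∈ x :: l' := List.mem_cons_self
  refine ⟨{x}, Finsupp.single x 1, ⟨⟨?_, ?_⟩, hs, ?_, Eventually.of_forall fun _ => rfl, ?_, ?_,
    fun z => Sm.of_contDiff contDiff_const _⟩⟩
  · intro z hz
    rw [Finset.mem_singleton.1 hz]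
    exact hs.1 x hx
  · intro z hz z' hz'
    rw [Finset.mem_singleton.1 hz, Finset.mem_singleton.1 hz']
    exact hs.2 x hx x hx
  · intro z hz w hw
    rw [Finset.mem_singleton.1 hw]
    exact hs.2 z hz x hx
  · refine Eventually.of_forall fun _ z hz => ?_
    rw [Finset.mem_singleton] at hz
    exact Finsupp.single_eq_of_ne hz
  · refine Eventually.of_forall fun _ => ?_
    rw [Finset.sum_singleton, Finsupp.single_eq_same]

/-- functions of the list which agree as forms agree on small lists -/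
theorem eq_of_cst_eq {c c' : List E → ℝ} {n : ℕ}
    (h : len n (cst c : Form (DA X ε)) = len n (cst c')) {l : List E} (hn : l.length = n)
    (hl : l ≠ []) (hs : PS.SmL X ε l) : c l = c' l := by
  obtain ⟨F, μ, hF⟩ := supp_vtx hl hs
  have h1 : (len n (cst c : Form (DA X ε))).val (fun _ : ℝ => ((μ, l) : MP E E)) 0 =
      (len n (cst c' : Form (DA X ε))).val (fun _ : ℝ => ((μ, l) : MP E E)) 0 := by rw [h]
  rw [len_val _ _ hF, len_val _ _ hF, if_pos hn, if_pos hn, cst_val _ hF, cst_val _ hF] at h1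
  have h2 := congrArg aug h1
  rwa [AlgHom.commutes, AlgHom.commutes] at h2

/-! ### Surjectivity and injectivity -/

/-- **(c)** a form which is zero in the double complex is exact -/
theorem exact_of_i1 {n : ℕ} {η : Form (DM X ε)} {b : Form (DA X ε)}
    (hb : TDg (n + 1) b) (h : i1 η = D b) :
    ∃ β : Form (DM X ε), Form.IsDeg n β ∧ η = β.d := by
  obtain ⟨b3, hb3, h1, h2, h3⟩ := Zg.high (Z := zW X ε) zW_isS (m := n + 1) (by omega)
    (w := b) (tdg_iff.2 hb) (fun p hp => by
      change len p (D b) = 0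
      rw [← h, i1, len_len, if_neg (by omega)])
  change len 1 (b - D b3) = b - D b3 at h1
  change Form.IsDeg n (b - D b3) at h2
  change del (b - D b3) = 0 at h3
  set u := b - D b3 with hu
  have e1 : D u = i1 η := by rw [hu, D_sub, D_D, sub_zero, h]
  have e2 : u = i1 (em (S (ins_id X) u)) := eq_i1 h1 h3
  refine ⟨-em (S (ins_id X) u), (isDeg_em (isDeg_S _ h2)).neg, ?_⟩
  have e3 : i1 (η - (-em (S (ins_id X) u)).d) = 0 := by
    rw [i1_sub, ← e1]
    have e4 : D u = -i1 (em (S (ins_id X) u)).d := by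
      conv_lhs => rw [e2]
      rw [D_i1]
    rw [e4, Form.d_neg]
    have e5 : i1 (-(em (S (ins_id X) u)).d) = -i1 (em (S (ins_id X) u)).d := by
      rw [← neg_one_smul ℝ, i1_smul, neg_one_smul]
    rw [e5, sub_self]
  exact sub_eq_zero.1 (i1_inj e3)

theorem TDg.eq_zero {b : Form (DA X ε)} (hb : TDg 0 b) : b = 0 :=
  ext_len fun p => by
    rw [len_zero]
    rcases Nat.eq_zero_or_pos p with rfl | hp
    · exact hb.zero
    · exact hb.top p hp

/-- **`W` is surjective on cohomology**, at every scale -/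
theorem W_surj {n : ℕ} {η' : Form (DM X ε)} (hη : Form.IsDeg n η') (hd : η'.d = 0) :
    ∃ f : List E → ℝ, (∀ l, l.length = n + 2 → PS.SmL X ε l → Sl.dl f l = 0) ∧
      ∃ β : Form (DM X ε), (n = 0 → β = 0) ∧ (∀ k, n = k + 1 → Form.IsDeg k β) ∧
        η' = W X ε n f + β.d := by
  have hDi : D (i1 η') = 0 := by
    rw [D_i1, hd]
    have h0 := i1_smul (X := X) (ε := ε) 0 0
    rw [zero_smul, zero_smul] at h0
    rw [h0, neg_zero]
  obtain ⟨b, hb, h1, h2, h3⟩ := Zg.low (Z := zW X ε) zW_isH (m := n + 1) (by omega) (w := i1 η')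
    (tdg_iff.2 (tdg_i1 hη)) (fun p _ => by
      change len p (D (i1 η')) = 0
      rw [hDi, len_zero])
  have hb' : TDg n b := tdg_iff.1 hb
  change len (n + 1) (i1 η' - D b) = i1 η' - D b at h1
  change Form.IsDeg 0 (i1 η' - D b) at h2
  change (i1 η' - D b).d = 0 at h3
  set v := i1 η' - D b with hv
  have h0 : len 0 v = 0 := by rw [← h1, len_len, if_neg (by omega)]
  have e1 : v = cst (vtx id v) := eq_cst_of_closed con_id h2 h0 h3
  set c := vtx id v with hc
  have hDv : D v = 0 := by rw [hv, D_sub, hDi, D_D, sub_zero]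
  have hbl : (cst (bl c) : Form (DA X ε)) = 0 := by
    rw [← D_cst, ← e1, hDv]
  have hcoc : ∀ l, l.length = n + 2 → PS.SmL X ε l → Sl.dl c l = 0 := by
    intro l hl hs
    have hz : (cst (fun _ : List E => (0 : ℝ)) : Form (DA X ε)) = 0 :=
      ext_T fun V _ _ _ u s F hF => by rw [cst_val _ hF, Form.zero_val, map_zero]
    have := eq_of_cst_eq (X := X) (ε := ε) (c := bl c) (c' := fun _ => 0) (n := n + 2)
      (by rw [hbl, hz]) hl (by rintro rfl; simp at hl) hs
    rw [← bl_eq_dl]
    exact this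
  obtain ⟨b', hb'', h4⟩ := exists_rel (X := X) (ε := ε) hcoc
  have e2 : len (n + 1) (cst c : Form (DA X ε)) = v := by rw [← e1, h1]
  have e3 : i1 (η' - (-1 : ℝ) ^ n • W X ε n c) = D (b - b') := by
    rw [i1_sub, D_sub, ← h4, e2, hv]
    rw [i1]
    abel
  have hf : ∀ l, l.length = n + 2 → PS.SmL X ε l → Sl.dl ((-1 : ℝ) ^ n • c) l = 0 := by
    intro l hl hs
    have h5 := bl_smul ((-1 : ℝ) ^ n) c l
    rw [← bl_eq_dl]
    change bl (fun l => (-1 : ℝ) ^ n • c l) l = 0
    rw [h5, bl_eq_dl, hcoc l hl hs, smul_zero]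
  refine ⟨(-1 : ℝ) ^ n • c, hf, ?_⟩
  rw [map_smul]
  cases n with
  | zero =>
    have h6 : b - b' = 0 := TDg.eq_zero (TDg.sub' hb' hb'')
    rw [h6, D_zero] at e3
    refine ⟨0, fun _ => rfl, fun k hk => absurd hk (Nat.succ_ne_zero k).symm, ?_⟩
    rw [Form.d_zero, add_zero]
    exact sub_eq_zero.1 (i1_inj e3)
  | succ n =>
    obtain ⟨β, hβ, hβ2⟩ := exact_of_i1 (TDg.sub' hb' hb'') e3
    refine ⟨β, fun h => absurd h (Nat.succ_ne_zero n), fun k hk => ?_, ?_⟩
    · obtain rfl : n = k := by omega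
      exact hβ
    · rw [← hβ2]
      abel

/-- **`W` is injective on cohomology**, at every scale (positive degree) -/
theorem W_inj {n : ℕ} {c : List E → ℝ}
    (hc : ∀ l, l.length = n + 3 → PS.SmL X ε l → Sl.dl c l = 0) {β : Form (DM X ε)}
    (hβ : Form.IsDeg n β) (h : W X ε (n + 1) c = β.d) :
    ∃ g : List E → ℝ, ∀ l, l.length = n + 2 → PS.SmL X ε l → c l = Sl.dl g l := by
  obtain ⟨b, hb, h4⟩ := exists_rel (X := X) (ε := ε) (n := n + 1) hc
  set t : ℝ := (-1 : ℝ) ^ (n + 1) with ht
  have e1 : len (n + 1 + 1) (cst c : Form (DA X ε)) = D (-(b + t • i1 β)) := by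
    have e2 : len 1 (Form.pull Prod.fst map_fst (t • W X ε (n + 1) c)) = -D (t • i1 β) := by
      rw [D_smul, D_i1, h]
      change i1 (t • β.d) = _
      rw [i1_smul, smul_neg, neg_neg]
    rw [e2] at h4
    rw [D_neg, D_add, ← h4]
    abel
  have hb2 : TDg (n + 1) (-(b + t • i1 β)) := by
    refine tdg_iff.1 (Zg.TDg.neg (Zg.TDg.add (tdg_iff.2 hb) ?_))
    exact tdg_iff.2 (TDg.smul' t (tdg_i1 hβ))
  set b' := -(b + t • i1 β) with hb'
  obtain ⟨b4, hb4, h1, h2, h3⟩ := Zg.low (Z := zW X ε) zW_isH (m := n + 1) (by omega) (w := b')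
    (tdg_iff.2 hb2) (fun p hp => by
      change len p (D b') = 0
      rw [← e1, len_len, if_neg (by omega)])
  change len (n + 1) (b' - D b4) = b' - D b4 at h1
  change Form.IsDeg 0 (b' - D b4) at h2
  change (b' - D b4).d = 0 at h3
  set v := b' - D b4 with hv
  have h0 : len 0 v = 0 := by rw [← h1, len_len, if_neg (by omega)]
  have e3 : v = cst (vtx id v) := eq_cst_of_closed con_id h2 h0 h3
  refine ⟨vtx id v, fun l hl hs => ?_⟩
  have e4 : (cst (bl (vtx id v)) : Form (DA X ε)) = len (n + 2) (cst c) := by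
    rw [← D_cst, ← e3, hv, D_sub, D_D, sub_zero, ← e1]
  have e5 := eq_of_cst_eq (X := X) (ε := ε) (c := bl (vtx id v)) (c' := c) (n := n + 2)
    (by rw [e4, len_len, if_pos rfl]) hl (by rintro rfl; simp at hl) hs
  rw [← bl_eq_dl, e5]

/-- injectivity in degree zero -/
theorem W_inj_zero {c : List E → ℝ}
    (hc : ∀ l, l.length = 2 → PS.SmL X ε l → Sl.dl c l = 0) (h : W X ε 0 c = 0) :
    ∀ l, l.length = 1 → PS.SmL X ε l → c l = 0 := by
  intro l hl hs
  have h1 := RR_one (X := X) (ε := ε) 0 hc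
  rw [RR_zero] at h1
  have h2 : em (AA 0 c : Form (DA X ε)) = 0 := by
    rw [W_apply, sW_zero, one_smul] at h
    exact h
  have h3 : (Form.pull Prod.fst map_fst (0 : Form (DM X ε)) : Form (DA X ε)) = 0 :=
    map_zero (Form.pullA Prod.fst map_fst)
  have hz : (cst (fun _ : List E => (0 : ℝ)) : Form (DA X ε)) = 0 :=
    ext_T fun V _ _ _ u s F hF => by rw [cst_val _ hF, Form.zero_val, map_zero]
  rw [h2, h3, len_zero] at h1
  exact eq_of_cst_eq (X := X) (ε := ε) (c := c) (c' := fun _ => 0) (n := 1)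
    (by rw [h1, hz, len_zero]) hl (by rintro rfl; simp at hl) hs

end

end Vale.Agent.P216.V1.Wc
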